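import Vale.Agent.P287Q.Top.CubV
import Vale.Agent.P269.Grr.Alt
import Vale.Agent.P287T.Cy.Defs

/-!
# The class of a graded matrix factorization (P287 phase 2, block HRR): definitions

`V_E = ker d(x)` on the even generators is a bundle on the cubic; `nE` is the primitive part of its
second Chern character, `zE` the charge, `chi` the Euler form.
-/

set_option linter.unusedSectionVars false
set_option linter.style.haveILetI false

namespace Vale.Agent.P287T.Rr

open Set Function Module Matrix MvPolynomial P291Z P269 P269.Holo P269.Mono P269.Tq P269.Ch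
  P269.Grr P287Q P287Q.Cub P287T.Cy P287Z.O P287Z.O.L

variable {ι κ : Type} [Fintype ι] [Fintype κ]

/-- the weight of a generator of charge `a`: even generators are `O(-a/2)`, odd generators are
`O(-(a+3)/2)` -/
def wt (a : ℤ) : ℤ := if 2 ∣ a then -(a / 2) else -((a + 3) / 2)

theorem wt_even {a : ℤ} (h : 2 ∣ a) : 2 * wt a = -a := by rw [wt, if_pos h]; omega

theorem wt_odd {a : ℤ} (h : ¬2 ∣ a) : 2 * wt a = -a - 3 := by rw [wt, if_neg h]; omega

theorem zp_apply {G : Type} [Group G] [TopologicalSpace G] (χ : G →ₜ* ℂˣ) (n : ℤ) (g : G) :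
    ((χ ^ n) g : ℂ) = (χ g : ℂ) ^ n := by
  let φ : (G →ₜ* ℂˣ) →* ℂˣ := ⟨⟨fun f => f g, rfl⟩, fun _ _ => rfl⟩
  exact (congrArg Units.val (map_zpow φ χ n)).trans (Units.val_zpow_eq_zpow_val _ _)

/-- vectors supported on `s` -/
def sup (s : ι → Prop) : Submodule ℂ (ι → ℂ) where
  carrier := {v | ∀ i, ¬s i → v i = 0}
  zero_mem' _ _ := rfl
  add_mem' h h' i hi := by rw [Pi.add_apply, h i hi, h' i hi, add_zero]
  smul_mem' c _ h i hi := by rw [Pi.smul_apply, h i hi, smul_zero]

/-- vectors supported on `s`, fixed by `e` and killed by `D` -/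
def Vf (s : ι → Prop) (e D : Matrix ι ι ℂ) : Submodule ℂ (ι → ℂ) where
  carrier := {v | (∀ i, ¬s i → v i = 0) ∧ e *ᵥ v = v ∧ D *ᵥ v = 0}
  zero_mem' := ⟨fun _ _ => rfl, mulVec_zero _, mulVec_zero _⟩
  add_mem' h h' := ⟨fun i hi => by rw [Pi.add_apply, h.1 i hi, h'.1 i hi, add_zero],
    by rw [mulVec_add, h.2.1, h'.2.1], by rw [mulVec_add, h.2.2, h'.2.2, add_zero]⟩
  smul_mem' c _ h := ⟨fun i hi => by rw [Pi.smul_apply, h.1 i hi, smul_zero],
    by rw [mulVec_smul, h.2.1], by rw [mulVec_smul, h.2.2, smul_zero]⟩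

section fam

variable {Y : Ch.Sp} (χ : Y.G →ₜ* ℂˣ)

/-- the sum of the line bundles `O(w i)` -/
noncomputable abbrev am (w : ι → ℤ) : VB Y := chars fun i => χ ^ w i

/-- a subbundle of a sum of line bundles -/
structure Fam (w : ι → ℤ) (F : Y.T → Submodule ℂ (ι → ℂ)) (r : ℕ) : Prop where
  cl : IsClosed {x : Y.T × (ι → ℂ) | x.2 ∈ F x.1}
  rk : ∀ t, finrank ℂ (F t) = r
  iv : ∀ (g : Y.G) t v, v ∈ F t → (fun i => (χ g : ℂ) ^ w i * v i) ∈ F (g • t)

theorem am_smul (w : ι → ℤ) (g : Y.G) (v : (am χ w).W) :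
    g • v = fun i => (χ g : ℂ) ^ w i * (v : ι → ℂ) i :=
  funext fun i => congrArg (· * (v : ι → ℂ) i) (zp_apply χ (w i) g)

variable {χ}

/-- the subbundle as a vector bundle -/
noncomputable def Fam.vb {w : ι → ℤ} {F : Y.T → Submodule ℂ (ι → ℂ)} {r : ℕ} (h : Fam χ w F r) :
    VB Y := (am χ w).sub F r h.cl h.rk fun g t v hv => (am_smul χ w g v).symm ▸ h.iv g t v hv

/-- the matrices `D t` are a map from `∑ O(w j)` to `∑ O(w' i)` on the vectors supported on `s` -/
def Eqm (χ : Y.G →ₜ* ℂˣ) (s : ι → Prop) (w : ι → ℤ) (w' : κ → ℤ) (D : Y.T → Matrix κ ι ℂ) : Prop :=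
  ∀ (g : Y.G) t i j, s j → D (g • t) i j * (χ g : ℂ) ^ w j = (χ g : ℂ) ^ w' i * D t i j

theorem Eqm.mulVec {s : ι → Prop} {w : ι → ℤ} {w' : κ → ℤ} {D : Y.T → Matrix κ ι ℂ}
    (h : Eqm χ s w w' D) (g : Y.G) (t : Y.T) {v : ι → ℂ} (hv : ∀ i, ¬s i → v i = 0) :
    (D (g • t) *ᵥ fun j => (χ g : ℂ) ^ w j * v j) = fun i => (χ g : ℂ) ^ w' i * (D t *ᵥ v) i := by
  funext i
  rw [Matrix.mulVec, Matrix.mulVec, dotProduct, dotProduct, Finset.mul_sum]
  refine Finset.sum_congr rfl fun j _ => ?_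
  by_cases hj : s j
  · rw [← mul_assoc, h g t i j hj, mul_assoc]
  · simp only [hv j hj, mul_zero]

theorem fam_Vf {s : ι → Prop} {w w' : ι → ℤ} {e D : Y.T → Matrix ι ι ℂ} (ce : Continuous e)
    (cD : Continuous D) (he : Eqm χ s w w e) (hD : Eqm χ s w w' D) {r : ℕ}
    (hr : ∀ t, finrank ℂ (Vf s (e t) (D t)) = r) : Fam χ w (fun t => Vf s (e t) (D t)) r := by
  refine ⟨?_, hr, fun g t v hv => ⟨fun i hi => mul_eq_zero_of_right _ (hv.1 i hi), ?_, ?_⟩⟩
  · have h1 : IsClosed (⋂ i, ⋂ _ : ¬s i, {x : Y.T × (ι → ℂ) | x.2 i = 0}) :=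
      isClosed_iInter fun i => isClosed_iInter fun _ =>
        isClosed_eq ((continuous_apply i).comp continuous_snd) continuous_const
    have h2 : IsClosed {x : Y.T × (ι → ℂ) | e x.1 *ᵥ x.2 = x.2} :=
      isClosed_eq ((ce.comp continuous_fst).matrix_mulVec continuous_snd) continuous_snd
    have h3 : IsClosed {x : Y.T × (ι → ℂ) | D x.1 *ᵥ x.2 = 0} :=
      isClosed_eq ((cD.comp continuous_fst).matrix_mulVec continuous_snd) continuous_const
    convert h1.inter (h2.inter h3) using 1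
    exact Set.ext fun x => and_congr_left fun _ => by simp only [mem_iInter, mem_ofPred_eq]
  · rw [he.mulVec g t hv.1, hv.2.1]
  · rw [hD.mulVec g t hv.1, hv.2.2]
    exact funext fun _ => mul_zero _

end fam

/-- `D` is an odd exact differential on the image of `e`, with contraction `H` -/
structure Fib (p : ι → ℤ) (e D H : Matrix ι ι ℂ) : Prop where
  oD : ∀ i j, 2 ∣ p i - p j → D i j = 0
  oH : ∀ i j, 2 ∣ p i - p j → H i j = 0
  DD : D * D = 0
  eD : e * D = D
  h : D * H + H * D = e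

theorem odd_mulVec {p : ι → ℤ} {q : κ → ℤ} {D : Matrix κ ι ℂ} {a b : ℤ}
    (h : ∀ i j, ¬2 ∣ q i - p j + b → D i j = 0) {v : ι → ℂ} (hv : ∀ j, ¬2 ∣ p j + a → v j = 0)
    (i : κ) (hi : ¬2 ∣ q i + (a + b)) : (D *ᵥ v) i = 0 :=
  Finset.sum_eq_zero fun j _ => by
    by_cases hj : 2 ∣ p j + a
    · exact mul_eq_zero_of_left (h i j (by omega)) _
    · exact mul_eq_zero_of_right _ (hv j hj)

theorem rank_const {T : Type} [TopologicalSpace T] [PreconnectedSpace T]
    {F : T → Submodule ℂ (ι → ℂ)} {P : T → Matrix ι ι ℂ} (hP : Continuous P)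
    (h1 : ∀ t v, P t *ᵥ v ∈ F t) (h2 : ∀ t v, v ∈ F t → P t *ᵥ v = v) (t t' : T) :
    finrank ℂ (F t) = finrank ℂ (F t') := by
  classical
  have h3 : ∀ t, (finrank ℂ (F t) : ℝ) = (P t).trace.re := fun t => by
    rw [← Matrix.trace_toLin'_eq, LinearMap.IsProj.trace (p := F t) ⟨h1 t, h2 t⟩,
      Complex.natCast_re]
  refine PreconnectedSpace.constant ‹_› (f := fun t => finrank ℂ (F t))
    (Nat.isClosedEmbedding_coe_real.isEmbedding.continuous_iff.2 ?_)
  rw [show Nat.cast ∘ (fun t => finrank ℂ (F t)) = fun t => (P t).trace.re from funext h3]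
  exact Complex.continuous_re.comp hP.matrix_trace

theorem Fib.rank {T : Type} [TopologicalSpace T] [PreconnectedSpace T] {p : ι → ℤ}
    {e D H : T → Matrix ι ι ℂ} (h : ∀ t, Fib p (e t) (D t) (H t)) (cD : Continuous D)
    (cH : Continuous H) (a : ℤ) (t t' : T) : finrank ℂ (Vf (fun i => 2 ∣ p i + a) (e t) (D t)) =
      finrank ℂ (Vf (fun i => 2 ∣ p i + a) (e t') (D t')) := by
  classical
  let σ : Matrix ι ι ℂ := diagonal fun i => if 2 ∣ p i + a then 1 else 0
  refine rank_const (F := fun t => Vf (fun i => 2 ∣ p i + a) (e t) (D t))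
    (P := fun t => D t * (H t * σ))
    (cD.matrix_mul (cH.matrix_mul continuous_const)) (fun t v => ⟨fun i hi => ?_, ?_, ?_⟩)
    (fun t v hv => ?_) t t'
  · rw [← mulVec_mulVec, ← mulVec_mulVec]
    refine odd_mulVec (p := p) (q := p) (a := a + 1) (b := 1)
      (fun i j k => (h t).oD i j (by omega))
      (odd_mulVec (p := p) (q := p) (a := a) (b := 1) (fun i j k => (h t).oH i j (by omega))
        fun j hj => ?_) i (by have : ¬2 ∣ p i + a := hi; omega)
    rw [mulVec_diagonal, if_neg hj, zero_mul]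
  · rw [mulVec_mulVec, ← mul_assoc, (h t).eD]
  · rw [mulVec_mulVec, ← mul_assoc, (h t).DD, zero_mul, zero_mulVec]
  · have h1 : σ *ᵥ v = v := funext fun i => by
      rw [mulVec_diagonal]
      split_ifs with hi
      · exact one_mul _
      · rw [hv.1 i hi, mul_zero]
    have h2 := congrArg (· *ᵥ v) (h t).h
    simp only [add_mulVec, ← mulVec_mulVec, hv.2.1, hv.2.2, mulVec_zero, add_zero] at h2
    rw [← mulVec_mulVec, ← mulVec_mulVec, h1, h2]

/-- the value of a matrix of polynomials -/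
noncomputable def evM (x : Fin 6 → ℂ) (d : Matrix κ ι S6) : Matrix κ ι ℂ := d.map (eval x)

/-- the contraction of the fibre at a point of the cubic -/
noncomputable def hoM (W : S6) (d : Matrix ι ι S6) (x : Fin 6 → ℂ) : Matrix ι ι ℂ :=
  (∑ k, (starRingEnd ℂ (eval x (pderiv k W)) * eval x (pderiv k W)))⁻¹ •
    ∑ k, starRingEnd ℂ (eval x (pderiv k W)) • evM x (d.map (pderiv k))

theorem hg_eval {n : ℤ} {f : S6} (hf : V.Hg n f) {c : ℂ} (hc : c ≠ 0) (x : Fin 6 → ℂ) {a b : ℤ}
    (h : 2 ∣ n → n + 2 * a = 2 * b) : eval (c • x) f * c ^ a = c ^ b * eval x f := by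
  by_cases h1 : ∃ k : ℕ, 2 * (k : ℤ) = n
  · obtain ⟨k, rfl⟩ := h1
    have h2 : f.IsHomogeneous k := fun m hm => by
      have h3 := hf hm
      simp only [Finsupp.weight_apply, Finsupp.sum, smul_eq_mul, Pi.one_apply, mul_one,
        nsmul_eq_mul] at h3 ⊢
      rw [← Finset.sum_mul, ← Nat.cast_sum] at h3
      omega
    rw [Hdg.eval_smul_of_hom h2, show b = k + a by have := h ⟨k, rfl⟩; omega, zpow_add₀ hc,
      zpow_natCast]
    ring
  · rw [hga_eq_zero hf fun k e => h1 ⟨k, e⟩, map_zero, map_zero, zero_mul, mul_zero]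

theorem continuous_evM (d : Matrix κ ι S6) : Continuous fun x => evM x d :=
  continuous_matrix fun i j => MvPolynomial.continuous_eval (d i j)

theorem evM_mul {μ : Type} (x : Fin 6 → ℂ) (d : Matrix μ κ S6) (d' : Matrix κ ι S6) :
    evM x (d * d') = evM x d * evM x d' := Matrix.map_mul

theorem hg_pderiv {n : ℤ} {f : S6} (hf : V.Hg n f) (k : Fin 6) : V.Hg (n - 2) (pderiv k f) := by
  have := IsWeightedHomogeneous.pderiv (i := k) (n' := n - 2) hf (by omega)
  exact this

/-- The action of the scalars. -/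
abbrev acX : (Unit → ℂ) → (Fin 6 → ℂ) → Fin 6 → ℂ := scl (π₀ (Fin 6))

/-- a smooth cubic form -/
structure Cu (W : S6) : Prop where
  hom : W.IsHomogeneous 3
  sm : Sm W

variable [DecidableEq ι] {W : S6} {p : ι → ℤ} {d : Matrix ι ι S6}

theorem nrm_ne (h : Sm W) {x : Fin 6 → ℂ} (hx : x ≠ 0) :
    ∑ k, (starRingEnd ℂ (eval x (pderiv k W)) * eval x (pderiv k W)) ≠ 0 := fun e => by
  simp only [← Complex.normSq_eq_conj_mul_self, ← Complex.ofReal_sum, Complex.ofReal_eq_zero] at e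
  exact hx (h x fun j => Complex.normSq_eq_zero.1 ((Finset.sum_eq_zero_iff_of_nonneg
    fun _ _ => Complex.normSq_nonneg _).1 e j (Finset.mem_univ j)))

theorem der_sq (h : IsMF W p d) (k : Fin 6) :
    d * d.map (pderiv k) + d.map (pderiv k) * d = pderiv k W • (1 : Matrix ι ι S6) := by
  ext1 i j
  have := congrArg (fun M : Matrix ι ι S6 => pderiv k (M i j)) h.sq
  simp only [Matrix.mul_apply, map_sum, Derivation.leibniz, smul_eq_mul, Finset.sum_add_distrib,
    Matrix.smul_apply, Matrix.one_apply, mul_ite, mul_one, mul_zero, apply_ite (pderiv k),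
    map_zero] at this
  simp only [Matrix.add_apply, Matrix.mul_apply, Matrix.map_apply, Matrix.smul_apply,
    Matrix.one_apply, smul_eq_mul, mul_ite, mul_one, mul_zero, ← this, mul_comm (d _ j)]

theorem evM_smul_one (x : Fin 6 → ℂ) (f : S6) :
    evM x (f • (1 : Matrix ι ι S6)) = eval x f • (1 : Matrix ι ι ℂ) := by
  ext i j
  simp only [evM, Matrix.map_apply, Matrix.smul_apply, Matrix.one_apply, smul_eq_mul, mul_ite,
    mul_one, mul_zero, apply_ite (MvPolynomial.eval x), map_zero]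

theorem ho_sq (hs : Sm W) (h : IsMF W p d) {x : Fin 6 → ℂ} (hx : x ≠ 0) :
    evM x d * hoM W d x + hoM W d x * evM x d = 1 := by
  have h1 : ∀ k, evM x d * evM x (d.map (pderiv k)) + evM x (d.map (pderiv k)) * evM x d =
      eval x (pderiv k W) • (1 : Matrix ι ι ℂ) := fun k => by
    rw [← evM_mul, ← evM_mul, ← evM_smul_one, ← der_sq h k]
    exact (Matrix.map_add _ (map_add _) _ _).symm
  rw [hoM, Matrix.mul_smul, Matrix.smul_mul, ← smul_add, Finset.mul_sum, Finset.sum_mul,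
    ← Finset.sum_add_distrib]
  simp only [Matrix.mul_smul, Matrix.smul_mul, ← smul_add, h1, smul_smul]
  rw [← Finset.sum_smul, smul_smul, inv_mul_cancel₀ (nrm_ne hs hx), one_smul]

theorem odd_d (h : IsMF W p d) (x : Fin 6 → ℂ) (i j : ι) (e : 2 ∣ p i - p j) : evM x d i j = 0 :=
  (congrArg (MvPolynomial.eval x) (hga_odd_eq_zero (h.deg i j) (by omega))).trans (map_zero _)

theorem odd_ho (h : IsMF W p d) (x : Fin 6 → ℂ) (i j : ι) (e : 2 ∣ p i - p j) :
    hoM W d x i j = 0 := by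
  simp [hoM, evM, Matrix.sum_apply, hga_odd_eq_zero (h.deg i j) (by omega)]

theorem sq_d (h : IsMF W p d) (x : Fin 6 → ℂ) :
    evM x d * evM x d = eval x W • (1 : Matrix ι ι ℂ) := by
  rw [← evM_mul, h.sq, evM_smul_one]

theorem fib (hs : Sm W) (h : IsMF W p d) {x : Fin 6 → ℂ} (hx : x ∈ Pub.cone W) :
    Fib p 1 (evM x d) (hoM W d x) :=
  ⟨odd_d h x, odd_ho h x, by rw [sq_d h, hx.2, zero_smul], one_mul _, ho_sq hs h hx.1⟩

theorem continuous_hoM (hs : Sm W) (d : Matrix ι ι S6) {T : Type} [TopologicalSpace T]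
    {x : T → Fin 6 → ℂ} (hc : Continuous x) (hx : ∀ t, x t ≠ 0) :
    Continuous fun t => hoM W d (x t) := by
  have h1 : ∀ k, Continuous fun t => eval (x t) (pderiv k W) := fun k =>
    (MvPolynomial.continuous_eval _).comp hc
  exact ((continuous_finsetSum _ fun k _ => (Complex.continuous_conj.comp (h1 k)).mul (h1 k)).inv₀
    fun t => nrm_ne hs (hx t)).smul (continuous_finsetSum _ fun k _ =>
      (Complex.continuous_conj.comp (h1 k)).smul ((continuous_evM _).comp hc))

theorem isAct : IsAct acX univ := N0_isAct _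

namespace Cu

variable (c : Cu W)

include c in
theorem qm : haveI := isAct; QM acX (Pub.cone W) 4 :=
  haveI := isAct
  qmF c.hom c.sm

/-- the cubic fourfold as a presented space -/
noncomputable def Y : Ch.Sp :=
  haveI := isAct
  haveI := c.qm.fp
  sp acX (Pub.cone W)

/-- the character of `O(1)` -/
noncomputable def χ : c.Y.G →ₜ* ℂˣ :=
  haveI := isAct
  (sc_scl (π₀ (Fin 6))).hm.ρ

/-- the point of the cone -/
def x (t : c.Y.T) : Fin 6 → ℂ := Sp.val (act := acX) t

/-- the hyperplane class -/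
noncomputable def h : Hev c.Y.X := c1 c.χ

/-- the integral -/
noncomputable def J : H c.Y.X →ₗ[ℂ] ℂ :=
  haveI := isAct
  c.qm.ps.J

theorem x_mem (t : c.Y.T) : c.x t ∈ Pub.cone W := Sp.val_mem (act := acX) t

theorem x_cont : Continuous c.x := Sp.continuous_val (act := acX)

theorem x_smul (g : c.Y.G) (t : c.Y.T) : c.x (g • t) = (c.χ g : ℂ) • c.x t := rfl

theorem h_val : (c.h.1 : H (XF W)) = hyp W :=
  haveI := isAct
  haveI := c.qm.fp
  lce_val (sc_scl (π₀ (Fin 6))).hm

theorem J_eq : c.J = Loc.intg (βF W) := rfl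

theorem conn : ConnectedSpace c.Y.T :=
  haveI := isAct
  isConnected_iff_connectedSpace.1 (S_cone W ▸ (sc_scl (π₀ (Fin 6))).conn
    (S_cb c.hom c.sm).ci (S_cb c.hom c.sm).hn (by norm_num))

/-- a point of the cone -/
noncomputable def pt : c.Y.T := c.conn.toNonempty.some

/-- the rank of the kernel of `d` on the generators `i` with `p i + a` even -/
noncomputable def rk (p : ι → ℤ) (d : Matrix ι ι S6) (a : ℤ) : ℕ :=
  finrank ℂ (Vf (fun i => 2 ∣ p i + a) 1 (evM (c.x c.pt) d))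

theorem fam (hd : IsMF W p d) (a : ℤ) : Fam c.χ (fun i => wt (p i))
    (fun t => Vf (fun i => 2 ∣ p i + a) 1 (evM (c.x t) d)) (c.rk p d a) := by
  haveI := c.conn
  refine fam_Vf (w' := fun i => wt (p i) + if 2 ∣ p i then 0 else 3) continuous_const
    ((continuous_evM d).comp c.x_cont) (fun g t i j _ => ?_) (fun g t i j _ => ?_) fun t =>
      Fib.rank (fun t => fib c.sm hd (c.x_mem t)) ((continuous_evM d).comp c.x_cont)
        (continuous_hoM c.sm d c.x_cont fun t => (c.x_mem t).1) a t c.pt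
  · by_cases e : i = j
    · rw [e, mul_comm]
    · exact (mul_eq_zero_of_left (one_apply_ne e) _).trans
        (mul_eq_zero_of_right _ (one_apply_ne e)).symm
  · refine hg_eval (hd.deg i j) (c.χ g).ne_zero _ fun k => ?_
    dsimp only
    split_ifs with h1
    · have := wt_even h1
      have := wt_odd (a := p j) (by omega)
      omega
    · have := wt_odd h1
      have := wt_even (a := p j) (by omega)
      omega

/-- **The bundle `V_E`**: the kernel of `d(x)` on the even generators. -/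
noncomputable def VE (hd : IsMF W p d) : VB c.Y := (c.fam hd 0).vb

/-- the primitive part of a class of degree four -/
noncomputable def prim (a : Hev c.Y.X) : Hev c.Y.X := a - (c.J (a * c.h ^ 2).1 / 3) • c.h ^ 2

/-- **The class `n_E`**: the primitive part of the second Chern character of `V_E`. -/
noncomputable def nE (hd : IsMF W p d) : Hev c.Y.X :=
  c.prim (PowerSeries.coeff 2 (c.VE hd).chc)

end Cu

/-- the sixth root of unity `exp (-i π / 3)` -/
noncomputable def ζ : ℂ := ⟨1 / 2, -(√3 / 2)⟩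

/-- the charge `∑ ζ ^ p` -/
noncomputable def zE (p : ι → ℤ) : ℂ := ∑ i, ζ ^ p i

/-- the Euler form -/
noncomputable def chi (p : ι → ℤ) (d : Matrix ι ι S6) (q : κ → ℤ) (e : Matrix κ κ S6) : ℤ :=
  ∑ᶠ k : ℤ, (k.negOnePow : ℤ) * finrank ℂ (HH p d q e (3 * k))

/-- **Riemann-Roch for matrix factorizations** (the statement) -/
def HRR : Prop := ∀ {ι κ : Type} [Fintype ι] [Fintype κ] [DecidableEq ι] [DecidableEq κ] {W : S6}
  (c : Cu W) {p : ι → ℤ} {d : Matrix ι ι S6} {q : κ → ℤ} {e : Matrix κ κ S6} (hd : IsMF W p d)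
  (he : IsMF W q e), (chi p d q e : ℂ) =
    c.J (c.nE hd * c.nE he).1 - 2 / 81 * (starRingEnd ℂ (zE p) * zE q).re

end Vale.Agent.P287T.Rr
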