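import Vale.Agent.P287Q.Hb.KB

/-!
# Transverse divisors; the deformation to the normal cone of a divisor
-/

set_option linter.unusedSectionVars false
set_option linter.style.haveILetI false

namespace Vale.Agent.P287T.Dn

open Set Function Topology Filter Module P291Z P269 P269.Holo P269.Mono P269.Tq P269.Coh P287Q.Hb

variable {A W : Type} [NormedRing A] [NormedAlgebra ℂ A] [NormedAddCommGroup W] [NormedSpace ℂ W]
  [FiniteDimensional ℂ A] [FiniteDimensional ℂ W] {act : A → W → W} {S Z : Set W} {n m : ℤ}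
  {c : A → ℂ} {s : W → ℂ}

/-- `Z` is the transverse zero set of the section `s` of the line bundle of `c`. -/
structure Dv (act : A → W → W) (S Z : Set W) (c : A → ℂ) (s : W → ℂ) : Prop where
  hm : Hm c
  an : ∀ x ∈ S, AnalyticAt ℂ s x
  eqv : ∀ a, IsUnit a → ∀ x ∈ S, s (act a x) = c a * s x
  zero : ∀ x, x ∈ Z ↔ x ∈ S ∧ s x = 0
  trv : ∀ x ∈ Z, ∃ γ, Arc S x γ ∧ deriv (fun ε => s (γ ε)) 0 ≠ 0

namespace Dv

variable [IsAct act univ] (d : Dv act S Z c s)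
include d

theorem sub : Z ⊆ S := fun x hx => ((d.zero x).1 hx).1

theorem cont : ContinuousOn s S := fun x hx => (d.an x hx).continuousAt.continuousWithinAt

theorem tr (x : W) (hx : x ∈ S) (hz : x ∈ Z) :
    ∃ v ∈ tan (Subtype.val : S → W) ⟨x, hx⟩, fderiv ℂ s x v ≠ 0 := by
  obtain ⟨γ, a, k⟩ := d.trv x hz
  refine ⟨_, a.mem_tan hx, ?_⟩
  rwa [← (HasFDerivAt.comp_hasDerivAt_of_eq 0 (d.an x hx).differentiableAt.hasFDerivAt
    a.an.differentiableAt.hasDerivAt a.zero.symm).deriv]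

theorem qm (h : QM act S n) : QM act Z (n - 1) :=
  h.zero (ι := Unit) (c := fun _ => c) (s := fun p _ => s p)
    ⟨fun _ => d.hm, continuousOn_pi.2 fun _ => d.cont, fun g hg p hp _ => d.eqv g hg p hp⟩
    (fun p => (d.zero p).trans (and_congr_right' ⟨fun k => funext fun _ => k, fun k => congrFun k ()⟩))
    (fun p hp => analyticAt_pi_iff.2 fun _ => d.an p (d.sub hp)) fun p hp hz w => by
      obtain ⟨v, h2, h3⟩ := d.tr p hp hz
      refine ⟨(w () / fderiv ℂ s p v) • v, Submodule.smul_mem _ _ h2, funext fun _ => ?_⟩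
      rw [fderiv_pi fun _ => (d.an p hp).differentiableAt, ContinuousLinearMap.pi_apply, map_smul,
        smul_eq_mul, div_mul_cancel₀ _ h3]

theorem J (h : QM act S n) (k : QM act Z m) (z : H (Quo act S)) :
    k.ps.J (H.map (qinc act d.sub) z) = h.ps.J (lcq act S c * z) := by
  rw [← h.push_one' d.hm d.cont d.eqv d.zero (fun x hx => d.an x (d.sub hx)) d.tr k d.sub,
    PS.J_push_mul, one_mul]

end Dv

variable (c) in
/-- the characters of `u`, `v` -/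
def χ1 : Fin 2 → A → ℂ := ![fun _ => 1, c]

variable (A) in
/-- the characters of `t`, `e` -/
def χ2 : Fin 2 → A × ℂ → ℂ := ![Prod.snd, fun _ => 1]

theorem chr1 (hc : Hm c) (an : ∀ a, IsUnit a → AnalyticAt ℂ c a) : Chr (χ1 c) :=
  ⟨Fin.forall_fin_two.2 ⟨Hm.const, hc⟩, Fin.forall_fin_two.2 ⟨fun _ _ => analyticAt_const, an⟩⟩

theorem chr2 : Chr (χ2 A) :=
  ⟨Fin.forall_fin_two.2 ⟨kb_snd, Hm.const⟩,
    Fin.forall_fin_two.2 ⟨fun _ _ => analyticAt_snd, fun _ _ => analyticAt_const⟩⟩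

variable (act c) in
/-- the action on the first bundle -/
abbrev ac1 : A × ℂ → W × (Fin 2 → ℂ) → W × (Fin 2 → ℂ) := pbAct act (χ1 c)

variable (W) in
/-- the coordinates `y; u, v; t, e` -/
abbrev W2 : Type := (W × (Fin 2 → ℂ)) × (Fin 2 → ℂ)

variable (act c) in
/-- the action on the second bundle -/
abbrev ac2 : (A × ℂ) × ℂ → W2 W → W2 W := pbAct (ac1 act c) (χ2 A)

variable (S s) in
/-- the deformation space -/
def DM : Set (W2 W) := {p | p ∈ pbS (pbS S) ∧ s p.1.1 * p.2 0 - p.2 1 * p.1.2 1 = 0}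

/-- a point -/
def pt (y : W) (u v t e : ℂ) : W2 W := ((y, ![u, v]), ![t, e])

theorem pt_eta (p : W2 W) : pt p.1.1 (p.1.2 0) (p.1.2 1) (p.2 0) (p.2 1) = p :=
  Prod.ext (Prod.ext rfl (funext (Fin.forall_fin_two.2 ⟨rfl, rfl⟩)))
    (funext (Fin.forall_fin_two.2 ⟨rfl, rfl⟩))

theorem ne2 {w : Fin 2 → ℂ} : w ≠ 0 ↔ (w 0 = 0 → w 1 ≠ 0) := by
  rw [Ne, funext_iff, Fin.forall_fin_two, not_and]
  rfl

theorem mem_pb {p : W2 W} : p ∈ pbS (pbS S) ↔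
    (p.1.1 ∈ S ∧ (p.1.2 0 = 0 → p.1.2 1 ≠ 0)) ∧ (p.2 0 = 0 → p.2 1 ≠ 0) :=
  and_congr (and_congr_right' ne2) ne2

theorem mem_DM {p : W2 W} : p ∈ DM S s ↔ ((p.1.1 ∈ S ∧ (p.1.2 0 = 0 → p.1.2 1 ≠ 0)) ∧
    (p.2 0 = 0 → p.2 1 ≠ 0)) ∧ s p.1.1 * p.2 0 = p.2 1 * p.1.2 1 := and_congr mem_pb sub_eq_zero

theorem an_y (p : W2 W) : AnalyticAt ℂ (fun p : W2 W => p.1.1) p :=
  analyticAt_fst.comp analyticAt_fst

theorem an_1 (i : Fin 2) (p : W2 W) : AnalyticAt ℂ (fun p : W2 W => p.1.2 i) p :=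
  analyticAt_pi_iff.1 (analyticAt_snd.comp analyticAt_fst) i

theorem an_2 (i : Fin 2) (p : W2 W) : AnalyticAt ℂ (fun p : W2 W => p.2 i) p :=
  analyticAt_pi_iff.1 analyticAt_snd i

theorem arc_pt {T : Set (W2 W)} {p : W2 W} {y : ℂ → W} {u v t e : ℂ → ℂ} (hy : AnalyticAt ℂ y 0)
    (hu : AnalyticAt ℂ u 0) (hv : AnalyticAt ℂ v 0) (ht : AnalyticAt ℂ t 0)
    (he : AnalyticAt ℂ e 0) (y0 : y 0 = p.1.1) (u0 : u 0 = p.1.2 0) (v0 : v 0 = p.1.2 1)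
    (t0 : t 0 = p.2 0) (e0 : e 0 = p.2 1) (k1 : p.1.2 0 = 0 → p.1.2 1 ≠ 0)
    (k2 : p.2 0 = 0 → p.2 1 ≠ 0) (k : ∀ᶠ ε in 𝓝 0, (u ε = 0 → v ε ≠ 0) → (t ε = 0 → e ε ≠ 0) →
      pt (y ε) (u ε) (v ε) (t ε) (e ε) ∈ T) :
    Arc T p fun ε => pt (y ε) (u ε) (v ε) (t ε) (e ε) := by
  have ev : ∀ {a b : ℂ → ℂ}, AnalyticAt ℂ a 0 → AnalyticAt ℂ b 0 → (a 0 = 0 → b 0 ≠ 0) →
      ∀ᶠ ε in 𝓝 0, a ε = 0 → b ε ≠ 0 := fun {a b} ha hb h => by
    by_cases h0 : a 0 = 0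
    · exact (hb.continuousAt.eventually_ne (h h0)).mono fun _ k _ => k
    · exact (ha.continuousAt.eventually_ne h0).mono fun _ k k' => absurd k' k
  refine ⟨(hy.prod (analyticAt_pi_iff.2 (Fin.forall_fin_two.2 ⟨hu, hv⟩))).prod
    (analyticAt_pi_iff.2 (Fin.forall_fin_two.2 ⟨ht, he⟩)), by rw [y0, u0, v0, t0, e0, pt_eta], ?_⟩
  filter_upwards [k, ev hu hv (by rwa [u0, v0]), ev ht he (by rwa [t0, e0])] with ε a1 a2 a3
    using a1 a2 a3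

theorem deriv_lin (a b : ℂ) : deriv (fun ε : ℂ => a + ε * b) 0 = b :=
  ((hasDerivAt_mul_const b).const_add a).deriv

theorem an_lin (a b : ℂ) : AnalyticAt ℂ (fun ε : ℂ => a + ε * b) 0 := by fun_prop

theorem lin0 (a b : ℂ) : a + 0 * b = a := by rw [zero_mul, add_zero]

variable [IsAct act univ] (d : Dv act S Z c s)
include d

theorem dv_M : Dv (ac2 act c) (pbS (pbS S)) (DM S s) (fun g => g.2 * g.1.2 * c g.1.1)
    fun p => s p.1.1 * p.2 0 - p.2 1 * p.1.2 1 where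
  hm := (kb_snd.mul' (kb_fst.comp kb_snd)).mul' ((kb_fst.comp kb_fst).comp d.hm)
  an p hp := ((AnalyticAt.comp_of_eq (d.an _ hp.1.1) (an_y p) rfl).mul (an_2 0 p)).sub ((an_2 1 p).mul (an_1 1 p))
  eqv g hg p hp := by
    have := d.eqv _ (Prod.isUnit_iff.1 (Prod.isUnit_iff.1 hg).1).1 _ hp.1.1
    show s (act g.1.1 p.1.1) * (g.2 * g.1.2 * p.2 0) - g.2 * 1 * p.2 1 * (g.1.2 * c g.1.1 * p.1.2 1) = _
    rw [this]
    ring
  zero _ := Iff.rfl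
  trv p hp := by
    obtain ⟨⟨⟨h1, h2⟩, h3⟩, h4⟩ := mem_DM.1 hp
    by_cases he : p.2 1 = 0
    · have ht : p.2 0 ≠ 0 := fun k => h3 k he
      have hs : s p.1.1 = 0 := (mul_eq_zero.1 (h4.trans (by rw [he, zero_mul]))).resolve_right ht
      obtain ⟨γ, a, k⟩ := d.trv _ ((d.zero _).2 ⟨h1, hs⟩)
      refine ⟨_, arc_pt a.an analyticAt_const analyticAt_const analyticAt_const analyticAt_const
        a.zero rfl rfl rfl rfl h2 h3 (a.mem.mono fun ε b1 b2 b3 => mem_pb.2 ⟨⟨b1, b2⟩, b3⟩), ?_⟩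
      show deriv (fun ε => s (γ ε) * p.2 0 - p.2 1 * p.1.2 1) 0 ≠ 0
      rw [deriv_sub_const, deriv_mul_const_field]
      exact mul_ne_zero k ht
    · refine ⟨_, arc_pt analyticAt_const analyticAt_const (an_lin _ 1) analyticAt_const
        analyticAt_const rfl rfl (lin0 _ _) rfl rfl h2 h3
        (.of_forall fun ε b2 b3 => mem_pb.2 ⟨⟨h1, b2⟩, b3⟩), ?_⟩
      show deriv (fun ε => s p.1.1 * p.2 0 - p.2 1 * (p.1.2 1 + ε * 1)) 0 ≠ 0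
      rw [deriv_const_sub, deriv_const_mul_field, deriv_lin, mul_one]
      exact neg_ne_zero.2 he

omit d in
theorem dv_t : Dv (ac2 act c) (DM S s) {p | p ∈ DM S s ∧ p.2 0 = 0} (fun g => g.2 * g.1.2)
    fun p => p.2 0 where
  hm := kb_snd.mul' (kb_fst.comp kb_snd)
  an p _ := an_2 0 p
  eqv _ _ _ _ := rfl
  zero _ := Iff.rfl
  trv p hp := by
    obtain ⟨⟨⟨h1, h2⟩, h3⟩, h4⟩ := mem_DM.1 hp.1
    have he := h3 hp.2
    refine ⟨_, arc_pt analyticAt_const analyticAt_const (an_lin _ (s p.1.1 / p.2 1)) (an_lin _ 1)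
      analyticAt_const rfl rfl (lin0 _ _) (lin0 _ _) rfl h2 h3
      (.of_forall fun ε b2 b3 => mem_DM.2 ⟨⟨⟨h1, b2⟩, b3⟩, ?_⟩),
      (deriv_lin _ 1).trans_ne one_ne_zero⟩
    show s p.1.1 * (p.2 0 + ε * 1) = p.2 1 * (p.1.2 1 + ε * (s p.1.1 / p.2 1))
    field_simp
    linear_combination h4

omit d in
theorem dv_u : Dv (ac2 act c) (DM S s) {p | p ∈ DM S s ∧ p.1.2 0 = 0} (fun g => g.1.2)
    fun p => p.1.2 0 where
  hm := kb_fst.comp kb_snd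
  an p _ := an_1 0 p
  eqv g _ p _ := congrArg (· * p.1.2 0) (mul_one g.1.2)
  zero _ := Iff.rfl
  trv p hp := by
    obtain ⟨⟨⟨h1, h2⟩, h3⟩, h4⟩ := mem_DM.1 hp.1
    exact ⟨_, arc_pt analyticAt_const (an_lin _ 1) analyticAt_const analyticAt_const
      analyticAt_const rfl (lin0 _ _) rfl rfl rfl h2 h3
      (.of_forall fun ε b2 b3 => mem_DM.2 ⟨⟨⟨h1, b2⟩, b3⟩, h4⟩),
      (deriv_lin _ 1).trans_ne one_ne_zero⟩

theorem dv_e : Dv (ac2 act c) (DM S s) {p | p ∈ DM S s ∧ p.2 1 = 0} Prod.snd fun p => p.2 1 where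
  hm := kb_snd
  an p _ := an_2 1 p
  eqv g _ p _ := congrArg (· * p.2 1) (mul_one g.2)
  zero _ := Iff.rfl
  trv p hp := by
    obtain ⟨⟨⟨h1, h2⟩, h3⟩, h4⟩ := mem_DM.1 hp.1
    have he : p.2 1 = 0 := hp.2
    have ht : p.2 0 ≠ 0 := fun k => h3 k he
    have hs : s p.1.1 = 0 := (mul_eq_zero.1 (h4.trans (by rw [he, zero_mul]))).resolve_right ht
    by_cases hv : p.1.2 1 = 0
    · refine ⟨_, arc_pt analyticAt_const analyticAt_const analyticAt_const analyticAt_const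
        (an_lin _ 1) rfl rfl rfl rfl (lin0 _ _) h2 h3
        (.of_forall fun ε b2 b3 => mem_DM.2 ⟨⟨⟨h1, b2⟩, b3⟩, ?_⟩),
        (deriv_lin _ 1).trans_ne one_ne_zero⟩
      show s p.1.1 * p.2 0 = _ * p.1.2 1
      rw [hs, hv, zero_mul, mul_zero]
    · obtain ⟨γ, a, k⟩ := d.trv _ ((d.zero _).2 ⟨h1, hs⟩)
      have a1 : AnalyticAt ℂ (fun ε => s (γ ε) * (p.2 0 / p.1.2 1)) 0 :=
        (AnalyticAt.comp_of_eq (d.an _ h1) a.an a.zero).mul analyticAt_const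
      refine ⟨_, arc_pt a.an analyticAt_const analyticAt_const analyticAt_const a1 a.zero rfl rfl
        rfl (by rw [a.zero, hs, he, zero_mul]) h2 h3
        (a.mem.mono fun ε b1 b2 b3 => mem_DM.2 ⟨⟨⟨b1, b2⟩, b3⟩, ?_⟩), ?_⟩
      · show s (γ ε) * p.2 0 = s (γ ε) * (p.2 0 / p.1.2 1) * p.1.2 1
        rw [mul_assoc, div_mul_cancel₀ _ hv]
      · show deriv (fun ε => s (γ ε) * (p.2 0 / p.1.2 1)) 0 ≠ 0
        rw [deriv_mul_const_field]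
        exact mul_ne_zero k (div_ne_zero ht hv)

omit d

variable [IsAct (ac1 act c) univ] [IsAct (ac2 act c) univ]

/-- the projection to the base -/
theorem hol_q {T : Set (W2 W)} {S' : Set W} (h : ∀ p ∈ T, p.1.1 ∈ S') :
    Hol (ac2 act c) act T S' (fun g => g.1.1) fun p => p.1.1 :=
  .of_an (kb_fst.comp kb_fst) h (fun p _ => an_y p) fun _ _ _ _ => rfl

/-- the projection to the first bundle -/
theorem hol_r {T : Set (W2 W)} {S' : Set (W × (Fin 2 → ℂ))} (h : ∀ p ∈ T, p.1 ∈ S') :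
    Hol (ac2 act c) (ac1 act c) T S' Prod.fst Prod.fst :=
  .of_an kb_fst h (fun _ _ => analyticAt_fst) fun _ _ _ _ => rfl

theorem ac2_ext {g : (A × ℂ) × ℂ} {p q : W2 W} (y : q.1.1 = act g.1.1 p.1.1)
    (u : q.1.2 0 = g.1.2 * p.1.2 0) (v : q.1.2 1 = g.1.2 * c g.1.1 * p.1.2 1)
    (t : q.2 0 = g.2 * g.1.2 * p.2 0) (e : q.2 1 = g.2 * p.2 1) : q = ac2 act c g p :=
  Prod.ext (Prod.ext y (funext (Fin.forall_fin_two.2
    ⟨u.trans (congrArg (· * p.1.2 0) (mul_one _).symm), v⟩)))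
    (funext (Fin.forall_fin_two.2 ⟨t, e.trans (congrArg (· * p.2 1) (mul_one _).symm)⟩))

theorem unit3 {g : A} {a b : ℂ} (hg : IsUnit g) (ha : a ≠ 0) (hb : b ≠ 0) : IsUnit ((g, a), b) :=
  Prod.isUnit_iff.2 ⟨Prod.isUnit_iff.2 ⟨hg, ha.isUnit⟩, hb.isUnit⟩

theorem bij_t : Bijective (hol_q (act := act) (c := c) (T := {p | p ∈ DM S s ∧ p.2 0 = 0})
    fun _ hp => hp.1.1.1.1).q := by
  refine ⟨Hol.q_injective _ fun p hp q hq g hg k => ?_, Hol.q_surjective _ fun y hy =>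
    ⟨pt y 1 0 0 1, ⟨mem_DM.2 ⟨⟨⟨hy, fun k => absurd k one_ne_zero⟩, fun _ => one_ne_zero⟩,
      (mul_zero _).trans (mul_zero _).symm⟩, rfl⟩, 1, isUnit_one,
      (IsAct.one (act := act) y (mem_univ y)).symm⟩⟩
  have key : ∀ p ∈ {p | p ∈ DM S s ∧ p.2 0 = 0}, p.2 1 ≠ 0 ∧ p.1.2 1 = 0 ∧ p.1.2 0 ≠ 0 :=
    fun p hp => by
      obtain ⟨⟨⟨h1, h2⟩, h3⟩, h4⟩ := mem_DM.1 hp.1
      have hv := (mul_eq_zero.1 (h4.symm.trans (by rw [hp.2, mul_zero]))).resolve_left (h3 hp.2)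
      exact ⟨h3 hp.2, hv, fun k => h2 k hv⟩
  obtain ⟨a1, a2, a3⟩ := key p hp
  obtain ⟨b1, b2, b3⟩ := key q hq
  exact ⟨((g, q.1.2 0 / p.1.2 0), q.2 1 / p.2 1), unit3 hg (div_ne_zero b3 a3) (div_ne_zero b1 a1),
    ac2_ext k (div_mul_cancel₀ _ a3).symm (by rw [a2, b2, mul_zero]) (by rw [hp.2, hq.2, mul_zero])
      (div_mul_cancel₀ _ a1).symm⟩

include d

theorem bij_u : Bijective (hol_q (act := act) (c := c) (T := {p | p ∈ DM S s ∧ p.1.2 0 = 0})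
    fun _ hp => hp.1.1.1.1).q := by
  refine ⟨Hol.q_injective _ fun p hp q hq g hg k => ?_, Hol.q_surjective _ fun y hy =>
    ⟨pt y 0 1 1 (s y), ⟨mem_DM.2 ⟨⟨⟨hy, fun _ => one_ne_zero⟩, fun k => absurd k one_ne_zero⟩,
      rfl⟩, rfl⟩, 1, isUnit_one, (IsAct.one (act := act) y (mem_univ y)).symm⟩⟩
  have key : ∀ p ∈ {p | p ∈ DM S s ∧ p.1.2 0 = 0}, p.1.2 1 ≠ 0 ∧ p.2 0 ≠ 0 := fun p hp => by
    obtain ⟨⟨⟨h1, h2⟩, h3⟩, h4⟩ := mem_DM.1 hp.1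
    exact ⟨h2 hp.2, fun k => mul_ne_zero (h3 k) (h2 hp.2) (h4.symm.trans (by rw [k, mul_zero]))⟩
  obtain ⟨a1, a2⟩ := key p hp
  obtain ⟨b1, b2⟩ := key q hq
  have hc := (d.hm.isUnit hg).ne_zero
  have a4 := (mem_DM.1 hp.1).2
  have b4 := (mem_DM.1 hq.1).2
  rw [show q.1.1 = act g p.1.1 from k, d.eqv g hg _ hp.1.1.1.1] at b4
  refine ⟨((g, q.1.2 1 / (c g * p.1.2 1)), q.2 0 * (c g * p.1.2 1) / (q.1.2 1 * p.2 0)),
    unit3 hg (div_ne_zero b1 (mul_ne_zero hc a1))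
      (div_ne_zero (mul_ne_zero b2 (mul_ne_zero hc a1)) (mul_ne_zero b1 a2)),
    ac2_ext k (by rw [hp.2, hq.2, mul_zero]) ?_ ?_ ?_⟩
  · field_simp
  · field_simp
  · field_simp
    linear_combination q.2 0 * c g * a4 - p.2 0 * b4

theorem e_mem {p : W2 W} (hp : p ∈ {p | p ∈ DM S s ∧ p.2 1 = 0}) : p.2 0 ≠ 0 ∧ p.1 ∈ pbS Z := by
  obtain ⟨⟨⟨h1, h2⟩, h3⟩, h4⟩ := mem_DM.1 hp.1
  have ht : p.2 0 ≠ 0 := fun k => h3 k hp.2
  exact ⟨ht, (d.zero _).2 ⟨h1, (mul_eq_zero.1 (h4.trans (by rw [hp.2, zero_mul]))).resolve_right ht⟩,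
    ne2.2 h2⟩

theorem bij_e : Bijective (hol_r (act := act) (c := c) (T := {p | p ∈ DM S s ∧ p.2 1 = 0})
    fun _ hp => (e_mem d hp).2).q := by
  refine ⟨Hol.q_injective _ fun p hp q hq g hg k => ?_, Hol.q_surjective _ fun y hy =>
    ⟨(y, ![1, 0]), ⟨mem_DM.2 ⟨⟨⟨d.sub hy.1, ne2.1 hy.2⟩, fun k => absurd k one_ne_zero⟩, ?_⟩, rfl⟩,
      1, isUnit_one, (IsAct.one (act := ac1 act c) y (mem_univ y)).symm⟩⟩
  · have a1 := (e_mem d hp).1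
    have a2 := (Prod.isUnit_iff.1 hg).2.ne_zero
    refine ⟨(g, q.2 0 / (g.2 * p.2 0)), Prod.isUnit_iff.2 ⟨hg,
      (div_ne_zero (e_mem d hq).1 (mul_ne_zero a2 a1)).isUnit⟩, Prod.ext k
      (funext (Fin.forall_fin_two.2 ⟨?_, ?_⟩))⟩
    · show q.2 0 = q.2 0 / (g.2 * p.2 0) * g.2 * p.2 0
      field_simp
    · show q.2 1 = _ * p.2 1
      rw [hp.2, hq.2, mul_zero]
  · show s y.1 * 1 = 0 * _
    rw [((d.zero _).1 hy.1).2, zero_mul, zero_mul]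

end Vale.Agent.P287T.Dn
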