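import Vale.Agent.P287T.Rr.DivA
import Vale.Agent.P287T.Rr.DivB

/-!
# Riemann-Roch for the embedding of a divisor
-/

set_option linter.unusedSectionVars false
set_option linter.style.haveILetI false

namespace Vale.Agent.P287T.Dn

open Set Function Module P291Z P269 P269.Holo P269.Mono P269.Tq P269.Coh P287Q.Hb P269.Ch P269.Grr
  PowerSeries

/-- `(1 - exp (-t)) / t` -/
noncomputable def gS : ℂ⟦X⟧ := PowerSeries.mk fun k => (-1) ^ k * ((k + 1).factorial : ℂ)⁻¹

theorem coeff_gS (k : ℕ) : coeff k gS = (-1) ^ k * ((k + 1).factorial : ℂ)⁻¹ := coeff_mk _ _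

theorem X_mul_gS : X * gS = 1 - evalNegHom (exp ℂ) := by
  ext (_ | k)
  · rw [evalNegHom, map_sub, coeff_rescale]
    simp
  · simp [evalNegHom, coeff_succ_X_mul, coeff_gS, coeff_one, pow_succ]

theorem X_mul_ev_gS {R : Type*} [CommRing R] [Algebra ℂ R] (x : R) :
    ex x * (C x * X * Grr.ev x gS) = ex x - 1 := by
  rw [← ev_X, ← map_mul, X_mul_gS, ex, ← map_mul, mul_sub, exp_mul_exp_neg_eq_one, mul_one, map_sub,
    map_one]

theorem ex_sub_one {R : Type*} [CommRing R] [Algebra ℂ R] {η x : R} (h : η * (η - x) = 0) :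
    ex η - 1 = ex x * (X * (C η * Grr.ev x gS)) := by
  have h1 : ∀ k : ℕ, η * η ^ k = η * x ^ k := fun k => by
    induction k with
    | zero => rw [pow_zero, pow_zero]
    | succ k ih => linear_combination η * ih + x ^ k * h
  have h2 : C η * Grr.ev η (exp ℂ * gS) = C η * Grr.ev x (exp ℂ * gS) := by
    ext k
    rw [coeff_C_mul, coeff_C_mul, coeff_ev, coeff_ev, mul_smul_comm, mul_smul_comm, h1]
  rw [map_mul, map_mul] at h2
  rw [← X_mul_ev_gS]
  unfold ex
  linear_combination X * h2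

theorem map_coeff {X Y : Type} [TopologicalSpace X] [TopologicalSpace Y] (f : C(X, Y))
    (F : (Hev Y)⟦X⟧) (j : ℕ) : H.map f (coeff j F).1 = (coeff j (pS f F)).1 := by
  rw [coeff_map]
  rfl

theorem grr_abs {M Y Z P Dt Du De : Type} [TopologicalSpace M] [TopologicalSpace Y]
    [TopologicalSpace Z] [TopologicalSpace P] [TopologicalSpace Dt] [TopologicalSpace Du]
    [TopologicalSpace De] {q : C(M, Y)} {it : C(Dt, M)} {iu : C(Du, M)} {ie : C(De, M)}
    {r : C(De, P)} {p : C(P, Z)} {i : C(Z, Y)} {JM : H M →ₗ[ℂ] ℂ} {JY : H Y →ₗ[ℂ] ℂ}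
    {JZ : H Z →ₗ[ℂ] ℂ} {JP : H P →ₗ[ℂ] ℂ} {Jt : H Dt →ₗ[ℂ] ℂ} {Ju : H Du →ₗ[ℂ] ℂ}
    {Je : H De →ₗ[ℂ] ℂ} {a b x' : Hev M} {ξ : Hev P} {x : Hev Z}
    (ht : ∀ y, Jt (H.map it y) = JM ((b.1 + a.1) * y)) (hu : ∀ y, Ju (H.map iu y) = JM (a.1 * y))
    (he : ∀ y, Je (H.map ie y) = JM (b.1 * y)) (jt : ∀ y, Jt (H.map (q.comp it) y) = JY y)
    (ju : ∀ y, Ju (H.map (q.comp iu) y) = JY y) (jr : ∀ y, Je (H.map r y) = JP y)
    (sq : q.comp ie = (i.comp p).comp r) (L0 : ∀ y, JP (H.map p y * (ξ.1 + H.map p x.1) ^ 0) = 0)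
    (L1 : ∀ y, JP (H.map p y * (ξ.1 + H.map p x.1) ^ 1) = JZ y)
    (rel : (ξ + Hev.map p 0) * (ξ + Hev.map p x) = 0) {ω : (Hev M)⟦X⟧} {α κ : (Hev Y)⟦X⟧}
    {B : (Hev Z)⟦X⟧} (e1 : pS it ω = pS it (pS q α)) (e2 : pS iu ω = pS iu (pS q κ))
    (e3 : pS ie (ex x' * (pS q κ - ω)) = pS (p.comp r) B * pS ie (ex (a + x') - 1))
    (e4 : Hev.map ie x' = Hev.map r (Hev.map p x)) (e5 : Hev.map ie a = Hev.map r ξ) (k : ℕ)
    (z : H Y) : JY ((coeff (k + 1) (κ - α)).1 * z) =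
      JZ ((coeff k (B * Grr.ev x gS)).1 * H.map i z) := by
  have a1 := ht ((coeff (k + 1) ω).1 * H.map q z)
  have a2 := hu ((coeff (k + 1) ω).1 * H.map q z)
  rw [map_mul, map_coeff, e1, ← map_coeff, ← map_coeff, ← map_mul, ← map_mul, H.map_map, jt,
    add_mul, map_add] at a1
  rw [map_mul, map_coeff, e2, ← map_coeff, ← map_coeff, ← map_mul, ← map_mul, H.map_map, ju] at a2
  have a3 := he ((coeff (k + 1) (pS q κ)).1 * H.map q z)
  rw [← map_coeff, ← map_mul, H.map_map, sq, ← H.map_map, jr, ← H.map_map, ← mul_one (H.map p _),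
    ← pow_zero (ξ.1 + H.map p x.1), L0, map_mul (H.map q), map_coeff] at a3
  have r0 : (ξ + Hev.map p x) * (ξ + Hev.map p x - Hev.map p x) = 0 := by
    rw [map_zero, add_zero] at rel
    rw [add_sub_cancel_right, mul_comm, rel]
  have b4 : pS ie (pS q κ - ω) =
      pS r (X * (pS p (B * Grr.ev x gS) * C (ξ + Hev.map p x))) := by
    rw [map_mul, map_sub _ (ex _), map_one, pS_ex, pS_ex, map_add, e4, e5, ← map_add, ← pS_ex r,
      ← pS_ex r, ← map_one (pS r), ← map_sub, ex_sub_one r0, ← pS_pS, ← map_mul] at e3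
    refine (IsUnit.of_mul_eq_one _ (ex_mul_neg (Hev.map r (Hev.map p x)))).mul_left_cancel ?_
    rw [← pS_ex, e3, ← map_mul, map_mul (pS p), map_ev]
    exact congrArg (pS r) (by ring)
  have a4 := he ((coeff (k + 1) (pS q κ - ω)).1 * H.map q z)
  rw [map_mul, map_coeff, b4, ← map_coeff, H.map_map, sq, ← H.map_map, ← map_mul, jr, ← H.map_map,
    coeff_succ_X_mul, coeff_mul_C, Subalgebra.coe_mul, ← map_coeff, mul_assoc,
    Hev.commute (ξ + Hev.map p x).2, ← mul_assoc, ← map_mul, map_sub, Subalgebra.coe_sub, sub_mul,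
    mul_sub, map_sub, ← a3] at a4
  rw [← L1, pow_one, map_sub, Subalgebra.coe_sub, sub_mul, map_sub, a1, a2]
  exact Eq.trans (by ring) a4.symm

variable {A W : Type} [NormedRing A] [NormedAlgebra ℂ A] [NormedAddCommGroup W] [NormedSpace ℂ W]
  [FiniteDimensional ℂ A] [FiniteDimensional ℂ W] {act : A → W → W} {S Z : Set W} {n m : ℤ}
  {c : A → ℂ} {s : W → ℂ} [IsAct act univ]

theorem J_mor {A' W' : Type} [NormedRing A'] [NormedAlgebra ℂ A'] [NormedAddCommGroup W']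
    [NormedSpace ℂ W'] [FiniteDimensional ℂ A'] [FiniteDimensional ℂ W'] {act' : A' → W' → W'}
    {S' : Set W'} [IsAct act' univ] (h : QM act S n) (h' : QM act' S' m)
    (e : n = m) {θ f} (φ : Hol act act' S S' θ f) (hb : Bijective φ.q)
    {g : C(Quo act S, Quo act' S')} (e' : ∀ x, g (Quo.mk act x) = φ.q (Quo.mk act x))
    (b : H (Quo act' S')) : h.ps.J (H.map g b) = h'.ps.J b := by
  subst e
  rw [show g = φ.q from ContinuousMap.ext (mk_surj.forall.2 e')]
  exact h.J_map h' φ hb b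

theorem Dv.J' [FP act S] [FP act Z] (d : Dv act S Z c s) (h : QM act S n) (k : QM act Z m)
    (z : H (Quo act S)) :
    k.ps.J (H.map (Eqh.incl (act := act) d.sub).mor.map z) = h.ps.J (lcq act S c * z) := by
  rw [Eqh.mor_map]
  exact d.J h k z

theorem Eqh.qm_incl' [FP act S] [FP act Z] (e : Z ⊆ S) :
    (Eqh.incl (act := act) e).mor.map = qinc act e := Eqh.mor_map _

section

variable [IsAct (ac1 act c) univ] [IsAct (ac2 act c) univ] [FP act S] [FP (ac2 act c) (DM S s)]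

variable (act c S s) in
/-- the projection -/
noncomputable def mq : Mor (sp (ac2 act c) (DM S s)) (sp act S) :=
  (hol_q (act := act) (c := c) (T := DM S s) fun _ hp => hp.1.1.1).toEqh.mor

theorem ds (hc : Hm c) : DS (Y := sp (ac2 act c) (DM S s)) ((mq act S c s).chr hc.ρ)
    (fun p => s (Sp.val (act := act) ((mq act S c s).f p))) (kb_fst.comp kb_snd).ρ kb_snd.ρ
    (fun p : Sp (ac2 act c) (DM S s) => p.val.2 0)
    (fun p : Sp (ac2 act c) (DM S s) => p.val.2 1)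
    (fun p : Sp (ac2 act c) (DM S s) => p.val.1.2 0)
    fun p : Sp (ac2 act c) (DM S s) => p.val.1.2 1 :=
  have v0 : Continuous (Sp.val : Sp (ac2 act c) (DM S s) → W2 W) := Sp.continuous_val
  ⟨by fun_prop, by fun_prop, by fun_prop, by fun_prop, fun _ _ => rfl,
    fun g p => congrArg (· * _) (mul_one _), fun g p => congrArg (· * _) (mul_one _),
    fun _ _ => rfl, fun p => (mem_DM.1 (Sp.val_mem p)).2, fun p => (mem_DM.1 (Sp.val_mem p)).1.1.2,
    fun p => (mem_DM.1 (Sp.val_mem p)).1.2⟩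

variable (S s) in
/-- the fibre at infinity -/
abbrev Dt : Set (W2 W) := {p | p ∈ DM S s ∧ p.2 0 = 0}

variable (S s) in
/-- the proper transform -/
abbrev Du : Set (W2 W) := {p | p ∈ DM S s ∧ p.1.2 0 = 0}

variable (S s) in
/-- the exceptional divisor -/
abbrev De : Set (W2 W) := {p | p ∈ DM S s ∧ p.2 1 = 0}

variable (act c) in
/-- the inclusion -/
noncomputable def mi {T : Set (W2 W)} [FP (ac2 act c) T] (e : T ⊆ DM S s) :
    Mor (sp (ac2 act c) T) (sp (ac2 act c) (DM S s)) := (Eqh.incl (act := ac2 act c) e).mor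

theorem J_mi {T : Set (W2 W)} [FP (ac2 act c) T] {χ f} (d : Dv (ac2 act c) (DM S s) T χ f)
    (h : QM (ac2 act c) (DM S s) n) (k : QM (ac2 act c) T m) (y : H (Quo (ac2 act c) (DM S s))) :
    k.ps.J (H.map (mi act c d.sub).map y) = h.ps.J ((lce _ _ d.hm).1 * y) := by
  rw [lce_val]
  exact d.J' h k y

theorem J_mq {T : Set (W2 W)} [FP (ac2 act c) T] (e : T ⊆ DM S s) (k : QM (ac2 act c) T m)
    (h : QM act S n) (e' : m = n)
    (hb : Bijective (hol_q (act := act) (c := c) fun _ hp => (e hp).1.1.1).q) (y : H (Quo act S)) :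
    k.ps.J (H.map ((mq act S c s).map.comp (mi act c e).map) y) = h.ps.J y :=
  J_mor k h e' _ hb (fun x => by rw [← Mor.map_comp]; exact ((mq act S c s).comp (mi act c e)).map_π x) y

theorem lce_t : lce (ac2 act c) (DM S s) (kb_snd.mul' (kb_fst.comp kb_snd)) =
    lce _ _ kb_snd + lce _ _ (kb_fst.comp kb_snd) := Subtype.ext (by
  rw [Subalgebra.coe_add, lce_val, lce_val, lce_val, lcq_mul kb_snd (kb_fst.comp kb_snd)])

variable [FP act Z] [FP (ac2 act c) (De S s)] [FP (ac1 act c) (pbS Z)] (d : Dv act S Z c s)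

/-- the exceptional divisor is a projective bundle -/
noncomputable def mr : Mor (sp (ac2 act c) (De S s)) (sp (ac1 act c) (pbS Z)) :=
  (hol_r (act := act) (c := c) (T := De S s) fun _ hp => (e_mem d hp).2).toEqh.mor

variable (act c Z) in
/-- the projection of the projective bundle -/
noncomputable def mp : Mor (sp (ac1 act c) (pbS Z)) (sp act Z) :=
  (pb_hol' (act := act) (χ1 c) Z).toEqh.mor

theorem mp_map : (pb_hol' (act := act) (χ1 c) Z).q = (mp act Z c).map := (Eqh.mor_map _).symm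

theorem J_mr (k : QM (ac2 act c) (De S s) m) (h : QM (ac1 act c) (pbS Z) n) (e : m = n)
    (y : H (Quo (ac1 act c) (pbS Z))) : k.ps.J (H.map (mr d).map y) = h.ps.J y :=
  J_mor k h e _ (bij_e d) (fun x => (mr d).map_π x) y

theorem sq_e : (mq act S c s).map.comp (mi act c (dv_e d).sub).map =
    ((qinc act d.sub).comp (mp act Z c).map).comp (mr d).map := by
  rw [← Eqh.qm_incl' d.sub, ← Mor.map_comp, ← Mor.map_comp, ← Mor.map_comp]
  exact Mor.map_ext fun _ => rfl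

theorem c1_e : Hev.map (mi act c (dv_e d).sub).map (c1 ((mq act S c s).chr d.hm.ρ)) =
    Hev.map (mr d).map (Hev.map (mp act Z c).map (lce act Z d.hm)) :=
  (map_c1 _ _).trans ((congrArg _ (map_c1 (mp act Z c) _)).trans (map_c1 (mr d) _)).symm

theorem c1_e' : Hev.map (mi act c (dv_e d).sub).map
    (lce (ac2 act c) (DM S s) (kb_fst.comp kb_snd)) =
    Hev.map (mr d).map (lce (ac1 act c) (pbS Z) kb_snd) :=
  (map_c1 (mi act c (dv_e d).sub) (kb_fst.comp kb_snd).ρ).trans ((congrArg c1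
    (ContinuousMonoidHom.ext fun _ => rfl)).trans (map_c1 (mr d) kb_snd.ρ).symm)

theorem rel_e (C1 : Chr (χ1 c)) : (lce (ac1 act c) (pbS Z) kb_snd + Hev.map (mp act Z c).map 0) *
    (lce (ac1 act c) (pbS Z) kb_snd + Hev.map (mp act Z c).map (lce act Z d.hm)) = 0 := by
  have r0 := C1.rel (pb_hol' (act := act) (χ1 c) Z) fun _ hp => hp.2
  rwa [Fin.prod_univ_two, show lce act Z (C1.hm 0) = 0 from
    Subtype.ext ((lce_val _).trans lcq_one), mp_map] at r0

theorem lhb_e (C1 : Chr (χ1 c)) (h : QM act Z n) (k : QM (ac1 act c) (pbS Z) (n + (1 : ℕ))) :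
    LHB h.ps k.ps 1 (mp act Z c).map ((lce (ac1 act c) (pbS Z) kb_snd).1 +
      H.map (mp act Z c).map (lce act Z d.hm).1) := by
  rw [lce_val, lce_val, ← mp_map]
  exact (C1.lhb h k (r := 1) rfl rfl).twist (lcq_deg (act := act) (S := Z) d.hm)

theorem chc_e' {E K : VB (sp act S)} {φ : Sp act S → E.W →ₗ[ℂ] K.W} {ψ : Sp act S → K.W →ₗ[ℂ] E.W}
    (h : EM d.hm.ρ (fun t : Sp act S => s t.val) E K φ ψ)
    {B : VB (sp act Z)} {β : Sp act Z → K.W →ₗ[ℂ] B.W}
    (hβ : Hom (Mor.id _) (K.pb (Eqh.incl (act := act) d.sub).mor) B β)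
    (sj : ∀ p w, w ∈ B.F p → ∃ w' ∈ K.F (Sp.incl act d.sub p), β p w' = w)
    (kr : ∀ p w, w ∈ K.F (Sp.incl act d.sub p) → (β p w = 0 ↔ ψ (Sp.incl act d.sub p) w = 0)) :
    pS (mi act c (dv_e d).sub).map (ex (c1 ((mq act S c s).chr d.hm.ρ)) *
      (pS (mq act S c s).map K.chc - (VV (h.pb (mq act S c s)) (ds d.hm)).chc)) =
      pS ((mp act Z c).map.comp (mr d).map) B.chc * pS (mi act c (dv_e d).sub).map
        (ex (lce _ _ (kb_fst.comp kb_snd) + c1 ((mq act S c s).chr d.hm.ρ)) - 1) := by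
  have k := hβ.pb' ((mp act Z c).comp (mr d))
  rw [← chc_pb, ← Mor.map_comp, ← chc_pb B]
  exact chc_e (h.pb (mq act S c s)) (ds d.hm) (mi act c (dv_e d).sub) (fun p => p.2.2)
    (β := fun p => β (((mp act Z c).comp (mr d)).f p)) ⟨k.mem, k.cont, k.eqv⟩
    (fun p => sj (((mp act Z c).comp (mr d)).f p)) fun p => kr (((mp act Z c).comp (mr d)).f p)

end

/-- **Riemann-Roch for a divisor** -/
theorem grr_div [FP act S] [FP act Z] (d : Dv act S Z c s)
    (an : ∀ a, IsUnit a → AnalyticAt ℂ c a) (hY : QM act S n) (hX : QM act Z m)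
    {E K : VB (sp act S)} {φ : Sp act S → E.W →ₗ[ℂ] K.W} {ψ : Sp act S → K.W →ₗ[ℂ] E.W}
    (h : EM d.hm.ρ (fun t : Sp act S => s t.val) E K φ ψ)
    {B : VB (sp act Z)} {β : Sp act Z → K.W →ₗ[ℂ] B.W}
    (hβ : Hom (Mor.id _) (K.pb (Eqh.incl (act := act) d.sub).mor) B β)
    (sj : ∀ p w, w ∈ B.F p → ∃ w' ∈ K.F (Sp.incl act d.sub p), β p w' = w)
    (kr : ∀ p w, w ∈ K.F (Sp.incl act d.sub p) → (β p w = 0 ↔ ψ (Sp.incl act d.sub p) w = 0))
    (k : ℕ) (z : H (Quo act S)) :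
    hY.ps.J ((coeff (k + 1) (K.chc - E.chc)).1 * z) =
      hX.ps.J ((coeff k (B.chc * Grr.ev (lce act Z d.hm) gS)).1 * H.map (qinc act d.sub) z) := by
  have C1 := chr1 d.hm an
  haveI := C1.isAct (act := act)
  haveI := chr2.isAct (act := ac1 act c)
  have hM := (dv_M d).qm (chr2.qm (C1.qm hY (r := 1) rfl) (r := 1) rfl)
  have ht := dv_t.qm hM
  have hu := dv_u.qm hM
  have he := (dv_e d).qm hM
  have hX' := d.qm hY
  have hP := C1.qm hX' (r := 1) rfl
  haveI := hM.fp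
  haveI := ht.fp
  haveI := hu.fp
  haveI := he.fp
  haveI := hP.fp
  have L := lhb_e d C1 hX' hP
  exact grr_abs (JY := hY.ps.J) (JZ := hX'.ps.J)
    (fun y => (J_mi dv_t hM ht y).trans (by rw [lce_t, Subalgebra.coe_add])) (J_mi dv_u hM hu)
    (J_mi (dv_e d) hM he) (J_mq _ ht hY (by omega) bij_t) (J_mq _ hu hY (by omega) (bij_u d))
    (J_mr d he hP (by omega)) (sq_e d) (L.int_lt one_pos) L.int (rel_e d C1)
    ((chc_t (h.pb (mq act S c s)) (ds d.hm) (mi act c (dv_t (act := act) (c := c)).sub)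
      fun p => p.2.2).trans (congrArg _ (chc_pb E _)))
    ((chc_u (h.pb (mq act S c s)) (ds d.hm) (mi act c (dv_u (act := act) (c := c)).sub)
      fun p => p.2.2).trans (congrArg _ (chc_pb K _)))
    (chc_e' d h hβ sj kr)
    (c1_e d) (c1_e' d) k z

end Vale.Agent.P287T.Dn
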