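import Vale.Agent.P287T.Rr.Kos

/-!
# The Koszul complex and the linear resolutions of the polynomial ring
-/

set_option linter.unusedSectionVars false
set_option linter.unusedVariables false

namespace Vale.Agent.P287T.Rr

open Module MvPolynomial P269.Grr P287T.Cy P287Z.O P287Z.O.L

variable {M N : Type} [AddCommGroup M] [Module ℂ M] [AddCommGroup N] [Module ℂ N] {j : ℕ}
  [Module S6 M] [IsScalarTower ℂ S6 M]

/-- the forms of degree `n` -/
noncomputable def HS (n : ℤ) : Submodule ℂ S6 := weightedHomogeneousSubmodule ℂ (fun _ => 2) n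

theorem mem_HS {n : ℤ} {f : S6} : f ∈ HS n ↔ V.Hg n f := Iff.rfl

theorem hg_hom {k : ℕ} {f : S6} (hf : V.Hg (2 * k) f) : f.IsHomogeneous k := fun m hm => by
  have h3 := hf hm
  simp only [Finsupp.weight_apply, Finsupp.sum, smul_eq_mul, Pi.one_apply, mul_one,
    nsmul_eq_mul] at h3 ⊢
  rw [← Finset.sum_mul, ← Nat.cast_sum] at h3
  omega

theorem mu_HS (n : ℤ) : Mu (HS n) (HS (n + 2)) := fun i _ hm =>
  hga_mul' (hga_X i) hm (add_comm _ _)

theorem euler {n : ℤ} {f : S6} (hf : V.Hg n f) : ∑ i, X i * pderiv i f = ((n : ℂ) / 2) • f := by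
  by_cases h1 : ∃ k : ℕ, 2 * (k : ℤ) = n
  · obtain ⟨k, rfl⟩ := h1
    rw [(hg_hom hf).sum_X_mul_pderiv, ← Nat.cast_smul_eq_nsmul ℂ]
    congr 1
    push_cast
    ring
  · simp [hga_eq_zero hf fun k e => h1 ⟨k, e⟩]

/-- the partial derivative of a form -/
noncomputable def pd (i : Fin 6) (ω : Om S6 j) : Om S6 j :=
  (pderiv i : Derivation ℂ S6 S6).toLinearMap.compAlternatingMap ω

theorem pd_apply (i : Fin 6) (ω : Om S6 j) (v : Fin j → Fin 6 → ℂ) :
    pd i ω v = pderiv i (ω v) := rfl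

/-- the exterior derivative -/
noncomputable def dR (ω : Om S6 j) : Om S6 (j + 1) := ∑ i, wdgA (LinearMap.proj i) (pd i ω)

theorem wdgA_add (l : (Fin 6 → ℂ) →ₗ[ℂ] ℂ) (α β : Om M j) :
    wdgA l (α + β) = wdgA l α + wdgA l β := AlternatingMap.ext fun v => by
  simp only [wdgA_apply, AlternatingMap.add_apply, smul_add, Finset.sum_add_distrib]

theorem wdgA_smul (l : (Fin 6 → ℂ) →ₗ[ℂ] ℂ) (r : S6) (α : Om M j) :
    wdgA l (r • α) = r • wdgA l α := AlternatingMap.ext fun v => by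
  simp only [wdgA_apply, AlternatingMap.smul_apply, Finset.smul_sum, smul_comm r]

theorem wdgA_sum {K : Type} (s : Finset K) (l : (Fin 6 → ℂ) →ₗ[ℂ] ℂ) (α : K → Om M j) :
    wdgA l (∑ k ∈ s, α k) = ∑ k ∈ s, wdgA l (α k) :=
  map_sum (⟨⟨wdgA l, wdgA_zero l⟩, wdgA_add l⟩ : Om M j →+ Om M (j + 1)) α s

theorem sum_wdg_ct (ω : Om M (j + 1)) :
    ∑ i, wdgA (LinearMap.proj i) (ct (ee i) j ω) = (j + 1) • ω := by
  rw [← AlternatingMap.alternatizeUncurryFin_curryLeft]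
  refine AlternatingMap.ext fun v => ?_
  rw [om_sum, AlternatingMap.alternatizeUncurryFin_apply]
  simp only [wdgA_apply]
  rw [Finset.sum_comm]
  refine Finset.sum_congr rfl fun k _ => ?_
  rw [← Finset.smul_sum]
  exact congrArg _ ((om_sum _ _ _).symm.trans (DFunLike.congr_fun (ct_sum (v k) ω).symm _))

theorem sum_pd {n : ℤ} {ω : Om S6 j} (h : ω ∈ Og (HS n) j) :
    ∑ i, (X i : S6) • pd i ω = ((n : ℂ) / 2) • ω :=
  AlternatingMap.ext fun v => (om_sum _ _ v).trans (euler (mem_Og.1 h v))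

theorem dR_mem {n : ℤ} {ω : Om S6 j} (h : ω ∈ Og (HS (n + 2)) j) : dR ω ∈ Og (HS n) (j + 1) :=
  sum_mem fun i _ => wdgA_mem (fun _ hv => (congrArg _ hv).trans (map_zero _))
    (mem_Og.2 fun v => IsWeightedHomogeneous.pderiv (mem_Og.1 h v) rfl)

theorem proj_ee (i k : Fin 6) :
    (LinearMap.proj i : (Fin 6 → ℂ) →ₗ[ℂ] ℂ) (ee k) = if i = k then 1 else 0 :=
  Pi.single_apply _ _ _

theorem del_dR_zero (ω : Om S6 0) : del 0 (dR ω) = ∑ i, (X i : S6) • pd i ω := by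
  rw [del_eq]
  refine Finset.sum_congr rfl fun k _ => congrArg _ ?_
  rw [dR, map_sum]
  refine (Finset.sum_congr rfl fun i _ => curry_wdgA_zero _ _ _).trans ?_
  simp [proj_ee]

theorem pd_del (i : Fin 6) (ω : Om S6 (j + 1)) :
    pd i (del j ω) = ct (ee i) j ω + ∑ k, (X k : S6) • ct (ee k) j (pd i ω) :=
  AlternatingMap.ext fun v => by
    rw [AlternatingMap.add_apply, om_sum]
    simp only [pd_apply, AlternatingMap.smul_apply, ct_apply, del_apply]
    simp [pderiv_X, Pi.single_apply, Finset.sum_add_distrib, add_comm]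

theorem del_dR (ω : Om S6 (j + 1)) :
    del (j + 1) (dR ω) + dR (del j ω) = ∑ i, (X i : S6) • pd i ω + (j + 1) • ω := by
  have h1 : ∀ k, ct (ee k) (j + 1) (dR ω) =
      pd k ω - ∑ i, wdgA (LinearMap.proj i) (ct (ee k) j (pd i ω)) := fun k => by
    rw [dR, map_sum]
    refine (Finset.sum_congr rfl fun i _ => curry_wdgA _ _ _).trans ?_
    rw [Finset.sum_sub_distrib]
    simp [proj_ee]
    rfl
  rw [del_eq]
  simp only [h1]
  rw [dR]
  simp only [pd_del, wdgA_add, wdgA_sum, wdgA_smul, smul_sub, Finset.smul_sum,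
    Finset.sum_sub_distrib, Finset.sum_add_distrib, sum_wdg_ct]
  rw [Finset.sum_comm]
  abel

theorem ke_HS {n : ℤ} (h : n + 2 + 2 * j ≠ 0) : KE (HS n) (HS (n + 2)) j := by
  intro ω hω
  have h1 : del j (dR ω) = (((n + 2 : ℤ) : ℂ) / 2 + j) • ω := by
    cases j with
    | zero => rw [del_dR_zero, sum_pd hω, Nat.cast_zero, add_zero]
    | succ j =>
      have := del_dR ω
      rw [hω.2, show dR (0 : Om S6 j) = 0 from Finset.sum_eq_zero fun i _ => wdgA_zero _, add_zero,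
        sum_pd hω.1] at this
      rw [this, add_smul _ ((j + 1 : ℕ) : ℂ), Nat.cast_smul_eq_nsmul]
  have h2 : ((n + 2 : ℤ) : ℂ) / 2 + j ≠ 0 := fun e => h (by
    have : ((n + 2 + 2 * j : ℤ) : ℂ) = 0 := by
      push_cast at e ⊢
      linear_combination 2 * e
    exact_mod_cast this)
  exact ⟨_ • dR ω, Submodule.smul_mem _ _ (dR_mem (FF_le hω)), by
    rw [map_smul, h1, inv_smul_smul₀ h2]⟩

/-- evaluation -/
noncomputable def ev1 (x : Fin 6 → ℂ) : S6 →ₗ[ℂ] ℂ := (aeval x).toLinearMap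

theorem ev1_apply (x : Fin 6 → ℂ) (f : S6) : ev1 x f = eval x f := rfl

theorem isEv_ev1 (x : Fin 6 → ℂ) : IsEv (ev1 x) x := fun i m => by simp [ev1_apply]

theorem ae_bot {P : Submodule ℂ M} (h : ∀ m ∈ P, m = 0) (ev : M →ₗ[ℂ] N) (x : Fin 6 → ℂ) :
    AE P ev x j := fun ω hω _ =>
  ⟨0, zero_mem _, (map_zero _).trans (AlternatingMap.ext fun v =>
    (h _ (mem_Og.1 (FF_le hω) v)).symm)⟩

theorem ae_HS {x : Fin 6 → ℂ} (hx : x ≠ 0) (n : ℤ) (j : ℕ) : AE (HS n) (ev1 x) x j := by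
  by_cases h1 : ∃ k : ℕ, 2 * (k : ℤ) = n
  swap
  · exact ae_bot (fun _ hf => hga_eq_zero hf fun k e => h1 ⟨k, e⟩) _ _
  obtain ⟨k, rfl⟩ := h1
  induction k with
  | zero =>
    cases j with
    | zero =>
      refine fun ω hω h0 => ⟨0, zero_mem _, (map_zero _).trans (AlternatingMap.ext fun v => ?_)⟩
      have h2 := totalDegree_eq_zero_iff_eq_C.1
        ((totalDegree_zero_iff_isHomogeneous _).2 (hg_hom (k := 0) (mem_Og.1 hω 0)))
      have h3 : eval x (ω 0) = 0 := h0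
      rw [h2, eval_C] at h3
      rw [Subsingleton.elim v 0, h2, h3, C_0]
      rfl
    | succ j =>
      have h2 := AE.step (j := j + 1) hx (isEv_ev1 x) (mu_HS (-2)) (ke_HS (by push_cast; omega))
        (ae_bot (fun _ hf => hga_neg_eq_zero (mem_HS.1 hf) (by omega)) _ _)
      rwa [show (-2 + 2 : ℤ) = 2 * (0 : ℕ) by norm_num] at h2
  | succ k ih =>
    have h2 := AE.step hx (isEv_ev1 x) (mu_HS _) (ke_HS (by omega)) ih
    rwa [show 2 * (k : ℤ) + 2 = 2 * (k + 1 : ℕ) by push_cast; ring] at h2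

theorem ev1_surj {x : Fin 6 → ℂ} (hx : x ≠ 0) {n : ℤ} (h0 : 0 ≤ n) (h2 : 2 ∣ n) :
    ∃ f ∈ HS n, eval x f = 1 := by
  obtain ⟨i, hi⟩ := Function.ne_iff.1 hx
  obtain ⟨k, rfl⟩ := h2
  lift k to ℕ using by omega
  induction k with
  | zero => exact ⟨1, hga_one, map_one _⟩
  | succ k ih =>
    obtain ⟨f, h1, h2⟩ := ih (by omega)
    refine ⟨(x i)⁻¹ • (X i * f), hga_smul _ (hga_mul' (hga_X i) h1 (by push_cast; ring)), ?_⟩
    rw [smul_eval, map_mul, h2, eval_X, mul_one]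
    exact inv_mul_cancel₀ hi

theorem fin_HS (n : ℤ) : FiniteDimensional ℂ (HS n) := by
  by_cases h1 : ∃ k : ℕ, 2 * (k : ℤ) = n
  · obtain ⟨k, rfl⟩ := h1
    have := Module.Finite.iff_fg.2 (homogeneousSubmodule_fg (σ := Fin 6) (R := ℂ) k)
    exact Submodule.finiteDimensional_of_le (S₂ := homogeneousSubmodule (Fin 6) ℂ k)
      fun _ hf => hg_hom hf
  · rw [show HS n = ⊥ from eq_bot_iff.2 fun _ hf => hga_eq_zero hf fun k e => h1 ⟨k, e⟩]
    infer_instance

end Vale.Agent.P287T.Rr
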