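import Vale.Agent.P287T.Rr.Defs
import Vale.Agent.P287T.Rr.Kos2
import Vale.Agent.P287T.Rr.Div
import Vale.Agent.P287T.Fa.Defs

/-!
# Riemann-Roch for families of matrix factorizations: the setting and the statements
-/

set_option linter.unusedSectionVars false
set_option linter.style.haveILetI false

namespace Vale.Agent.P287T.Rr

open Set Function Module Matrix P291Z P269 P269.Ch P269.Grr P287T.Cy P287T.Fa P287T.Dn PowerSeries

variable {ι κ : Type} [Fintype ι] [Fintype κ]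

section pj

variable {Y : Ch.Sp}

/-- an invariant family of subspaces which is the image of a continuous family of projectors -/
structure Pj (E : VB Y) (F : Y.T → Submodule ℂ E.W) : Prop where
  ex : ∃ P : Y.T → E.W →ₗ[ℂ] E.W, (∀ w, Continuous fun t => P t w) ∧ (∀ t w, P t w ∈ F t) ∧
    ∀ t w, w ∈ F t → P t w = w
  iv : ∀ (g : Y.G) t w, w ∈ F t → g • w ∈ F (g • t)
  cn : PreconnectedSpace Y.T

theorem cont_lin {T U U' : Type} [TopologicalSpace T] [NormedAddCommGroup U] [NormedSpace ℂ U]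
    [FiniteDimensional ℂ U] [NormedAddCommGroup U'] [NormedSpace ℂ U'] {P : T → U →ₗ[ℂ] U'}
    (h : ∀ w, Continuous fun t => P t w) : Continuous fun x : T × U => P x.1 x.2 :=
  ((continuous_clm_apply.2 h : Continuous fun t => LinearMap.toContinuousLinearMap (P t)).comp
    continuous_fst).clm_apply continuous_snd

variable {E : VB Y} {F : Y.T → Submodule ℂ E.W}

theorem Pj.cl (h : Pj E F) : IsClosed {x : Y.T × E.W | x.2 ∈ F x.1} := by
  obtain ⟨P, h1, h2, h3⟩ := h.ex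
  rw [show {x : Y.T × E.W | x.2 ∈ F x.1} = {x | P x.1 x.2 = x.2} from
    Set.ext fun x => ⟨h3 _ _, fun e => by
      have := h2 x.1 x.2
      rwa [show P x.1 x.2 = x.2 from e] at this⟩]
  exact isClosed_eq (cont_lin h1) continuous_snd

theorem Pj.rk (h : Pj E F) (t t' : Y.T) : finrank ℂ (F t) = finrank ℂ (F t') := by
  obtain ⟨P, h1, h2, h3⟩ := h.ex
  have h4 : ∀ t, (finrank ℂ (F t) : ℝ) = (LinearMap.trace ℂ _ (P t)).re := fun t => by
    rw [LinearMap.IsProj.trace (p := F t) ⟨h2 t, h3 t⟩, Complex.natCast_re]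
  refine PreconnectedSpace.constant h.cn (f := fun t => finrank ℂ (F t))
    (Nat.isClosedEmbedding_coe_real.isEmbedding.continuous_iff.2 ?_)
  rw [show Nat.cast ∘ (fun t => finrank ℂ (F t)) = _ from funext h4]
  let τ : (E.W →L[ℂ] E.W) →ₗ[ℂ] ℂ := LinearMap.trace ℂ E.W ∘ₗ ContinuousLinearMap.coeLM ℂ
  have h5 : Continuous fun t => (LinearMap.toContinuousLinearMap (P t) : E.W →L[ℂ] E.W) :=
    continuous_clm_apply.2 h1
  exact Complex.continuous_re.comp (τ.continuous_of_finiteDimensional.comp h5)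

theorem iSup_rk {T : Type} {f : T → ℕ} (h : ∀ t t', f t = f t') (t : T) : f t = ⨆ t, f t := by
  haveI : Nonempty T := ⟨t⟩
  rw [show f = fun _ => f t from funext fun t' => h t' t, ciSup_const]

/-- the family as a bundle -/
@[reducible] noncomputable def Pj.vb (h : Pj E F) : VB Y :=
  E.sub F (⨆ t, finrank ℂ (F t)) h.cl (iSup_rk h.rk) h.iv

/-- matrices with the weights `ψ i l` -/
noncomputable def chm (ψ : κ → ι → Y.G →ₜ* ℂˣ) : VB Y :=
  VB.ofLin (κ → ι → ℂ)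
    (fun g => LinearMap.pi fun i => LinearMap.pi fun l =>
      (ψ i l g : ℂ) • (LinearMap.proj (R := ℂ) (φ := fun _ : ι => ℂ) l ∘ₗ
        LinearMap.proj (R := ℂ) (φ := fun _ : κ => ι → ℂ) i))
    (fun w => funext fun i => funext fun l => by simp)
    (fun g h w => funext fun i => funext fun l => by simp [mul_assoc])
    (continuous_pi fun i => continuous_pi fun l =>
      ((Units.continuous_val.comp (ψ i l).continuous).comp continuous_fst).mul
        ((continuous_apply l).comp ((continuous_apply i).comp continuous_snd)))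
    (fun _ => ⊤) _ isClosed_univ (fun _ => finrank_top ℂ _) fun _ _ _ _ => trivial

theorem chm_smul (ψ : κ → ι → Y.G →ₜ* ℂˣ) (g : Y.G) (v : (chm ψ).W) (i : κ) (l : ι) :
    (show κ → ι → ℂ from g • v) i l = (ψ i l g : ℂ) * (show κ → ι → ℂ from v) i l := rfl

theorem chars_smul (ψ : ι → Y.G →ₜ* ℂˣ) (g : Y.G) (v : (chars ψ).W) (i : ι) :
    (show ι → ℂ from g • v) i = (ψ i g : ℂ) * (show ι → ℂ from v) i := rfl

end pj

/-- An invariant continuous family of matrix factorizations of `W` over a connected base. -/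
structure EF (B : Ch.Sp) (W : S6) (p : ι → ℤ) (e : B.T → Matrix ι ι ℂ)
    (d : B.T → Matrix ι ι S6) : Prop where
  pf : PF (fun _ => W) p e d
  ie : ∀ (g : B.G) t, e (g • t) = e t
  id : ∀ (g : B.G) t, d (g • t) = d t
  cn : PreconnectedSpace B.T

/-- matrices of the parity of `a` from the image of `e` to the image of `f` -/
def M0 (p : ι → ℤ) (e : Matrix ι ι ℂ) (q : κ → ℤ) (f : Matrix κ κ ℂ) (a : ℤ) :
    Submodule ℂ (Matrix κ ι ℂ) where
  carrier := {g | (∀ i l, ¬2 ∣ a + p l - q i → g i l = 0) ∧ f * g * e = g}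
  zero_mem' := ⟨fun _ _ _ => rfl, by rw [Matrix.mul_zero, Matrix.zero_mul]⟩
  add_mem' h h' := ⟨fun i l k => by rw [Matrix.add_apply, h.1 i l k, h'.1 i l k, add_zero],
    by rw [Matrix.mul_add, Matrix.add_mul, h.2, h'.2]⟩
  smul_mem' c _ h := ⟨fun i l k => by rw [Matrix.smul_apply, h.1 i l k, smul_zero],
    by rw [Matrix.mul_smul, Matrix.smul_mul, h.2]⟩

/-- the closed ones -/
def Z0 (p : ι → ℤ) (e D : Matrix ι ι ℂ) (q : κ → ℤ) (f D' : Matrix κ κ ℂ) (a : ℤ) :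
    Submodule ℂ (Matrix κ ι ℂ) where
  carrier := {g | g ∈ M0 p e q f a ∧ D' * g = g * D}
  zero_mem' := ⟨zero_mem _, by rw [Matrix.mul_zero, Matrix.zero_mul]⟩
  add_mem' h h' := ⟨add_mem h.1 h'.1, by rw [Matrix.mul_add, Matrix.add_mul, h.2, h'.2]⟩
  smul_mem' c _ h := ⟨Submodule.smul_mem _ c h.1, by rw [Matrix.mul_smul, Matrix.smul_mul, h.2]⟩

section ser

variable {R : Type} [CommRing R] [Algebra ℂ R]

/-- the involution `ch V ↦ ch V^*` -/
noncomputable def du : R⟦X⟧ →+* R⟦X⟧ := rescale (-1)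

/-- the involution on series in two variables -/
noncomputable def du2 : R⟦X⟧⟦X⟧ →+* R⟦X⟧⟦X⟧ := (rescale (-1)).comp (PowerSeries.map du)

/-- `exp (- n u / 2)` -/
noncomputable def tw (R : Type) [CommRing R] [Algebra ℂ R] (n : ℤ) : R⟦X⟧ :=
  ex (algebraMap ℂ R (-(n : ℂ) / 2))

/-- the substitution `u = h X` -/
noncomputable def th {Y B : Type} [TopologicalSpace Y] [TopologicalSpace B] (π : C(Y, B))
    (h : Hev Y) (G : (Hev B)⟦X⟧⟦X⟧) : (Hev Y)⟦X⟧ :=
  ∑ k ∈ Finset.range 6, pS π (coeff k G) * (C h * X) ^ k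

end ser

/-- The setting: `Y = B × ℙ⁵ ⊃ X = B × {W = 0}` with the integrals. -/
structure Amb (W : S6) where
  /-- the base -/
  B : Ch.Sp
  /-- the projective bundle -/
  Y : Ch.Sp
  /-- the family of cubics -/
  X : Ch.Sp
  /-- the projection -/
  π : Mor Y B
  /-- the inclusion -/
  i : Mor X Y
  /-- the character of `O(1)` -/
  χ : Y.G →ₜ* ℂˣ
  /-- the character of `O(3)` -/
  χ3 : Y.G →ₜ* ℂˣ
  /-- the coordinates -/
  x : Y.T → Fin 6 → ℂ
  /-- the integral along the fibres of `Y` -/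
  fY : Hev Y.X →ₗ[ℂ] Hev B.X
  /-- the integral along the fibres of `X` -/
  fX : Hev X.X →ₗ[ℂ] Hev B.X
  sm : Sm W
  cY : PreconnectedSpace Y.T
  cX : PreconnectedSpace X.T
  e3 : χ3 = χ ^ (3 : ℤ)
  cx : Continuous x
  eqx : ∀ (g : Y.G) t, x (g • t) = (χ g : ℂ) • x t
  nx : ∀ t, x t ≠ 0
  onX : ∀ t, MvPolynomial.eval (x (i.f t)) W = 0
  six : c1 χ ^ 6 = 0
  five : Hev.map i.map (c1 χ) ^ 5 = 0
  lh : ∀ a (k : ℕ), fY (Hev.map π.map a * c1 χ ^ k) = if k = 5 then a else 0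
  dj : ∀ z, fX (Hev.map i.map z) = 3 * fY (c1 χ * z)
  lin : ∀ a y, fX (Hev.map i.map (Hev.map π.map a) * y) = a * fX y
  dg : ∀ k < 4, ∀ y ∈ Hev.deg X.X k, fX y = 0
  dec : ∀ y, (∀ m : ℕ, fX (y * Hev.map i.map (c1 χ) ^ m) = 0) → y * Hev.map i.map (c1 χ) = 0
  gd : ∀ {E K : VB Y} {φ : Y.T → E.W →ₗ[ℂ] K.W} {ψ : Y.T → K.W →ₗ[ℂ] E.W},
    EM χ3 (fun t => MvPolynomial.eval (x t) W) E K φ ψ →
    ∀ {D : VB X} {β : X.T → K.W →ₗ[ℂ] D.W}, Hom (Mor.id _) (K.pb i) D β →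
      (∀ t w, w ∈ D.F t → ∃ w' ∈ K.F (i.f t), β t w' = w) →
      (∀ t w, w ∈ K.F (i.f t) → (β t w = 0 ↔ ψ (i.f t) w = 0)) → ∀ k z,
        fY (coeff (k + 1) (K.chc - E.chc) * z) =
          fX (coeff k (D.chc * Grr.ev (Hev.map i.map (c1 χ3)) gS) * Hev.map i.map z)

namespace Amb

variable {W : S6} (A : Amb W)

/-- series of classes on the base -/
abbrev R : Type := (Hev A.B.X)⟦X⟧

/-- the substitution -/
noncomputable def Θ (G : A.R⟦X⟧) : (Hev A.Y.X)⟦X⟧ := th A.π.map (c1 A.χ) G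

/-- the pull-back from the base to `X` -/
noncomputable def pb (b : Hev A.B.X) : Hev A.X.X := Hev.map A.i.map (Hev.map A.π.map b)

/-- the hyperplane class on `X` -/
noncomputable def hX : Hev A.X.X := Hev.map A.i.map (c1 A.χ)

/-- the primitive part of a class -/
noncomputable def prim (y : Hev A.X.X) : Hev A.X.X :=
  y - ∑ m ∈ Finset.range 5, (3 : ℂ)⁻¹ • (A.pb (A.fX (y * A.hX ^ (4 - m))) * A.hX ^ m)

/-- the primitive part of a series -/
noncomputable def primS (k : (Hev A.X.X)⟦X⟧) : (Hev A.X.X)⟦X⟧ :=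
  PowerSeries.mk fun j => A.prim (coeff j k)

/-- the integral along the fibres of a series, with the shift of the degree -/
noncomputable def fS (n : (Hev A.X.X)⟦X⟧) : A.R := PowerSeries.mk fun j => A.fX (coeff (j + 4) n)

end Amb

namespace EF

variable {B : Ch.Sp} {W : S6} {p : ι → ℤ} {e : B.T → Matrix ι ι ℂ} {d : B.T → Matrix ι ι S6}

theorem mulVec_e (h : EF B W p e d) (t : B.T) (w : ℤ → ℂ) (v : ι → ℂ) :
    (e t *ᵥ fun j => w (p j) * v j) = fun i => w (p i) * (e t *ᵥ v) i := by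
  funext i
  rw [Matrix.mulVec, Matrix.mulVec, dotProduct, dotProduct, Finset.mul_sum]
  refine Finset.sum_congr rfl fun j _ => ?_
  by_cases hj : p i = p j
  · rw [hj, mul_left_comm]
  · simp only [(h.pf.pf _).blk i j hj, zero_mul, mul_zero]

theorem pj_sup {Y : Ch.Sp} (h : EF B W p e d) (m : Mor Y B) (χ : Y.G →ₜ* ℂˣ) (s : ℤ → Prop)
    (w : ℤ → ℤ) (cn : PreconnectedSpace Y.T) : Pj (am χ fun i => w (p i))
      fun t => Vf (fun i => s (p i)) (e (m.f t)) 0 := by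
  classical
  let σ : Matrix ι ι ℂ := diagonal fun i => if s (p i) then 1 else 0
  refine ⟨⟨fun t => (e (m.f t) * σ).mulVecLin, fun v => ((h.pf.ce.comp m.cf).matrix_mul
    continuous_const).matrix_mulVec continuous_const, fun t (v : ι → ℂ) => ⟨fun i hi => ?_, ?_,
      zero_mulVec _⟩, fun t (v : ι → ℂ) hv => ?_⟩, fun g t v hv => ?_, cn⟩
  · refine Finset.sum_eq_zero fun j _ => mul_eq_zero_of_left ((mul_diagonal _ _ i j).trans ?_) _
    split_ifs with hj
    · exact mul_eq_zero_of_left ((h.pf.pf _).blk i j fun k => hi (show s (p i) from k ▸ hj)) _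
    · exact mul_zero _
  · show e _ *ᵥ ((e _ * σ) *ᵥ v) = (e _ * σ) *ᵥ v
    rw [mulVec_mulVec, ← mul_assoc, (h.pf.pf _).ee]
  · have h1 : σ *ᵥ v = v := funext fun i => by
      rw [mulVec_diagonal]
      split_ifs with hi
      · exact one_mul _
      · exact (zero_mul _).trans (hv.1 i hi).symm
    show (e _ * σ) *ᵥ v = v
    rw [← mulVec_mulVec, h1, hv.2.1]
  · rw [am_smul]
    refine ⟨fun i hi => mul_eq_zero_of_right _ (hv.1 i hi), ?_, zero_mulVec _⟩
    rw [m.eqv, h.ie]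
    exact (h.mulVec_e _ (fun n => (χ g : ℂ) ^ w n) v).trans
      (funext fun i => congrArg (_ * ·) (congrFun hv.2.1 i))

/-- the bundle of the generators of charge `n` -/
noncomputable def Vn (h : EF B W p e d) (n : ℤ) : VB B :=
  (h.pj_sup (Mor.id B) 1 (· = n) (fun _ => 0) h.cn).vb

/-- the generating function `∑ φ (ch V(n)) z(n)` of the generators -/
noncomputable def gen (h : EF B W p e d) {S : Type} [CommRing S] (φ : (Hev B.X)⟦X⟧ → S)
    (z : ℤ → S) : S := ∑ n ∈ Finset.univ.image p, φ (h.Vn n).chc * z n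

/-- the charge `∑ z ^ n ch V(n)` -/
noncomputable def Zc (h : EF B W p e d) (z : ℂ) : (Hev B.X)⟦X⟧ :=
  h.gen (fun a => a) fun n => algebraMap ℂ _ (z ^ n)

end EF

section st

variable {W : S6} (A : Amb W) {p : ι → ℤ} {e : A.B.T → Matrix ι ι ℂ} {d : A.B.T → Matrix ι ι S6}
  {q : κ → ℤ} {f : A.B.T → Matrix κ κ ℂ} {d' : A.B.T → Matrix κ κ S6}

/-- the family `V_E` on `X`: the kernel of `d(x)` on the even generators -/
abbrev PjV (p : ι → ℤ) (e : A.B.T → Matrix ι ι ℂ) (d : A.B.T → Matrix ι ι S6) : Prop :=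
  Pj (am (A.i.chr A.χ) fun i => wt (p i)) fun t => Vf (fun i => 2 ∣ p i + 0)
    (e (A.π.f (A.i.f t))) (evM (A.x (A.i.f t)) (d (A.π.f (A.i.f t))))

/-- the family `ζ` on `Y`: the closed even maps of the fibres -/
abbrev PjZ (p : ι → ℤ) (e : A.B.T → Matrix ι ι ℂ) (d : A.B.T → Matrix ι ι S6) (q : κ → ℤ)
    (f : A.B.T → Matrix κ κ ℂ) (d' : A.B.T → Matrix κ κ S6) : Prop :=
  Pj (chm fun i l => A.χ ^ ((p l - q i) / 2)) fun t => Z0 p (e (A.π.f t))
    (evM (A.x t) (d (A.π.f t))) q (f (A.π.f t)) (evM (A.x t) (d' (A.π.f t))) 0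

/-- The numerical data of the complex of maps: `c a`, `z a` are the characters of the maps and of
the closed maps of charge `a`, `r j a` those of the Koszul cycles of the closed maps. -/
structure Nd (hE : EF A.B W p e d) (hF : EF A.B W q f d') (c z : ℤ → A.R) (r : ℕ → ℤ → A.R)
    (a₀ : ℤ) : Prop where
  cf : ∀ a, c a = hE.gen du fun u => hF.gen (fun y => y) fun v => (finrank ℂ (HS (a + u - v)) : A.R)
  zc : ∀ a, a₀ ≤ a → z a + z (a + 3) = c a
  r0 : ∀ a, r 0 a = z a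
  rs : ∀ a j, a₀ ≤ a → r j (a + 2) + r (j + 1) a = (Nat.choose 6 (j + 1) : A.R) * z a
  r7 : ∀ a, r 7 a = 0
  ze : ∀ (h : PjZ A p e d q f d') (a : ℤ), a₀ ≤ 2 * a → h.vb.chc =
    A.Θ (∑ j ∈ Finset.range 7, (-1) ^ j * C (r j (2 * a)) * tw A.R (2 * a + 2 * j))

/-- the alternating sum of the characters of the complex of maps -/
noncomputable def rh {R : Type} [CommRing R] (c z : ℤ → R) (K : ℕ) : R :=
  ∑ k ∈ Finset.Ico (-K : ℤ) K, (k.negOnePow : ℤ) * c (3 * k) + (-1) ^ K * z (3 * K)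

/-- the even generators, `∑ ch V(n) t ^ n` -/
noncomputable def gE (hE : EF A.B W p e d) : A.R⟦X⟧ :=
  hE.gen C fun n => if 2 ∣ n then tw A.R n else 0

/-- the odd generators -/
noncomputable def gO (hE : EF A.B W p e d) : A.R⟦X⟧ :=
  hE.gen C fun n => if 2 ∣ n then 0 else tw A.R n

/-- the conclusion of the Riemann-Roch theorem for a divisor -/
def GD (G : (Hev A.Y.X)⟦X⟧) (D : (Hev A.X.X)⟦X⟧) : Prop := coeff 0 G = 0 ∧
  ∀ k z, A.fY (coeff (k + 1) G * z) =
    A.fX (coeff k (D * Grr.ev (Hev.map A.i.map (c1 A.χ3)) gS) * Hev.map A.i.map z)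

end st

/-- the lifted Riemann-Roch theorem for a divisor -/
def StLift : Prop := ∀ {W : S6} (A : Amb W) (G α : A.R⟦X⟧) (n : (Hev A.X.X)⟦X⟧),
  GD A (A.Θ G) (pS A.i.map (A.Θ α) + n) → n * C A.hX = 0 →
    (∀ k < 5, coeff k (G - (1 - tw A.R 6) * α) = 0) ∧ coeff 5 (G - (1 - tw A.R 6) * α) = A.fS n

/-- the primitive part of a Chern character -/
def StPrim : Prop := ∀ {W : S6} (A : Amb W) (D : VB A.X),
  (∃ α, D.chc = pS A.i.map (A.Θ α) + A.primS D.chc) ∧ A.primS D.chc * C A.hX = 0 ∧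
    ∀ α, A.fS (A.primS D.chc * pS A.i.map (A.Θ α)) = 0 ∧
      A.fS (du (A.primS D.chc) * pS A.i.map (A.Θ α)) = 0

/-- the geometry of one family -/
def StGeo1 : Prop := ∀ {ι : Type} [Fintype ι] {W : S6} (A : Amb W) {p : ι → ℤ}
  {e : A.B.T → Matrix ι ι ℂ} {d : A.B.T → Matrix ι ι S6} (hE : EF A.B W p e d),
    ∃ h : PjV A p e d, GD A (A.Θ (tw A.R 3 * gO A hE - tw A.R 6 * gE A hE)) h.vb.chc

/-- the geometry of two families -/
def StGeo2 : Prop := ∀ {ι κ : Type} [Fintype ι] [Fintype κ] {W : S6} (A : Amb W) {p : ι → ℤ}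
  {e : A.B.T → Matrix ι ι ℂ} {d : A.B.T → Matrix ι ι S6} {q : κ → ℤ} {f : A.B.T → Matrix κ κ ℂ}
  {d' : A.B.T → Matrix κ κ S6} (hE : EF A.B W p e d) (hF : EF A.B W q f d')
  (h : PjV A p e d) (h' : PjV A q f d'), ∃ k : PjZ A p e d q f d',
    GD A (k.vb.chc - A.Θ (tw A.R 3 * gE A hF * du2 (gO A hE))) (du h.vb.chc * h'.vb.chc)

/-- **Riemann-Roch over a base** -/
def StRR : Prop := ∀ {ι κ : Type} [Fintype ι] [Fintype κ] {W : S6} (A : Amb W) {p : ι → ℤ}
  {e : A.B.T → Matrix ι ι ℂ} {d : A.B.T → Matrix ι ι S6} {q : κ → ℤ} {f : A.B.T → Matrix κ κ ℂ}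
  {d' : A.B.T → Matrix κ κ S6} (hE : EF A.B W p e d) (hF : EF A.B W q f d')
  (h : PjV A p e d) (h' : PjV A q f d') {c z : ℤ → A.R} {r : ℕ → ℤ → A.R} {a₀ : ℤ},
  Nd A hE hF c z r a₀ → ∀ᶠ K in Filter.atTop, rh c z K =
    A.fS (du (A.primS h.vb.chc) * A.primS h'.vb.chc) - (81 : ℂ)⁻¹ •
      (du (hE.Zc ζ⁻¹) * hF.Zc ζ + du (hE.Zc ζ) * hF.Zc ζ⁻¹)

end Vale.Agent.P287T.Rr
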