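import Vale.Agent.P287T.Rr.Hom

/-!
# The fibres of a family of matrix factorizations
-/

set_option linter.unusedSectionVars false

namespace Vale.Agent.P287T.Rr

open Set Function Module Matrix MvPolynomial P269 P269.Ch P287T.Cy P287T.Fa P287Z.O P287Z.O.L

variable {ι κ : Type} [Fintype ι] [Fintype κ]

section pf

variable {W : S6} {p : ι → ℤ} {e : Matrix ι ι ℂ} {d : Matrix ι ι S6}

theorem map_pderiv_mul {μ : Type} (a : Matrix μ κ S6) (b : Matrix κ ι S6) (k : Fin 6) :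
    (a * b).map (pderiv k) = a * b.map (pderiv k) + a.map (pderiv k) * b := by
  ext1 i j
  simp only [Matrix.map_apply, Matrix.add_apply, Matrix.mul_apply, map_sum, Derivation.leibniz,
    smul_eq_mul, Finset.sum_add_distrib, mul_comm (b _ j)]

theorem map_pderiv_cM (a : Matrix κ ι ℂ) (k : Fin 6) : (cM a).map (pderiv k) = 0 :=
  Matrix.ext fun _ _ => pderiv_C

theorem evM_smul_cM (x : Fin 6 → ℂ) (f : S6) (a : Matrix κ ι ℂ) :
    evM x (f • cM a) = eval x f • a :=
  Matrix.ext fun _ _ => (map_mul _ _ _).trans (congrArg _ (eval_C _))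

variable (h : IsPF W p e d)
include h

theorem pf_der (k : Fin 6) :
    d * d.map (pderiv k) + d.map (pderiv k) * d = pderiv k W • cM e := by
  rw [← map_pderiv_mul, h.sq]
  ext1 i j
  simp only [Matrix.map_apply, Matrix.smul_apply, cM, smul_eq_mul, Derivation.leibniz, pderiv_C,
    mul_zero, zero_add, mul_comm]

theorem pf_sq (x : Fin 6 → ℂ) : evM x d * evM x d = eval x W • e := by
  rw [← evM_mul, h.sq, evM_smul_cM]

theorem pf_eD (x : Fin 6 → ℂ) : e * evM x d = evM x d := by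
  rw [← evM_cM x e, ← evM_mul, h.ed]

theorem pf_De (x : Fin 6 → ℂ) : evM x d * e = evM x d := by
  rw [← evM_cM x e, ← evM_mul, h.de]

theorem pf_eH (x : Fin 6 → ℂ) : e * hoM W d x = hoM W d x := by
  have h1 : ∀ k, e * evM x (d.map (pderiv k)) = evM x (d.map (pderiv k)) := fun k => by
    conv_rhs => rw [← h.ed, map_pderiv_mul, map_pderiv_cM, zero_mul, add_zero, evM_mul, evM_cM]
  simp only [hoM, Matrix.mul_smul, Finset.mul_sum, h1]

theorem pf_He (x : Fin 6 → ℂ) : hoM W d x * e = hoM W d x := by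
  have h1 : ∀ k, evM x (d.map (pderiv k)) * e = evM x (d.map (pderiv k)) := fun k => by
    conv_rhs => rw [← h.de, map_pderiv_mul, map_pderiv_cM, mul_zero, zero_add, evM_mul, evM_cM]
  simp only [hoM, Matrix.smul_mul, Finset.sum_mul, h1]

theorem pf_ho (hs : Sm W) {x : Fin 6 → ℂ} (hx : x ≠ 0) :
    evM x d * hoM W d x + hoM W d x * evM x d = e := by
  have h1 : ∀ k, evM x d * evM x (d.map (pderiv k)) + evM x (d.map (pderiv k)) * evM x d =
      eval x (pderiv k W) • e := fun k => by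
    rw [← evM_mul, ← evM_mul, ← evM_smul_cM, ← pf_der h k]
    exact (Matrix.map_add _ (map_add _) _ _).symm
  rw [hoM, Matrix.mul_smul, Matrix.smul_mul, ← smul_add, Finset.mul_sum, Finset.sum_mul,
    ← Finset.sum_add_distrib]
  simp only [Matrix.mul_smul, Matrix.smul_mul, ← smul_add, h1, smul_smul]
  rw [← Finset.sum_smul, smul_smul, inv_mul_cancel₀ (nrm_ne hs hx), one_smul]

theorem pf_oD (x : Fin 6 → ℂ) (i j : ι) (u : 2 ∣ p i - p j) : evM x d i j = 0 :=
  (congrArg (MvPolynomial.eval x) (hga_odd_eq_zero (h.deg i j) (by omega))).trans (map_zero _)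

theorem pf_oH (x : Fin 6 → ℂ) (i j : ι) (u : 2 ∣ p i - p j) : hoM W d x i j = 0 := by
  simp [hoM, evM, Matrix.sum_apply, hga_odd_eq_zero (h.deg i j) (by omega)]

theorem pf_fib (hs : Sm W) {x : Fin 6 → ℂ} (hx : x ≠ 0) (hW : eval x W = 0) :
    Fib p e (evM x d) (hoM W d x) :=
  ⟨pf_oD h x, pf_oH h x, by rw [pf_sq h, hW, zero_smul], pf_eD h x, pf_ho h hs hx⟩

end pf

section cont

variable {T : Type} [TopologicalSpace T] {W : S6} {p : ι → ℤ} {e : T → Matrix ι ι ℂ}
  {d : T → Matrix ι ι S6} (h : PF (fun _ => W) p e d) {x : T → Fin 6 → ℂ} (cx : Continuous x)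
include h cx

theorem pf_contD : Continuous fun t => evM (x t) (d t) :=
  continuous_matrix fun i j => Fa.continuous_eval (fun t => (h.pf t).deg i j)
    ((continuous_hg fun t => (h.pf t).deg i j).2 (h.cd i j)) cx

theorem pf_contH (hs : Sm W) (hx : ∀ t, x t ≠ 0) : Continuous fun t => hoM W (d t) (x t) := by
  have h1 : ∀ k, Continuous fun t => eval (x t) (pderiv k W) := fun k =>
    (MvPolynomial.continuous_eval _).comp cx
  refine ((continuous_finsetSum _ fun k _ => (Complex.continuous_conj.comp (h1 k)).mul (h1 k)).inv₀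
    fun t => nrm_ne hs (hx t)).smul (continuous_finsetSum _ fun k _ =>
      (Complex.continuous_conj.comp (h1 k)).smul (continuous_matrix fun i j => ?_))
  have h2 := fun t => hg_pderiv ((h.pf t).deg i j) k
  refine Fa.continuous_eval h2 ((continuous_hg h2).2 fun m => ?_) cx
  simp only [coeff_pderiv]
  exact (h.cd i j _).mul continuous_const

end cont

section fib

variable {p : ι → ℤ} {e D H : Matrix ι ι ℂ}

theorem odd_sup (h : ∀ i j, 2 ∣ p i - p j → D i j = 0) {a b : ℤ} (hab : ¬2 ∣ a + b) {v : ι → ℂ}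
    (hv : ∀ j, ¬2 ∣ p j + a → v j = 0) (i : ι) (hi : ¬2 ∣ p i + b) : (D *ᵥ v) i = 0 :=
  odd_mulVec (p := p) (q := p) (a := a) (b := 1) (fun i j k => h i j (by omega)) hv i (by omega)

theorem Fib.DH (h : Fib p e D H) {s : ι → Prop} {v : ι → ℂ} (hv : v ∈ Vf s e D) :
    D *ᵥ (H *ᵥ v) = v := by
  have h2 := congrArg (· *ᵥ v) h.h
  simpa only [add_mulVec, ← mulVec_mulVec, hv.2.1, hv.2.2, mulVec_zero, add_zero] using h2

theorem Fib.D_mem (h : Fib p e D H) {a b : ℤ} (hab : ¬2 ∣ a + b) {v : ι → ℂ}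
    (hv : ∀ j, ¬2 ∣ p j + a → v j = 0) : D *ᵥ v ∈ Vf (fun i => 2 ∣ p i + b) e D :=
  ⟨odd_sup h.oD hab hv, by rw [mulVec_mulVec, h.eD], by rw [mulVec_mulVec, h.DD, zero_mulVec]⟩

theorem diag_sup [DecidableEq ι] {s : ι → Prop} [DecidablePred s] (v : ι → ℂ) (i : ι) (hi : ¬s i) :
    (diagonal (fun i => if s i then (1 : ℂ) else 0) *ᵥ v) i = 0 := by
  rw [mulVec_diagonal, if_neg hi, zero_mul]

theorem diag_eq [DecidableEq ι] {s : ι → Prop} [DecidablePred s] {v : ι → ℂ}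
    (hv : ∀ i, ¬s i → v i = 0) : diagonal (fun i => if s i then (1 : ℂ) else 0) *ᵥ v = v :=
  funext fun i => by
    rw [mulVec_diagonal]
    split_ifs with hi
    · exact one_mul _
    · rw [hv i hi, mul_zero]

end fib

variable {Y B : Ch.Sp} {χ : Y.G →ₜ* ℂˣ} {W : S6} {p : ι → ℤ}

theorem pj_Vf {w w' : ι → ℤ} {e D H : Y.T → Matrix ι ι ℂ} (h : ∀ t, Fib p (e t) (D t) (H t))
    (cD : Continuous D) (cH : Continuous H) (a : ℤ) (he : Eqm χ (fun i => 2 ∣ p i + a) w w e)
    (hD : Eqm χ (fun i => 2 ∣ p i + a) w w' D) (cn : PreconnectedSpace Y.T) :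
    Pj (am χ w) fun t => Vf (fun i => 2 ∣ p i + a) (e t) (D t) := by
  classical
  let σ : Matrix ι ι ℂ := diagonal fun i => if 2 ∣ p i + a then 1 else 0
  refine ⟨⟨fun t => (D t * (H t * σ)).mulVecLin, fun v => (cD.matrix_mul
    (cH.matrix_mul continuous_const)).matrix_mulVec continuous_const, fun t (v : ι → ℂ) => ?_,
    fun t (v : ι → ℂ) hv => ?_⟩, fun g t v hv => ?_, cn⟩
  · show (D t * (H t * σ)) *ᵥ v ∈ Vf _ _ _
    rw [← mulVec_mulVec, ← mulVec_mulVec]
    exact (h t).D_mem (a := a + 1) (by omega) (odd_sup (h t).oH (by omega) (diag_sup v))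
  · show (D t * (H t * σ)) *ᵥ v = v
    rw [← mulVec_mulVec, ← mulVec_mulVec, diag_eq hv.1, (h t).DH hv]
  · rw [am_smul]
    refine ⟨fun i hi => mul_eq_zero_of_right _ (hv.1 i hi), ?_, ?_⟩
    · rw [he.mulVec g t hv.1, hv.2.1]
    · rw [hD.mulVec g t hv.1, hv.2.2]
      exact funext fun _ => mul_zero _

variable {e : B.T → Matrix ι ι ℂ} {d : B.T → Matrix ι ι S6} (h : EF B W p e d) (m : Mor Y B)
include h

theorem EF.eqm_e (s : ι → Prop) (w : ℤ → ℤ) :
    Eqm χ s (fun i => w (p i)) (fun i => w (p i)) fun t => e (m.f t) := fun g t i j _ => by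
  beta_reduce
  rw [m.eqv, h.ie]
  by_cases u : p i = p j
  · simp only [u, mul_comm]
  · rw [(h.pf.pf _).blk i j u, zero_mul, mul_zero]

theorem EF.eqm_d {x : Y.T → Fin 6 → ℂ} (hx : ∀ (g : Y.G) t, x (g • t) = (χ g : ℂ) • x t)
    {s : ι → Prop} {w w' : ι → ℤ}
    (hw : ∀ i j, s j → ¬2 ∣ p i - p j → 3 + p j - p i + 2 * w j = 2 * w' i) :
    Eqm χ s w w' fun t => evM (x t) (d (m.f t)) := fun g t i j hj => by
  beta_reduce
  rw [m.eqv, h.id, hx]
  exact hg_eval ((h.pf.pf _).deg i j) (χ g).ne_zero _ fun k => hw i j hj (by omega)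

theorem EF.contD {x : Y.T → Fin 6 → ℂ} (cx : Continuous x) :
    Continuous fun t => evM (x t) (d (m.f t)) := pf_contD (h.pf.comp m.cf) cx

theorem EF.contH {x : Y.T → Fin 6 → ℂ} (cx : Continuous x) (hs : Sm W) (hx : ∀ t, x t ≠ 0) :
    Continuous fun t => hoM W (d (m.f t)) (x t) := pf_contH (h.pf.comp m.cf) cx hs hx

omit h in
theorem Amb.eqxX (A : Amb W) (g : A.X.G) (t : A.X.T) :
    A.x (A.i.f (g • t)) = (A.i.chr A.χ g : ℂ) • A.x (A.i.f t) := by
  rw [A.i.eqv, A.eqx, Mor.chr_apply]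

omit h in
/-- the family `V_E` -/
theorem EF.pjV (A : Amb W) {e : A.B.T → Matrix ι ι ℂ} {d : A.B.T → Matrix ι ι S6}
    (h : EF A.B W p e d) : PjV A p e d :=
  pj_Vf (w' := fun i => wt (p i) + 3)
    (fun t => pf_fib (h.pf.pf _) A.sm (A.nx _) (A.onX t))
    (h.contD (A.π.comp A.i) (A.cx.comp A.i.cf))
    (h.contH (A.π.comp A.i) (A.cx.comp A.i.cf) A.sm fun _ => A.nx _) 0
    (h.eqm_e (A.π.comp A.i) _ wt) (h.eqm_d (A.π.comp A.i) A.eqxX fun i j hj u => by
      have := wt_even (a := p j) (by omega)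
      have := wt_odd (a := p i) (by omega)
      omega) A.cX

end Vale.Agent.P287T.Rr
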