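import Vale.Agent.P287T.Rr.St
import Vale.Agent.P287T.Cy.Main

/-!
# The complex of maps between two members of families
-/

set_option linter.unusedSectionVars false

namespace Vale.Agent.P287T.Rr

open Module Matrix MvPolynomial P287T.Cy P287T.Fa P287Z.O P287Z.O.L

variable {ι κ : Type} [Fintype ι] [Fintype κ] {W : S6} {p : ι → ℤ} {e : Matrix ι ι ℂ}
  {d : Matrix ι ι S6} {q : κ → ℤ} {f : Matrix κ κ ℂ} {d' : Matrix κ κ S6} {a : ℤ}

/-- the differential `g ↦ d' g - (-1) ^ k g d` -/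
noncomputable def dl (d : Matrix ι ι S6) (d' : Matrix κ κ S6) (k : ℕ) :
    Matrix κ ι S6 →ₗ[S6] Matrix κ ι S6 where
  toFun g := d' * g - (-1 : ℂ) ^ k • (g * d)
  map_add' _ _ := by rw [Matrix.mul_add, Matrix.add_mul, smul_add]; abel
  map_smul' c _ := by
    rw [Matrix.mul_smul, Matrix.smul_mul, smul_sub, smul_comm]; rfl

theorem dl_apply (k : ℕ) (g : Matrix κ ι S6) :
    dl d d' k g = d' * g - (-1 : ℂ) ^ k • (g * d) := rfl

theorem dl_zero (g : Matrix κ ι S6) : dl d d' 0 g = d' * g - g * d := by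
  rw [dl_apply, pow_zero, one_smul]

theorem dl_one (g : Matrix κ ι S6) : dl d d' 1 g = d' * g + g * d := by
  rw [dl_apply, pow_one, neg_one_smul, sub_neg_eq_add]

theorem dl_two (k : ℕ) : dl d d' (k + 2) = dl d d' k := LinearMap.ext fun g => by
  rw [dl_apply, dl_apply, pow_add, neg_one_sq, mul_one]

theorem Zy_eq : Zy (MP p e q f) (dl d d' 0) a = ZP p e d q f d' a := Submodule.ext fun g =>
  ⟨fun h => ⟨h.1, h.1.1, sub_eq_zero.1 ((dl_zero g).symm.trans h.2)⟩,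
    fun h => ⟨h.1, (dl_zero g).trans (sub_eq_zero.2 h.2.2)⟩⟩

/-- the value at `x` as a linear map -/
noncomputable def evL (x : Fin 6 → ℂ) : Matrix κ ι S6 →ₗ[ℂ] Matrix κ ι ℂ := (ev1 x).mapMatrix

theorem evL_apply (x : Fin 6 → ℂ) (g : Matrix κ ι S6) : evL x g = evM x g := rfl

theorem isEv_evL (x : Fin 6 → ℂ) : IsEv (evL (κ := κ) (ι := ι) x) x := fun i m =>
  Matrix.ext fun k l => isEv_ev1 x i (m k l)

theorem evM_cM (x : Fin 6 → ℂ) (u : Matrix κ ι ℂ) : evM x (cM u) = u :=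
  Matrix.ext fun _ _ => eval_C _

theorem evM_dl (x : Fin 6 → ℂ) (g : Matrix κ ι S6) :
    evL x (dl d d' 0 g) = evM x d' * evM x g - evM x g * evM x d := by
  rw [dl_zero, map_sub, evL_apply, evL_apply, evM_mul, evM_mul]

/-- a bound for the differences of the charges -/
def bd (p : ι → ℤ) (q : κ → ℤ) : ℤ := ∑ x : ι × κ, |p x.1 - q x.2|

theorem le_bd (l : ι) (i : κ) : |p l - q i| ≤ bd p q :=
  Finset.single_le_sum (f := fun x : ι × κ => |p x.1 - q x.2|) (fun _ _ => abs_nonneg _)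
    (Finset.mem_univ (l, i))

theorem spl_range {μ : Type} [Fintype μ] [DecidableEq μ] {r : μ → ℤ} {u : Matrix μ ι ℂ}
    {v : Matrix ι μ ℂ} (h : Spl p e r u v) (k : μ) : ∃ i, r k = p i := by
  by_contra h1
  have := congrFun (congrFun h.one k) k
  rw [Matrix.mul_apply, one_apply_eq, Finset.sum_eq_zero fun i _ =>
    mul_eq_zero_of_left (h.ba k i fun u => h1 ⟨i, u⟩) _] at this
  exact zero_ne_one this

theorem MP_eq_zero (h : a < -bd p q) {g : Matrix κ ι S6} (hg : g ∈ MP p e q f a) : g = 0 :=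
  Matrix.ext fun i l => hga_neg_eq_zero (hg.1 i l) (by
    have := abs_le.1 (le_bd (p := p) (q := q) l i)
    omega)

variable (hd : IsPF W p e d) (hd' : IsPF W q f d')

include hd hd' in
theorem sand_mem {g : Matrix κ ι S6} (hg : g ∈ MM p q a) : cM f * g * cM e ∈ MP p e q f a :=
  ⟨MM_mul (MM_mul hd'.blk.mm hg (add_zero _)) hd.blk.mm (zero_add _), by
    rw [← Matrix.mul_assoc, ← Matrix.mul_assoc, ← cM_mul, hd'.ee, Matrix.mul_assoc _ (cM e),
      ← cM_mul, hd.ee]⟩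

include hd hd' in
theorem dl_sand (k : ℕ) (g : Matrix κ ι S6) :
    dl d d' k (cM f * g * cM e) = cM f * dl d d' k g * cM e := by
  rw [dl_apply, dl_apply, Matrix.mul_sub, Matrix.sub_mul, Matrix.mul_smul, Matrix.smul_mul,
    ← Matrix.mul_assoc d', ← Matrix.mul_assoc d', hd'.de, ← Matrix.mul_assoc (cM f) d', hd'.ed,
    Matrix.mul_assoc _ (cM e), hd.ed, ← Matrix.mul_assoc (cM f) g, Matrix.mul_assoc _ d, hd.de]

include hd hd' in
theorem dl_mem (k : ℕ) {g : Matrix κ ι S6} (hg : g ∈ MP p e q f a) :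
    dl d d' k g ∈ MP p e q f (a + 3) :=
  ⟨sub_mem (MM_mul hd'.deg hg.1 rfl) (Submodule.smul_mem _ _ (MM_mul hg.1 hd.deg (add_comm _ _))),
    by rw [← dl_sand hd hd', hg.2]⟩

theorem MP.l (hf : f * f = f) {g : Matrix κ ι S6} (hg : g ∈ MP p e q f a) : cM f * g = g := by
  rw [← hg.2, ← Matrix.mul_assoc, ← Matrix.mul_assoc, ← cM_mul, hf]

theorem MP.r (he : e * e = e) {g : Matrix κ ι S6} (hg : g ∈ MP p e q f a) : g * cM e = g := by
  rw [← hg.2, Matrix.mul_assoc _ (cM e), ← cM_mul, he]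

include hd hd' in
theorem dl_dl (k : ℕ) {g : Matrix κ ι S6} (hg : g ∈ MP p e q f a) :
    dl d d' (k + 1) (dl d d' k g) = 0 := by
  have h1 : (-1 : ℂ) ^ k * (-1) ^ k = 1 := by rw [← mul_pow, neg_mul_neg, one_mul, one_pow]
  rw [dl_apply, dl_apply, Matrix.mul_sub, Matrix.sub_mul, Matrix.mul_smul, Matrix.smul_mul,
    ← Matrix.mul_assoc, hd'.sq, Matrix.mul_assoc g, hd.sq, Matrix.smul_mul, Matrix.mul_smul,
    MP.l hd'.ee hg, MP.r hd.ee hg, pow_succ, mul_neg_one, neg_smul, smul_sub, smul_smul, h1,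
    one_smul, ← Matrix.mul_assoc]
  abel

section eps

variable [DecidableEq ι]

include hd in
theorem dl_eps (k : ℕ) (g : Matrix κ ι S6) :
    dl d d' k (g * eps p) = dl d d' (k + 1) g * eps p := by
  rw [dl_apply, dl_apply, Matrix.sub_mul, Matrix.smul_mul, Matrix.mul_assoc g d, d_mul_eps hd.deg,
    pow_succ, mul_neg_one, neg_smul, Matrix.mul_neg, smul_neg, neg_neg, Matrix.mul_assoc,
    Matrix.mul_assoc]

include hd in
theorem eps_MP {g : Matrix κ ι S6} (hg : g ∈ MP p e q f a) : g * eps p ∈ MP p e q f a :=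
  ⟨MM_mul hg.1 (eps_mem p) (zero_add _), by
    have := mul_eps hd.blk.mm
    rw [sg, zpow_zero, one_smul] at this
    rw [← Matrix.mul_assoc, Matrix.mul_assoc _ (eps p), ← this, ← Matrix.mul_assoc, hg.2]⟩

theorem eps_eps (g : Matrix κ ι S6) : g * eps p * eps p = g := by
  rw [Matrix.mul_assoc, eps_mul_eps, Matrix.mul_one]

include hd in
/-- the parity operator exchanges the two kinds of cycles -/
theorem eps_Zy (k : ℕ) {g : Matrix κ ι S6} : g * eps p ∈ Zy (MP p e q f) (dl d d' k) a ↔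
    g ∈ Zy (MP p e q f) (dl d d' (k + 1)) a :=
  ⟨fun h => ⟨eps_eps (p := p) g ▸ eps_MP hd h.1, by
    have h1 : dl d d' (k + 1) g * eps p = 0 := (dl_eps hd k g).symm.trans h.2
    exact (eps_eps (p := p) _).symm.trans ((congrArg (· * eps p) h1).trans (Matrix.zero_mul _))⟩,
  fun h => ⟨eps_MP hd h.1, (dl_eps hd k g).trans
    ((congrArg (· * eps p) h.2).trans (Matrix.zero_mul _))⟩⟩

end eps

include hd hd' in
theorem ZP_le_BP (hW : V.Hg 6 W) (hs : Sm W) (ha : bd p q + 6 < a) :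
    ZP p e d q f d' a ≤ BP p e d q f d' a := by
  obtain ⟨n, r, u, v, h⟩ := exists_spl hd.blk hd.ee
  obtain ⟨n', r', u', v', h'⟩ := exists_spl hd'.blk hd'.ee
  obtain ⟨J⟩ := nonempty_jd hW hs
  refine (h.le_iff h' hd hd').2 fun g hg => J.nondeg (h.isMF hd) (h'.isMF hd')
    (add_sub_cancel _ _) hg fun g' hg' => ?_
  rw [ZZ_eq_zero (fun i l => ?_) hg', Matrix.zero_mul, map_zero]
  obtain ⟨i', e1⟩ := spl_range h i
  obtain ⟨l', e2⟩ := spl_range h' l
  have := abs_le.1 (le_bd (p := p) (q := q) i' l')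
  omega

include hd hd' in
theorem ex_one {g : Matrix κ ι S6} (hg : g ∈ BP p e d q f d' (a + 3)) :
    ∃ g' ∈ MP p e q f a, dl d d' 1 g' = g := by
  obtain ⟨h1, k, h2, h3⟩ := hg
  rw [add_sub_cancel_right] at h2
  exact ⟨_, sand_mem hd hd' h2, by rw [dl_sand hd hd', dl_one, ← h3, h1.2]⟩

/-- an entry -/
noncomputable def enL (x : κ × ι) : Matrix κ ι S6 →ₗ[S6] S6 := Matrix.entryLinearMap S6 S6 x.1 x.2

open Classical in
/-- a matrix with one entry, cut down by the idempotents -/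
noncomputable def sgL (e : Matrix ι ι ℂ) (f : Matrix κ κ ℂ) (x : κ × ι) :
    S6 →ₗ[S6] Matrix κ ι S6 where
  toFun r := cM f * Matrix.single x.1 x.2 r * cM e
  map_add' _ _ := by rw [Matrix.single_add, Matrix.mul_add, Matrix.add_mul]
  map_smul' _ _ := by
    rw [← Matrix.smul_single, Matrix.mul_smul, Matrix.smul_mul]; rfl

include hd hd' in
theorem sgL_mem (x : κ × ι) (r : S6) (hr : r ∈ HS (a + p x.2 - q x.1)) :
    sgL e f x r ∈ MP p e q f a := by
  classical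
  refine sand_mem hd hd' fun i l => ?_
  rw [Matrix.single_apply]
  split_ifs with h
  · rw [← h.1, ← h.2]; exact hr
  · exact hga_zero _

theorem sum_sgL (g : Matrix κ ι S6) (hg : g ∈ MP p e q f a) : ∑ x, sgL e f x (enL x g) = g := by
  classical
  refine Eq.trans ?_ hg.2
  conv_rhs => rw [Matrix.matrix_eq_sum_single g, ← Fintype.sum_prod_type', Matrix.mul_sum,
    Matrix.sum_mul]
  exact Finset.sum_congr rfl fun x _ => by congr!

include hd hd' in
theorem ae_MP {x : Fin 6 → ℂ} (hx : x ≠ 0) (a : ℤ) (j : ℕ) : AE (MP p e q f a) (evL x) x j :=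
  AE.sum enL (sgL e f) (P' := fun x => HS (a + p x.2 - q x.1)) (ev' := ev1 x)
    (fun y _ h => h.1 y.1 y.2) (sgL_mem hd hd') sum_sgL
    (fun y _ h => congrFun (congrFun h y.1) y.2) fun _ => ae_HS hx _ _

include hd hd' in
/-- **The complex of maps is exact in large degrees**, with a bound depending on the charges only. -/
theorem pc (hW : V.Hg 6 W) (hs : Sm W) : PC (MP p e q f) (dl d d') (bd p q + 4) := by
  classical
  have h1 : ∀ a, bd p q + 4 ≤ a → ∀ m ∈ MP p e q f (a + 3), dl d d' 0 m = 0 →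
      ∃ m' ∈ MP p e q f a, dl d d' 1 m' = m := fun a ha m hm h =>
    ex_one hd hd' (ZP_le_BP hd hd' hW hs (by omega) (Zy_eq.le ⟨hm, h⟩))
  refine ⟨fun a i m hm => ⟨fun k l => hga_mul' (hga_X i) (hm.1 k l) (by ring), ?_⟩,
    fun k a m => dl_mem hd hd' k, fun k a m => dl_dl hd hd' k, fun k a ha => ?_, fun a j ha => ?_⟩
  · rw [Matrix.mul_smul, Matrix.smul_mul, hm.2]
  · induction k using Nat.twoStepInduction with
    | zero =>
      intro m hm h
      obtain ⟨m', h2, h3⟩ := h1 a ha _ (eps_MP hd hm) ((eps_Zy hd 0).2 ⟨hm, h⟩).2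
      exact ⟨_, eps_MP hd h2, by rw [dl_eps hd, h3, eps_eps]⟩
    | one => rw [show 1 + 1 = 0 + 2 from rfl, dl_two]; exact h1 a ha
    | more k ih _ => rw [show k + 2 + 1 = k + 1 + 2 from rfl, dl_two, dl_two]; exact ih
  · refine KE.sum enL (sgL e f) (P' := fun x => HS (a + p x.2 - q x.1))
      (Q' := fun x => HS (a + p x.2 - q x.1 + 2)) (fun y m h => ?_) (sgL_mem hd hd') sum_sgL
      fun y => ke_HS ?_
    · rw [show a + p y.2 - q y.1 + 2 = a + 2 + p y.2 - q y.1 by ring]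
      exact h.1 y.1 y.2
    · have := abs_le.1 (le_bd (p := p) (q := q) y.2 y.1)
      omega

theorem ev_M0 (x : Fin 6 → ℂ) {b : ℤ} (hb : 2 ∣ a - b) {g : Matrix κ ι S6}
    (hg : g ∈ MP p e q f a) : evM x g ∈ M0 p e q f b :=
  ⟨fun i l h => (congrArg (eval x) (hga_odd_eq_zero (hg.1 i l) (by omega))).trans (map_zero _), by
    conv_rhs => rw [← hg.2, evM_mul, evM_mul, evM_cM, evM_cM]⟩

theorem ev_Z0 (x : Fin 6 → ℂ) {b : ℤ} (hb : 2 ∣ a - b) {g : Matrix κ ι S6}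
    (hg : g ∈ ZP p e d q f d' a) : evM x g ∈ Z0 p e (evM x d) q f (evM x d') b :=
  ⟨ev_M0 x hb hg.1, by rw [← evM_mul, ← evM_mul, hg.2.2]⟩

include hd hd' in
theorem ev_surj_MP {x : Fin 6 → ℂ} (hx : x ≠ 0) (ha : bd p q ≤ a) {b : ℤ} (hb : 2 ∣ a - b)
    {u : Matrix κ ι ℂ} (hu : u ∈ M0 p e q f b) : ∃ g ∈ MP p e q f a, evM x g = u := by
  have h1 : ∀ i l, ∃ r ∈ HS (a + p l - q i), eval x r = u i l := fun i l => by
    by_cases h : 2 ∣ a + p l - q i
    · have := abs_le.1 (le_bd (p := p) (q := q) l i)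
      obtain ⟨r, h2, h3⟩ := ev1_surj hx (by omega) h
      exact ⟨_, Submodule.smul_mem _ (u i l) h2, by rw [smul_eval, h3, mul_one]⟩
    · exact ⟨0, zero_mem _, (map_zero _).trans (hu.1 i l (by omega)).symm⟩
  choose r h2 h3 using h1
  refine ⟨_, sand_mem hd hd' (g := Matrix.of r) h2, ?_⟩
  rw [evM_mul, evM_mul, evM_cM, evM_cM, show evM x (Matrix.of r) = u from Matrix.ext h3, hu.2]

include hd hd' in
/-- **The closed maps generate the closed maps of the fibres.** -/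
theorem ev_surj (hW : V.Hg 6 W) (hs : Sm W) {x : Fin 6 → ℂ} (hx : x ≠ 0) (ha : bd p q + 16 ≤ a)
    {b : ℤ} (hb : 2 ∣ a - b) {u : Matrix κ ι ℂ} (hu : u ∈ Z0 p e (evM x d) q f (evM x d') b) :
    ∃ g ∈ ZP p e d q f d' a, evM x g = u := by
  obtain ⟨c, h1, rfl⟩ := ev_surj_MP hd hd' hx (by omega) hb hu.1
  rw [← Zy_eq]
  exact (pc hd hd' hW hs).surj (isEv_evL x) (fun a j _ => ae_MP hd hd' hx a j) 0 (by omega) h1
    ((evM_dl x c).trans (sub_eq_zero.2 hu.2))

include hd hd' in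
/-- the Koszul complex of the closed maps is exact -/
theorem ke_ZP (hW : V.Hg 6 W) (hs : Sm W) (ha : bd p q + 16 ≤ a) (j : ℕ) :
    KE (ZP p e d q f d' a) (ZP p e d q f d' (a + 2)) j := by
  rw [← Zy_eq, ← Zy_eq]
  exact (pc hd hd' hW hs).keZ 0 (by omega) j

include hd hd' in
/-- the linear resolution of the closed maps is exact at `x` -/
theorem ae_ZP (hW : V.Hg 6 W) (hs : Sm W) {x : Fin 6 → ℂ} (hx : x ≠ 0) (ha : bd p q + 16 ≤ a)
    (j : ℕ) : AE (ZP p e d q f d' a) (evL x) x j := by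
  rw [← Zy_eq]
  exact (pc hd hd' hW hs).aeZ (fun a j _ => ae_MP hd hd' hx a j) 0 (by omega) j

theorem mu_ZP (a : ℤ) : Mu (ZP p e d q f d' a) (ZP p e d q f d' (a + 2)) := fun i m hm =>
  have h : (X i : S6) • m ∈ MM p q (a + 2) := fun k l =>
    hga_mul' (hga_X i) (hm.1.1 k l) (by ring)
  ⟨⟨h, by rw [Matrix.mul_smul, Matrix.smul_mul, hm.1.2]⟩, h,
    by rw [Matrix.mul_smul, Matrix.smul_mul, hm.2.2]⟩

section seq

variable [DecidableEq ι]

include hd hd' in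
theorem seq_mem {g : Matrix κ ι S6} (hg : g ∈ MP p e q f a) :
    dl d d' 0 g * eps p ∈ ZP p e d q f d' (a + 3) :=
  Zy_eq.le ((eps_Zy hd 0).2 ⟨dl_mem hd hd' 0 hg, dl_dl hd hd' 0 hg⟩)

theorem seq_ker {g : Matrix κ ι S6} (hg : g ∈ MP p e q f a) :
    dl d d' 0 g * eps p = 0 ↔ g ∈ ZP p e d q f d' a :=
  ⟨fun h => Zy_eq.le ⟨hg, (eps_eps (p := p) _).symm.trans
    ((congrArg (· * eps p) h).trans (Matrix.zero_mul _))⟩,
  fun h => (congrArg (· * eps p) (Zy_eq.ge h).2).trans (Matrix.zero_mul _)⟩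

include hd hd' in
/-- the sequence `0 → Z a → C a → Z (a + 3) → 0` is exact in large degrees -/
theorem seq_surj (hW : V.Hg 6 W) (hs : Sm W) (ha : bd p q + 4 ≤ a) {g : Matrix κ ι S6}
    (hg : g ∈ ZP p e d q f d' (a + 3)) : ∃ g' ∈ MP p e q f a, dl d d' 0 g' * eps p = g := by
  have h1 := (eps_Zy hd 0).1 ((eps_eps (p := p) g).symm ▸ Zy_eq.ge hg)
  obtain ⟨g', h2, h3⟩ := (pc hd hd' hW hs).ex 0 a ha _ h1.1 h1.2
  exact ⟨g', h2, by rw [h3, eps_eps]⟩

include hd hd' in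
/-- the image is the space of null-homotopic maps -/
theorem seq_range {g : Matrix κ ι S6} : g ∈ BP p e d q f d' (a + 3) ↔
    ∃ g' ∈ MP p e q f a, dl d d' 0 g' * eps p = g := by
  refine ⟨fun h => ?_, ?_⟩
  · obtain ⟨g', h2, h3⟩ := ex_one hd hd' h
    exact ⟨_, eps_MP hd h2, by rw [dl_eps hd, h3, eps_eps]⟩
  · rintro ⟨g', h, rfl⟩
    refine ⟨(seq_mem hd hd' h).1, g' * eps p, ?_, ?_⟩
    · rw [add_sub_cancel_right]; exact (eps_MP hd h).1
    · rw [← dl_one, dl_eps hd, show 1 + 1 = 0 + 2 from rfl, dl_two]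

end seq

end Vale.Agent.P287T.Rr
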