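import Vale.Agent.P287T.Rr.Glue

/-!
# The charge class at a point
-/

set_option linter.unusedSectionVars false

namespace Vale.Agent.P287T.Rr

open Module Finset Matrix PowerSeries P291Z P269 P269.Ch P269.Grr P287T.Cy P287T.Fa

variable {ι : Type} [Fintype ι] {W : S6} {p : ι → ℤ}

theorem finrank_Vf {e : Matrix ι ι ℂ} (hb : Blk p p e) (he : e * e = e) (n : ℤ) :
    (finrank ℂ (Vf (fun i => p i = n) e 0) : ℂ) = ∑ i, if p i = n then e i i else 0 := by
  classical
  let σ : Matrix ι ι ℂ := diagonal fun i => if p i = n then 1 else 0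
  rw [← LinearMap.IsProj.trace (p := Vf (fun i => p i = n) e 0) (f := (e * σ).toLin') 
    ⟨fun v => ⟨fun i hi => ?_, ?_, zero_mulVec _⟩, fun v hv => ?_⟩, Matrix.trace_toLin'_eq]
  · exact sum_congr rfl fun i _ => (mul_diagonal _ _ i i).trans (by rw [mul_ite, mul_one, mul_zero])
  · refine sum_eq_zero fun j _ => mul_eq_zero_of_left ((mul_diagonal _ _ i j).trans ?_) _
    split_ifs with hj
    · exact mul_eq_zero_of_left (hb i j fun k => hi (k.trans hj)) _
    · exact mul_zero _
  · rw [toLin'_apply, mulVec_mulVec, ← mul_assoc, he]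
  · have h1 : σ *ᵥ v = v := funext fun i => by
      rw [mulVec_diagonal]
      split_ifs with hi
      · exact one_mul _
      · exact (zero_mul _).trans (hv.1 i hi).symm
    rw [toLin'_apply, ← mulVec_mulVec, h1, hv.2.1]

/-- the constant term of the charge class -/
theorem cc_Zc {B : Ch.Sp} {e : B.T → Matrix ι ι ℂ} {d : B.T → Matrix ι ι S6} (h : EF B W p e d)
    (t : B.T) (y : ℂ) : constantCoeff (h.Zc y) = algebraMap ℂ _ (∑ i, e t i i * y ^ p i) := by
  have h1 : ∀ n, constantCoeff (h.Vn n).chc =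
      algebraMap ℂ _ (∑ i, if p i = n then e t i i else 0) := fun n => by
    rw [← coeff_zero_eq_constantCoeff_apply, VB.chc, coeff_zero_chP, ← (h.Vn n).rank t,
      ← finrank_Vf (h.pf.pf t).blk (h.pf.pf t).ee, map_natCast]
    rfl
  simp only [EF.Zc, EF.gen, map_sum constantCoeff, map_mul, h1, PowerSeries.algebraMap_apply,
    constantCoeff_C]
  simp only [← map_mul, ← map_sum (algebraMap ℂ _), sum_mul]
  rw [sum_comm]
  refine congrArg _ (sum_congr rfl fun i _ => ?_)
  rw [sum_eq_single_of_mem (p i) (mem_image_of_mem _ (mem_univ i)) fun n _ hn => by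
    rw [if_neg hn.symm, zero_mul], if_pos rfl]

theorem cc_du {R : Type} [CommRing R] (G : R⟦X⟧) : constantCoeff (du G) = constantCoeff G := by
  rw [← coeff_zero_eq_constantCoeff_apply, coeff_du, pow_zero, one_mul,
    coeff_zero_eq_constantCoeff_apply]

theorem zeta_inv : ζ⁻¹ = starRingEnd ℂ ζ := by
  rw [rt_inv zeta_root]
  refine Complex.ext ?_ ?_ <;> norm_num [ζ]

theorem zE_conj (p : ι → ℤ) : starRingEnd ℂ (zE p) = ∑ i, ζ⁻¹ ^ p i := by
  simp only [zE, map_sum, map_zpow₀, zeta_inv]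

theorem alg_inj (X : Type) [TopologicalSpace X] [Nonempty X] :
    Function.Injective (algebraMap ℂ (Hev X)) :=
  have : Nontrivial (Hev X) := ⟨1, 0, fun h => hcls_one_ne_zero (congrArg Subtype.val h)⟩
  (algebraMap ℂ (Hev X)).injective

/-- the comparison with the class `n_E` for constant families -/
def StPt : Prop := ∀ {W : S6} (c : Cu W), ∃ (A : Amb W) (_ : ConnectedSpace A.B.T),
  ∀ {ι κ : Type} [Fintype ι] [Fintype κ] [DecidableEq ι] [DecidableEq κ] {p : ι → ℤ}
    {d : Matrix ι ι S6} {q : κ → ℤ} {e : Matrix κ κ S6} (hd : IsMF W p d) (he : IsMF W q e)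
    (h : PjV A p (fun _ => 1) fun _ => d) (h' : PjV A q (fun _ => 1) fun _ => e),
    coeff 0 (A.fS (du (A.primS h.vb.chc) * A.primS h'.vb.chc)) =
      algebraMap ℂ _ (c.J (c.nE hd * c.nE he).1)

end Vale.Agent.P287T.Rr
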