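import Vale.Agent.P269.Grr.Alg
import Vale.Agent.P269.Coh.PA0

/-!
# Products of presented spaces, the Kuenneth map and integration along the second factor
-/

set_option linter.unusedSectionVars false
set_option linter.style.haveILetI false

namespace Vale.Agent.P287T.Dn

open Set Function Topology Filter Module TensorProduct P291Z P269 P269.Ch P269.Coh

section kun

variable (T T' F F' : Type) [TopologicalSpace T] [TopologicalSpace T'] [TopologicalSpace F]
  [TopologicalSpace F']

/-- the Kuenneth map -/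
noncomputable def kmap : H T ⊗[ℂ] H F →ₗ[ℂ] H (T × F) :=
  TensorProduct.lift ((LinearMap.mul ℂ (H (T × F))).compl₁₂ (pl .fst) (pl .snd))

theorem kmap_tmul (a : H T) (b : H F) :
    kmap T F (a ⊗ₜ b) = H.map .fst a * H.map .snd b := TensorProduct.lift.tmul _ _

/-- the Kuenneth formula holds -/
abbrev Kun : Prop := Bijective (kmap T F)

theorem kun [Nice T] [Nice F] [CompactSpace F] [FiniteDimensional ℂ (H F)] : Kun T F := by
  classical
  obtain ⟨ι, b, t, d, ht⟩ := Hc.exists_basis F
  let b' := b.map (LinearEquiv.ofBijective Fl.toH Fl.toH_bijective)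
  haveI := Module.Finite.finite_basis b'
  have e : ∀ j, b' j = hcls (t j) := fun j => by
    rw [Module.Basis.map_apply, ← (ht j).2.2.2]
    exact Fl.toH_cls (ht j).1
  have h := Fl.lh_bijective (p := (ContinuousMap.fst : C(T × F, T)))
    (i := fun x => ContinuousMap.prodMk (.const _ x) (.id _)) isPr_fst (fun x => isFib_fst x)
    (T := fun j => H.map ContinuousMap.snd (b' j)) (d := d)
    (fun j => (e j ▸ hcls_isDeg (ht j).2.1 : H.IsDeg (d j) (b' j)).map _) (fun j => (ht j).2.2.1)
    fun x => (congrArg Fl.IsBasis (funext fun k => ((H.map_map _ _ _).trans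
        (H.map_id (fun _ => rfl) _)).symm)).mp (Fl.isBasis_basis b')
  have e' : H.lh (ContinuousMap.fst : C(T × F, T)) (fun j => H.map ContinuousMap.snd (b' j)) =
      kmap T F ∘ₗ (TensorProduct.equivFinsuppOfBasisRight b').symm.toLinearMap := by
    rw [TensorProduct.equivFinsuppOfBasisRight_symm]
    refine Finsupp.lhom_ext fun j c => ?_
    rw [H.lh_single, LinearMap.comp_apply, Finsupp.lsum_single, LinearMap.flip_apply,
      TensorProduct.mk_apply, kmap_tmul]
  rw [e', LinearMap.coe_comp] at h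
  exact (Bijective.of_comp_iff _ (TensorProduct.equivFinsuppOfBasisRight b').symm.bijective).1 h

variable {T' F F'}

open Classical in
/-- **integration along the second factor** -/
noncomputable def fib (J : H F →ₗ[ℂ] ℂ) : H (T × F) →ₗ[ℂ] H T :=
  if h : Kun T F then (TensorProduct.rid ℂ (H T)).toLinearMap ∘ₗ J.lTensor (H T) ∘ₗ
    (LinearEquiv.ofBijective _ h).symm.toLinearMap else 0

/-- the product with the identity -/
abbrev xm (g : C(F', F)) : C(T × F', T × F) := (ContinuousMap.id T).prodMap g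

variable {T} {J : H F →ₗ[ℂ] ℂ} {J' : H F' →ₗ[ℂ] ℂ}

theorem Kun.fib_mul (K : Kun T F) (a : H T) (b : H F) :
    fib T J (H.map .fst a * H.map .snd b) = J b • a := by
  rw [fib, dif_pos K, ← kmap_tmul, LinearMap.comp_apply, LinearMap.comp_apply,
    LinearEquiv.coe_coe, LinearEquiv.coe_coe, LinearEquiv.ofBijective_symm_apply_apply,
    LinearMap.lTensor_tmul, TensorProduct.rid_tmul]

theorem Kun.ext (K : Kun T F) {V : Type*} [AddCommGroup V] {f g : H (T × F) →+ V}
    (h : ∀ a b, f (H.map .fst a * H.map .snd b) = g (H.map .fst a * H.map .snd b)) (y : H (T × F)) :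
    f y = g y := by
  obtain ⟨y, rfl⟩ := K.2 y
  induction y with
  | zero => rw [map_zero, map_zero, map_zero]
  | add a b ha hb => rw [map_add, map_add, map_add, ha, hb]
  | tmul a b => rw [kmap_tmul, h]

theorem Kun.fib_fst (K : Kun T F) (a : H T) (y : H (T × F)) :
    fib T J (H.map .fst a * y) = a * fib T J y :=
  K.ext (f := (fib T J).toAddMonoidHom.comp (AddMonoidHom.mulLeft _))
    (g := (AddMonoidHom.mulLeft a).comp (fib T J).toAddMonoidHom) (fun u v => by
      show fib T J (_ * (_ * _)) = a * fib T J _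
      rw [← mul_assoc, ← map_mul, K.fib_mul, K.fib_mul, mul_smul_comm]) y

theorem Kun.fib_snd (K : Kun T F) (b : H F) : fib T J (H.map .snd b) = algebraMap ℂ _ (J b) := by
  rw [← one_mul (H.map _ b), ← map_one (H.map (.fst : C(T × F, T))), K.fib_mul,
    Algebra.algebraMap_eq_smul_one]

theorem map_pm (f : C(T', T)) (g : C(F', F)) (a : H T) (b : H F) :
    H.map (f.prodMap g) (H.map .fst a * H.map .snd b) =
      H.map .fst (H.map f a) * H.map .snd (H.map g b) := by
  rw [map_mul, H.map_map, H.map_map, H.map_map, H.map_map]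
  rfl

/-- base change -/
theorem Kun.fib_map (K : Kun T F) (K' : Kun T' F) (f : C(T', T)) (y : H (T × F)) :
    fib T' J (H.map (f.prodMap (.id F)) y) = H.map f (fib T J y) :=
  K.ext (f := (fib T' J).toAddMonoidHom.comp (H.map _).toAddMonoidHom)
    (g := (H.map f).toAddMonoidHom.comp (fib T J).toAddMonoidHom) (fun u v => by
      show fib T' J (H.map _ _) = H.map f (fib T J _)
      rw [map_pm, K'.fib_mul, K.fib_mul, H.map_id fun _ => rfl]
      exact (map_smul (H.mapA f) _ _).symm) y

/-- identities between integrals hold in families -/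
theorem Kun.lift (K : Kun T F) (K' : Kun T F') {g : C(F', F)} {c : H F} {c' : H F'}
    (h : ∀ y, J' (H.map g y * c') = J (y * c)) (y : H (T × F)) :
    fib T J' (H.map (xm T g) y * H.map .snd c') = fib T J (y * H.map .snd c) :=
  K.ext (f := (fib T J').toAddMonoidHom.comp ((AddMonoidHom.mulRight _).comp
    (H.map _).toAddMonoidHom)) (g := (fib T J).toAddMonoidHom.comp (AddMonoidHom.mulRight _))
    (fun u v => by
      show fib T J' (H.map _ _ * _) = fib T J (_ * _)
      rw [map_pm, mul_assoc, mul_assoc, ← map_mul, ← map_mul, K'.fib_mul, K.fib_mul, h,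
        H.map_id fun _ => rfl]) y

theorem Kun.lift1 (K : Kun T F) (K' : Kun T F') {g : C(F', F)} (h : ∀ y, J' (H.map g y) = J y)
    (y : H (T × F)) : fib T J' (H.map (xm T g) y) = fib T J y := by
  have := K.lift K' (J := J) (J' := J') (g := g) (c := 1) (c' := 1)
    (fun y => by rw [mul_one, mul_one, h]) y
  rwa [map_one, map_one, mul_one, mul_one] at this

theorem Kun.lift2 (K : Kun T F) (K' : Kun T F') {g : C(F', F)} {c : Hev F}
    (h : ∀ y, J' (H.map g y) = J (c.1 * y)) (y : H (T × F)) :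
    fib T J' (H.map (xm T g) y) = fib T J ((Hev.map .snd c).1 * y) := by
  have := K.lift K' (J := J) (J' := J') (g := g) (c := c.1) (c' := 1)
    (fun y => by rw [mul_one, h, Hev.commute c.2]) y
  rwa [map_one, mul_one, ← Hev.commute (map_mem_Hev _ c.2)] at this

/-- the value at a point of the base -/
theorem Kun.fib_pt (K : Kun T F) (l : H T →ₐ[ℂ] ℂ) {t : T}
    (hl : ∀ a, H.map (.const F t) a = algebraMap ℂ _ (l a)) (y : H (T × F)) :
    l (fib T J y) = J (H.map ((ContinuousMap.const F t).prodMk (.id F)) y) :=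
  K.ext (f := l.toLinearMap.toAddMonoidHom.comp (fib T J).toAddMonoidHom)
    (g := J.toAddMonoidHom.comp (H.map _).toAddMonoidHom) (fun u v => by
      show l (fib T J _) = J (H.map _ _)
      rw [K.fib_mul, map_smul, map_mul, H.map_map, H.map_map, H.map_id (h := v) fun _ => rfl]
      erw [hl]
      rw [← Algebra.smul_def, map_smul, smul_eq_mul, smul_eq_mul, mul_comm]) y

end kun

section prod

variable (B Y : Ch.Sp) {B' Y' Y'' : Ch.Sp}

/-- the action on the product -/
@[reducible] def prA : MulAction (B.G × Y.G) (B.T × Y.T) where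
  smul g p := (g.1 • p.1, g.2 • p.2)
  one_smul p := Prod.ext (one_smul _ p.1) (one_smul _ p.2)
  mul_smul g h p := Prod.ext (mul_smul g.1 h.1 p.1) (mul_smul g.2 h.2 p.2)

theorem pr_lim {G G' T T' : Type} [Group G] [TopologicalSpace G] [TopologicalSpace T]
    [MulAction G T] [ProperSMul G T] [SMul G' T'] [TopologicalSpace T'] (ρ : G' → G) {f : T' → T}
    (hf : Continuous f) (he : ∀ (g : G') t, f (g • t) = ρ g • f t) (𝒰 : Ultrafilter (G' × T'))
    {x₁ x₂ : T'} (h : Tendsto (fun p : G' × T' => (p.1 • p.2, p.2)) 𝒰 (𝓝 (x₁, x₂))) :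
    ∃ g : G, Tendsto (fun p : G' × T' => ρ p.1) 𝒰 (𝓝 g) := by
  obtain ⟨g, -, hg⟩ := (properSMul_iff_continuousSMul_ultrafilter_tendsto.1
    (inferInstance : ProperSMul G T)).2 (𝒰.map (Prod.map ρ f)) (f x₁) (f x₂) (by
      have := ((hf.prodMap hf).tendsto (x₁, x₂)).comp h
      rw [Ultrafilter.coe_map, tendsto_map'_iff]
      refine Tendsto.congr (fun y => ?_) this
      simp [he])
  exact ⟨g, hg⟩

theorem pr_proper : letI := prA B Y; ProperSMul (B.G × Y.G) (B.T × Y.T) := by
  letI := prA B Y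
  refine properSMul_iff_continuousSMul_ultrafilter_tendsto_t2.2
    ⟨⟨(continuous_fst.fst.smul continuous_snd.fst).prodMk
      (continuous_fst.snd.smul continuous_snd.snd)⟩, fun 𝒰 x₁ x₂ h => ?_⟩
  obtain ⟨g, hg⟩ := pr_lim (G := B.G) Prod.fst continuous_fst (fun _ _ => rfl) 𝒰 h
  obtain ⟨g', hg'⟩ := pr_lim (G := Y.G) Prod.snd continuous_snd (fun _ _ => rfl) 𝒰 h
  exact ⟨(g, g'), hg.prodMk_nhds hg'⟩

theorem pr_free (p : B.T × Y.T) : letI := prA B Y; LocFree (B.G × Y.G) p := by
  letI := prA B Y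
  obtain ⟨τ, h1, h2⟩ := B.free p.1
  obtain ⟨τ', h1', h2'⟩ := Y.free p.2
  refine ⟨fun q => (τ q.1, τ' q.2), ?_, ?_⟩
  · filter_upwards [continuous_fst.continuousAt.eventually h1,
      continuous_snd.continuousAt.eventually h1'] with q a b
    exact (a.comp continuousAt_fst).prodMk (b.comp continuousAt_snd)
  · filter_upwards [((continuous_fst.prodMap continuous_fst).tendsto (1, p)).eventually h2,
      ((continuous_snd.prodMap continuous_snd).tendsto (1, p)).eventually h2'] with q a b
    exact Prod.ext a b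

/-- **the product of two presented spaces** -/
@[reducible] def prS : Ch.Sp where
  G := B.G × Y.G
  T := B.T × Y.T
  X := B.X × Y.X
  act := prA B Y
  prop := pr_proper B Y
  free := pr_free B Y
  π := Prod.map B.π Y.π
  quo := B.quo.prodMap Y.quo
  fib p _ := ⟨fun h =>
    let ⟨g, hg⟩ := (B.fib _ _).1 (congrArg Prod.fst h)
    let ⟨g', hg'⟩ := (Y.fib _ _).1 (congrArg Prod.snd h)
    ⟨(g, g'), Prod.ext hg hg'⟩, fun ⟨g, hg⟩ =>
      hg ▸ Prod.ext (B.π_smul g.1 p.1).symm (Y.π_smul g.2 p.2).symm⟩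

/-- the first projection -/
def pr1 : Mor (prS B Y) B :=
  ⟨MonoidHom.fst _ _, Prod.fst, continuous_fst, continuous_fst, fun _ _ => rfl⟩

/-- the second projection -/
def pr2 : Mor (prS B Y) Y :=
  ⟨MonoidHom.snd _ _, Prod.snd, continuous_snd, continuous_snd, fun _ _ => rfl⟩

theorem pr1_map : (pr1 B Y).map = .fst :=
  ContinuousMap.coe_injective ((pr1 B Y).map_eq (φ := Prod.fst) fun _ => rfl).symm

theorem pr2_map : (pr2 B Y).map = .snd :=
  ContinuousMap.coe_injective ((pr2 B Y).map_eq (φ := Prod.snd) fun _ => rfl).symm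

variable {B Y}

/-- the product of two morphisms -/
def prM (m : Mor B' B) (n : Mor Y' Y) : Mor (prS B' Y') (prS B Y) :=
  ⟨m.ρ.prodMap n.ρ, Prod.map m.f n.f, m.cρ.prodMap n.cρ, m.cf.prodMap n.cf,
    fun g p => Prod.ext (m.eqv g.1 p.1) (n.eqv g.2 p.2)⟩

theorem prM_map (m : Mor B' B) (n : Mor Y' Y) : (prM m n).map = m.map.prodMap n.map :=
  ContinuousMap.coe_injective ((prM m n).map_eq (φ := m.map.prodMap n.map) fun p =>
    Prod.ext (m.map_π p.1) (n.map_π p.2)).symm

theorem id_map : (Mor.id B).map = .id B.X := ContinuousMap.ext (Mor.map_id B)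

theorem prM_id (n : Mor Y' Y) : (prM (Mor.id B) n).map = xm B.X n.map := by rw [prM_map, id_map]

theorem c1_pr2 (χ : Y.G →ₜ* ℂˣ) : c1 ((pr2 B Y).chr χ) = Hev.map .snd (c1 χ) := by
  rw [← map_c1, pr2_map]

theorem c1_pr1 (χ : B.G →ₜ* ℂˣ) : c1 ((pr1 B Y).chr χ) = Hev.map .fst (c1 χ) := by
  rw [← map_c1, pr1_map]

end prod

end Vale.Agent.P287T.Dn
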