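import Vale.Agent.P287T.Rr.Div
import Vale.Agent.P287T.Rr.Fib

/-!
# Riemann-Roch for a divisor, in families over an arbitrary base
-/

set_option linter.unusedSectionVars false
set_option linter.style.haveILetI false

namespace Vale.Agent.P287T.Dn

open Set Function Module P291Z P269 P269.Holo P269.Mono P269.Tq P269.Coh P287Q.Hb P269.Ch P269.Grr
  PowerSeries

section deg

variable {T F : Type} [TopologicalSpace T] [TopologicalSpace F] {J : H F →ₗ[ℂ] ℂ} {n : ℤ}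

theorem Kun.fib_comp (K : Kun T F) (hJ : ∀ k, k ≠ n → ∀ x, H.IsDeg k x → J x = 0) (k : ℤ)
    (y : H (T × F)) : fib T J (H.comp (k + n) y) = H.comp k (fib T J y) :=
  K.ext (f := (fib T J ∘ₗ H.comp (k + n)).toAddMonoidHom) (g := (H.comp k ∘ₗ fib T J).toAddMonoidHom)
    (fun u v => by
      show fib T J (H.comp _ _) = H.comp k (fib T J _)
      refine H.induction_deg (P := fun v => fib T J (H.comp (k + n) (H.map .fst u * H.map .snd v)) =
        H.comp k (fib T J (H.map .fst u * H.map .snd v))) v (by simp only [map_zero, mul_zero])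
        (fun a b ha hb => by simp only [map_add, mul_add, ha, hb]) fun j => ?_
      rw [show k + n = (k + n - j) + j by ring, H.comp_mul_right ((H.isDeg_comp j v).map _),
        H.comp_map, K.fib_mul, K.fib_mul, map_smul]
      by_cases e : j = n
      · rw [e, add_sub_cancel_right]
      · rw [hJ j e _ (H.isDeg_comp j v), zero_smul, zero_smul]) y

theorem Kun.fib_deg (K : Kun T F) (hJ : ∀ k, k ≠ n → ∀ x, H.IsDeg k x → J x = 0) {k : ℤ}
    {y : H (T × F)} (h : H.IsDeg (k + n) y) : H.IsDeg k (fib T J y) := by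
  rw [← h.comp_eq, K.fib_comp hJ]
  exact H.isDeg_comp _ _

theorem Kun.fib_mem (K : Kun T F) (hJ : ∀ k, k ≠ 2 * n → ∀ x, H.IsDeg k x → J x = 0)
    {y : H (T × F)} (h : y ∈ Hev (T × F)) : fib T J y ∈ Hev T :=
  Hev.induction (P := fun y => fib T J y ∈ Hev T) h (fun k c hc => mem_Hev (k := k - n)
    (K.fib_deg hJ (by rwa [show 2 * (k - n) + 2 * n = 2 * k by ring])))
    fun a b ha hb => by rw [map_add]; exact add_mem ha hb

/-- integration of even classes -/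
noncomputable def Kun.fibE (K : Kun T F) (hJ : ∀ k, k ≠ 2 * n → ∀ x, H.IsDeg k x → J x = 0) :
    Hev (T × F) →ₗ[ℂ] Hev T :=
  (fib T J ∘ₗ (Hev (T × F)).val.toLinearMap).codRestrict (Hev T).toSubmodule
    fun y => K.fib_mem hJ y.2

theorem Kun.fibE_val (K : Kun T F) (hJ : ∀ k, k ≠ 2 * n → ∀ x, H.IsDeg k x → J x = 0)
    (y : Hev (T × F)) : (K.fibE hJ y).1 = fib T J y.1 := rfl

theorem Kun.fibE_fst (K : Kun T F) (hJ : ∀ k, k ≠ 2 * n → ∀ x, H.IsDeg k x → J x = 0) (a : Hev T)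
    (y : Hev (T × F)) : K.fibE hJ (Hev.map .fst a * y) = a * K.fibE hJ y :=
  Subtype.ext (K.fib_fst a.1 y.1)

theorem Kun.fibE_mul (K : Kun T F) (hJ : ∀ k, k ≠ 2 * n → ∀ x, H.IsDeg k x → J x = 0) (a : Hev T)
    (b : Hev F) : K.fibE hJ (Hev.map .fst a * Hev.map .snd b) = J b.1 • a :=
  Subtype.ext (K.fib_mul a.1 b.1)

end deg

/-- the pull-back along the second projection -/
noncomputable abbrev sn (T : Type) {F : Type} [TopologicalSpace T] [TopologicalSpace F] :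
    Hev F →ₐ[ℂ] Hev (T × F) := Hev.map .snd

theorem xm_snd {T F F' : Type} [TopologicalSpace T] [TopologicalSpace F] [TopologicalSpace F']
    (g : C(F', F)) (c : Hev F) :
    Hev.map (xm T g) (sn T c) = sn T (Hev.map g c) := by
  rw [Hev.map_map, Hev.map_map]
  rfl

theorem xm_comp {T F F' F'' : Type} [TopologicalSpace T] [TopologicalSpace F] [TopologicalSpace F']
    [TopologicalSpace F''] (g : C(F', F)) (g' : C(F'', F')) :
    (xm T g).comp (xm T g') = xm T (g.comp g') := ContinuousMap.ext fun _ => rfl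

theorem grr_absT {T M Y Z P Dt Du De : Type} [TopologicalSpace T] [TopologicalSpace M]
    [TopologicalSpace Y] [TopologicalSpace Z] [TopologicalSpace P] [TopologicalSpace Dt]
    [TopologicalSpace Du] [TopologicalSpace De] (KM : Kun T M) (KY : Kun T Y) (KZ : Kun T Z)
    (KP : Kun T P) (Kt : Kun T Dt) (Ku : Kun T Du) (Ke : Kun T De)
    {q : C(M, Y)} {it : C(Dt, M)} {iu : C(Du, M)} {ie : C(De, M)}
    {r : C(De, P)} {p : C(P, Z)} {i : C(Z, Y)} {JM : H M →ₗ[ℂ] ℂ} {JY : H Y →ₗ[ℂ] ℂ}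
    {JZ : H Z →ₗ[ℂ] ℂ} {JP : H P →ₗ[ℂ] ℂ} {Jt : H Dt →ₗ[ℂ] ℂ} {Ju : H Du →ₗ[ℂ] ℂ}
    {Je : H De →ₗ[ℂ] ℂ} {a b x' : Hev M} {ξ : Hev P} {x : Hev Z}
    (ht : ∀ y, Jt (H.map it y) = JM ((b.1 + a.1) * y)) (hu : ∀ y, Ju (H.map iu y) = JM (a.1 * y))
    (he : ∀ y, Je (H.map ie y) = JM (b.1 * y)) (jt : ∀ y, Jt (H.map (q.comp it) y) = JY y)
    (ju : ∀ y, Ju (H.map (q.comp iu) y) = JY y) (jr : ∀ y, Je (H.map r y) = JP y)
    (sq : q.comp ie = (i.comp p).comp r) (L0 : ∀ y, JP (H.map p y * (ξ.1 + H.map p x.1) ^ 0) = 0)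
    (L1 : ∀ y, JP (H.map p y * (ξ.1 + H.map p x.1) ^ 1) = JZ y)
    (rel : (ξ + Hev.map p 0) * (ξ + Hev.map p x) = 0) {ω : (Hev (T × M))⟦X⟧}
    {α κ : (Hev (T × Y))⟦X⟧} {B : (Hev (T × Z))⟦X⟧}
    (e1 : pS (xm T it) ω = pS (xm T it) (pS (xm T q) α))
    (e2 : pS (xm T iu) ω = pS (xm T iu) (pS (xm T q) κ))
    (e3 : pS (xm T ie) (ex (sn T x') * (pS (xm T q) κ - ω)) =
      pS ((xm T p).comp (xm T r)) B * pS (xm T ie) (ex (sn T a + sn T x') - 1))
    (e4 : Hev.map ie x' = Hev.map r (Hev.map p x)) (e5 : Hev.map ie a = Hev.map r ξ) (k : ℕ)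
    (z : H (T × Y)) : fib T JY ((coeff (k + 1) (κ - α)).1 * z) =
      fib T JZ ((coeff k (B * Grr.ev (sn T x) gS)).1 * H.map (xm T i) z) := by
  have c0 : ∀ j : ℕ, ((sn T ξ).1 + H.map (xm T p) (sn T x).1) ^ j =
      H.map .snd ((ξ.1 + H.map p x.1) ^ j) := fun j => by
    rw [map_pow, map_add]
    exact congrArg (fun y => (_ + y) ^ j) (congrArg Subtype.val (xm_snd p x))
  have a1 : ∀ y, fib T Jt (H.map (xm T it) y) = fib T JM
      (((sn T b).1 + (sn T a).1) * y) := fun y => by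
    rw [← Subalgebra.coe_add, ← map_add]
    exact KM.lift2 Kt (c := b + a) ht y
  have a2 : ∀ y, fib T JP (H.map (xm T p) y * ((sn T ξ).1 +
      H.map (xm T p) (sn T x).1) ^ 0) = 0 := fun y => by
    rw [c0, KZ.lift KP (J := JZ) (c := 0) fun y => by rw [L0, mul_zero, map_zero], map_zero,
      mul_zero, map_zero]
  have a3 : ∀ y, fib T JP (H.map (xm T p) y * ((sn T ξ).1 +
      H.map (xm T p) (sn T x).1) ^ 1) = fib T JZ y := fun y => by
    rw [c0, KZ.lift KP (J := JZ) (c := 1) fun y => by rw [L1, mul_one], map_one, mul_one]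
  have a4 : (sn T ξ + Hev.map (xm T p) 0) *
      (sn T ξ + Hev.map (xm T p) (sn T x)) = 0 := by
    rw [map_zero, add_zero] at rel
    rw [xm_snd, map_zero, add_zero, ← map_add, ← map_mul, rel, map_zero]
  have a5 : Hev.map (xm T ie) (sn T x') =
      Hev.map (xm T r) (Hev.map (xm T p) (sn T x)) := by rw [xm_snd, xm_snd, xm_snd, e4]
  have a6 : Hev.map (xm T ie) (sn T a) = Hev.map (xm T r) (sn T ξ) := by
    rw [xm_snd, xm_snd, e5]
  have a7 : (xm T q).comp (xm T ie) = ((xm T i).comp (xm T p)).comp (xm T r) :=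
    ContinuousMap.ext fun y => Prod.ext rfl (DFunLike.congr_fun sq y.2)
  have a8 : ∀ y, fib T Jt (H.map ((xm T q).comp (xm T it)) y) = fib T JY y := by
    rw [xm_comp]
    exact KY.lift1 Kt jt
  have a9 : ∀ y, fib T Ju (H.map ((xm T q).comp (xm T iu)) y) = fib T JY y := by
    rw [xm_comp]
    exact KY.lift1 Ku ju
  refine sub_eq_zero.1 ((Module.forall_dual_apply_eq_zero_iff ℂ _).1 fun l => ?_)
  rw [map_sub, sub_eq_zero]
  exact grr_abs (JM := l ∘ₗ fib T JM) (JY := l ∘ₗ fib T JY) (JZ := l ∘ₗ fib T JZ)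
    (JP := l ∘ₗ fib T JP) (Jt := l ∘ₗ fib T Jt) (Ju := l ∘ₗ fib T Ju) (Je := l ∘ₗ fib T Je)
    (fun y => congrArg l (a1 y)) (fun y => congrArg l (KM.lift2 Ku hu y))
    (fun y => congrArg l (KM.lift2 Ke he y)) (fun y => congrArg l (a8 y))
    (fun y => congrArg l (a9 y)) (fun y => congrArg l (KP.lift1 Ke jr y)) a7
    (fun y => (congrArg l (a2 y)).trans (map_zero l)) (fun y => congrArg l (a3 y)) a4 e1 e2 e3 a5
    a6 k z

theorem DS.pb {Y D : Ch.Sp} {χ a b : Y.G →ₜ* ℂˣ} {s t e u v : Y.T → ℂ} (d : DS χ s a b t e u v)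
    (m : Mor D Y) : DS (m.chr χ) (fun p => s (m.f p)) (m.chr a) (m.chr b) (fun p => t (m.f p))
      (fun p => e (m.f p)) (fun p => u (m.f p)) fun p => v (m.f p) :=
  ⟨d.ct.comp m.cf, d.ce.comp m.cf, d.cu.comp m.cf, d.cv.comp m.cf,
    fun g p => m.eqv g p ▸ d.et _ _, fun g p => m.eqv g p ▸ d.ee _ _,
    fun g p => m.eqv g p ▸ d.eu _ _, fun g p => m.eqv g p ▸ d.ev _ _, fun _ => d.eq _,
    fun _ => d.uv _, fun _ => d.te _⟩

theorem chc_e2 {Y D : Ch.Sp} {χ a b : Y.G →ₜ* ℂˣ} {s t e u v : Y.T → ℂ} {A K : VB Y}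
    {φ : Y.T → A.W →ₗ[ℂ] K.W} {ψ : Y.T → K.W →ₗ[ℂ] A.W} (h : EM χ s A K φ ψ)
    (d : DS χ s a b t e u v) {x y : Hev Y.X} (hx : c1 χ = x) (hy : c1 a = y) (m : Mor D Y)
    (hm : ∀ p, e (m.f p) = 0) {B : VB D} {β : D.T → K.W →ₗ[ℂ] B.W}
    (hβ : Hom (Mor.id D) (K.pb m) B β) (sj : ∀ p w, w ∈ B.F p → ∃ w' ∈ K.F (m.f p), β p w' = w)
    (kr : ∀ p w, w ∈ K.F (m.f p) → (β p w = 0 ↔ ψ (m.f p) w = 0)) :
    pS m.map (ex x * (K.chc - (VV h d).chc)) = B.chc * pS m.map (ex (y + x) - 1) :=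
  hx ▸ hy ▸ chc_e h d m hm hβ sj kr

theorem c1_prM {B M Y : Ch.Sp} (q : Mor M Y) (χ : Y.G →ₜ* ℂˣ) :
    c1 ((prM (Mor.id B) q).chr ((pr2 B Y).chr χ)) = sn B.X (c1 (q.chr χ)) := c1_pr2 (q.chr χ)

theorem cv1 {B D M Y : Ch.Sp} (i : Mor D M) (q : Mor M Y) (K : VB (prS B Y))
    {ω : (Hev (B.X × M.X))⟦X⟧} (h : pS (prM (Mor.id B) i).map ω =
      pS (prM (Mor.id B) i).map (K.pb (prM (Mor.id B) q)).chc) :
    pS (xm B.X i.map) ω = pS (xm B.X i.map) (pS (xm B.X q.map) K.chc) := by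
  rwa [chc_pb, prM_id i, prM_id q] at h

theorem cv3 {B D M Y P Z : Ch.Sp} (i : Mor D M) (q : Mor M Y) (p : Mor P Z) (r : Mor D P)
    (K : VB (prS B Y)) (Q : VB (prS B Z)) {x y : Hev (B.X × M.X)} {ω : (Hev (B.X × M.X))⟦X⟧}
    (h : pS (prM (Mor.id B) i).map (ex x * ((K.pb (prM (Mor.id B) q)).chc - ω)) =
      (Q.pb ((prM (Mor.id B) p).comp (prM (Mor.id B) r))).chc *
        pS (prM (Mor.id B) i).map (ex (y + x) - 1)) :
    pS (xm B.X i.map) (ex x * (pS (xm B.X q.map) K.chc - ω)) =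
      pS ((xm B.X p.map).comp (xm B.X r.map)) Q.chc * pS (xm B.X i.map) (ex (y + x) - 1) := by
  rwa [chc_pb K, chc_pb Q, Mor.map_comp, prM_id i, prM_id q, prM_id p, prM_id r] at h

variable {A W : Type} [NormedRing A] [NormedAlgebra ℂ A] [NormedAddCommGroup W] [NormedSpace ℂ W]
  [FiniteDimensional ℂ A] [FiniteDimensional ℂ W] {act : A → W → W} {S Z : Set W} {n m : ℤ}
  {c : A → ℂ} {s : W → ℂ} [IsAct act univ]

theorem qm_kun (h : QM act S n) (T : Type) [TopologicalSpace T] [Nice T] : Kun T (Quo act S) :=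
  haveI := h.fp
  haveI := h.cpt
  haveI := h.pd.fin
  haveI : Nice (Quo act S) := inferInstanceAs (Nice (sp act S).X)
  kun T _

/-- **Riemann-Roch for a divisor over a base** -/
theorem grr_base (B : Ch.Sp) [FP act S] [FP act Z] (d : Dv act S Z c s)
    (an : ∀ a, IsUnit a → AnalyticAt ℂ c a) (hY : QM act S n) (hX : QM act Z m)
    {E K : VB (prS B (sp act S))} {φ : B.T × Sp act S → E.W →ₗ[ℂ] K.W}
    {ψ : B.T × Sp act S → K.W →ₗ[ℂ] E.W}
    (h : EM ((pr2 B (sp act S)).chr d.hm.ρ) (fun t : B.T × Sp act S => s t.2.val) E K φ ψ)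
    {Q : VB (prS B (sp act Z))} {β : B.T × Sp act Z → K.W →ₗ[ℂ] Q.W}
    (hβ : Hom (Mor.id _) (K.pb (prM (Mor.id B) (Eqh.incl (act := act) d.sub).mor)) Q β)
    (sj : ∀ p w, w ∈ Q.F p → ∃ w' ∈ K.F (p.1, Sp.incl act d.sub p.2), β p w' = w)
    (kr : ∀ p w, w ∈ K.F (p.1, Sp.incl act d.sub p.2) →
      (β p w = 0 ↔ ψ (p.1, Sp.incl act d.sub p.2) w = 0))
    (k : ℕ) (z : H (B.X × Quo act S)) :
    fib B.X hY.ps.J ((coeff (k + 1) (K.chc - E.chc)).1 * z) =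
      fib B.X hX.ps.J ((coeff k (Q.chc * Grr.ev (sn B.X (lce act Z d.hm)) gS)).1 *
        H.map (xm B.X (qinc act d.sub)) z) := by
  have C1 := chr1 d.hm an
  haveI := C1.isAct (act := act)
  haveI := chr2.isAct (act := ac1 act c)
  have hM := (dv_M d).qm (chr2.qm (C1.qm hY (r := 1) rfl) (r := 1) rfl)
  have ht := dv_t.qm hM
  have hu := dv_u.qm hM
  have he := (dv_e d).qm hM
  have hX' := d.qm hY
  have hP := C1.qm hX' (r := 1) rfl
  haveI := hM.fp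
  haveI := ht.fp
  haveI := hu.fp
  haveI := he.fp
  haveI := hP.fp
  have L := lhb_e d C1 hX' hP
  have h' := h.pb (prM (Mor.id B) (mq act S c s))
  have d' := (ds (act := act) (S := S) (s := s) d.hm).pb (pr2 B _)
  have e1 := chc_t h' d' (prM (Mor.id B) (mi act c (dv_t (act := act) (c := c)).sub))
    fun p => p.2.2.2
  have e2 := chc_u h' d' (prM (Mor.id B) (mi act c (dv_u (act := act) (c := c)).sub))
    fun p => p.2.2.2
  have k3 := hβ.pb' ((prM (Mor.id B) (mp act Z c)).comp (prM (Mor.id B) (mr d)))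
  have e3 := chc_e2 h' d' (c1_prM _ _) (c1_pr2 _) (prM (Mor.id B) (mi act c (dv_e d).sub))
    (fun p => p.2.2.2)
    (B := Q.pb ((prM (Mor.id B) (mp act Z c)).comp (prM (Mor.id B) (mr d))))
    (β := fun p => β (((prM (Mor.id B) (mp act Z c)).comp (prM (Mor.id B) (mr d))).f p))
    ⟨k3.mem, k3.cont, k3.eqv⟩
    (fun p => sj (((prM (Mor.id B) (mp act Z c)).comp (prM (Mor.id B) (mr d))).f p))
    fun p => kr (((prM (Mor.id B) (mp act Z c)).comp (prM (Mor.id B) (mr d))).f p)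
  exact grr_absT (qm_kun hM _) (qm_kun hY _) (qm_kun hX _) (qm_kun hP _) (qm_kun ht _)
    (qm_kun hu _) (qm_kun he _) (JY := hY.ps.J) (JZ := hX'.ps.J)
    (fun y => (J_mi dv_t hM ht y).trans (by rw [lce_t, Subalgebra.coe_add])) (J_mi dv_u hM hu)
    (J_mi (dv_e d) hM he) (J_mq _ ht hY (by omega) bij_t) (J_mq _ hu hY (by omega) (bij_u d))
    (J_mr d he hP (by omega)) (sq_e d) (L.int_lt one_pos) L.int (rel_e d C1) (cv1 _ _ E e1)
    (cv1 _ _ K e2) (cv3 _ _ _ _ K Q e3) (c1_e d) (c1_e' d) k z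

end Vale.Agent.P287T.Dn
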