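import Vale.Agent.P287T.Rr.St

/-!
# The Chern character of a bundle of maps and of a sum over the charges
-/

set_option linter.unusedSectionVars false

namespace Vale.Agent.P287T.Rr

open Set Function Module Matrix P291Z P269 P269.Ch P269.Grr P287T.Cy P287T.Fa PowerSeries

section du

theorem chh_du_ex {R : Type} [CommRing R] [Algebra ℂ R] (x : R) : du (ex x) = ex (-x) := by
  ext k
  rw [du, coeff_rescale, coeff_ex, coeff_ex, neg_pow x, mul_smul_comm]

theorem chh_pS_du {X X' : Type} [TopologicalSpace X] [TopologicalSpace X'] (f : C(X, X'))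
    (y : (Hev X')⟦X⟧) : pS f (du y) = du (pS f y) := by
  ext1 k
  rw [du, du, coeff_map, coeff_rescale, coeff_rescale, coeff_map, map_mul, map_pow, map_neg,
    map_one]

end du

variable {Y Y' : Ch.Sp}

/-- `ev` identifies the fibres of `D` with the maps from the fibres of `E` to those of `F` -/
structure IsHomB (D E F : VB Y) (ev : Y.T → D.W →ₗ[ℂ] E.W →ₗ[ℂ] F.W) : Prop where
  mem : ∀ t a w, a ∈ D.F t → w ∈ E.F t → ev t a w ∈ F.F t
  cont : ∀ a w, Continuous fun t => ev t a w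
  eqv : ∀ (g : Y.G) t a w, a ∈ D.F t → w ∈ E.F t → ev (g • t) (g • a) (g • w) = g • ev t a w
  inj : ∀ t a, a ∈ D.F t → (∀ w ∈ E.F t, ev t a w = 0) → a = 0
  surj : ∀ t (φ : E.W →ₗ[ℂ] F.W), (∀ w ∈ E.F t, φ w ∈ F.F t) →
    ∃ a ∈ D.F t, ∀ w ∈ E.F t, ev t a w = φ w

namespace IsHomB

variable {D E F : VB Y} {ev : Y.T → D.W →ₗ[ℂ] E.W →ₗ[ℂ] F.W}

theorem continuous (h : IsHomB D E F ev) {Z : Type} [TopologicalSpace Z] {t : Z → Y.T}
    {a : Z → D.W} {w : Z → E.W} (ht : Continuous t) (ha : Continuous a) (hw : Continuous w) :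
    Continuous fun z => ev (t z) (a z) (w z) :=
  ((cont_lin (P := fun t => (LinearMap.toContinuousLinearMap :
    (E.W →ₗ[ℂ] F.W) ≃ₗ[ℂ] E.W →L[ℂ] F.W).toLinearMap ∘ₗ ev t)
    fun a => continuous_clm_apply.2 (h.cont a)).comp (ht.prodMk ha)).clm_apply hw

theorem pb (h : IsHomB D E F ev) (m : Mor Y' Y) :
    IsHomB (D.pb m) (E.pb m) (F.pb m) fun t => ev (m.f t) where
  mem t := h.mem _
  cont a w := (h.cont a w).comp m.cf
  eqv g t a w ha hw := by
    change ev (m.f (g • t)) (m.ρ g • (show D.W from a)) (m.ρ g • (show E.W from w)) = _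
    rw [m.eqv]
    exact h.eqv _ _ _ _ ha hw
  inj t := h.inj _
  surj t := h.surj _

theorem chc_fr (h : IsHomB D E F ev) {ι κ : Type} [Fintype ι] [Fintype κ]
    {χ : ι → Y.G →ₜ* ℂˣ} {v : ι → Y.T → E.W} {ψ : κ → Y.G →ₜ* ℂˣ} {u : κ → Y.T → F.W}
    (hv : Fr E χ v) (hu : Fr F ψ u) : D.chc = du E.chc * F.chc := by
  classical
  obtain ⟨R, h1, h2, -⟩ := hu.iso.exists_symm
  let A : Y.T → D.W →ₗ[ℂ] (ι × κ → ℂ) := fun t => LinearMap.pi fun x =>
    LinearMap.proj (R := ℂ) (φ := fun _ : κ => ℂ) x.2 ∘ₗ R t ∘ₗ (ev t).flip (v x.1 t)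
  have key : Iso (Mor.id Y) D (chars fun x : ι × κ => (χ x.1)⁻¹ * ψ x.2) A := by
    refine ⟨⟨fun _ _ _ => trivial, continuous_pi fun x => (continuous_apply x.2).comp
      (h1.toHom.continuous (f := fun z : D.V => z.1.1) (by fun_prop)
        (h.continuous (t := fun z : D.V => z.1.1) (a := fun z : D.V => z.1.2) (by fun_prop)
          (by fun_prop) ((hv.cont x.1).comp (by fun_prop)))
        fun z => h.mem _ _ _ z.2 (hv.mem _ _)), fun g t a ha => funext fun x => ?_⟩,
      fun t a ha e => h.inj t a ha fun w hw => ?_, fun t (c : ι × κ → ℂ) _ => ?_⟩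
    · have e1 := h.eqv g t a _ ha (hv.mem x.1 t)
      rw [hv.eqv, map_smul] at e1
      have e2 := congrFun (h1.eqv g t _ (h.mem t a _ ha (hv.mem x.1 t))) x.2
      rw [← e1, map_smul] at e2
      change (χ x.1 g : ℂ) * (show κ → ℂ from R (g • t) (ev (g • t) (g • a) (v x.1 (g • t)))) x.2 =
        (ψ x.2 g : ℂ) * (show κ → ℂ from R t (ev t a (v x.1 t))) x.2 at e2
      change (show κ → ℂ from R (g • t) (ev (g • t) (g • a) (v x.1 (g • t)))) x.2 =
        (((χ x.1 g)⁻¹ * ψ x.2 g : ℂˣ) : ℂ) * (show κ → ℂ from R t (ev t a (v x.1 t))) x.2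
      rw [Units.val_mul, mul_assoc, ← e2, Units.inv_mul_cancel_left]
    · have e1 : ∀ i, ev t a (v i t) = 0 := fun i =>
        h1.inj t _ (h.mem t a _ ha (hv.mem i t)) (funext fun j => congrFun e (i, j))
      rw [← hv.span] at hw
      exact (Submodule.span_le (p := LinearMap.ker (ev t a))).2
        (by rintro _ ⟨i, rfl⟩; exact e1 i) hw
    · obtain ⟨φ, hφ⟩ := ((Basis.span (hv.li t)).constr ℂ
        fun i => ∑ j, c (i, j) • u j t).exists_extend
      have e1 : ∀ i, φ (v i t) = ∑ j, c (i, j) • u j t := fun i => by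
        have := LinearMap.congr_fun hφ (Basis.span (hv.li t) i)
        rwa [Basis.constr_basis, LinearMap.comp_apply, Submodule.subtype_apply,
          Basis.span_apply] at this
      obtain ⟨a, ha, e2⟩ := h.surj t φ fun w hw => by
        rw [← hv.span] at hw
        refine (Submodule.span_le (p := (F.F t).comap φ)).2 ?_ hw
        rintro _ ⟨i, rfl⟩
        change φ (v i t) ∈ F.F t
        rw [e1]
        exact sum_mem fun j _ => Submodule.smul_mem _ _ (hu.mem j t)
      refine ⟨a, ha, funext fun x => ?_⟩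
      change (show κ → ℂ from R t (ev t a (v x.1 t))) x.2 = c x
      rw [e2 _ (hv.mem _ _), e1]
      exact congrFun (h2 t (fun j => c (x.1, j)) trivial) x.2
  rw [Iso.chc' key, Fr.chc (fr_chars _), Fr.chc hv, Fr.chc hu, map_sum, Finset.sum_mul_sum,
    Fintype.sum_prod_type]
  exact Finset.sum_congr rfl fun i _ => Finset.sum_congr rfl fun j _ => by
    rw [c1_mul, c1_inv, ex_add, chh_du_ex]

end IsHomB

/-- **the Chern character of the bundle of maps** -/
theorem chc_hom {D E F : VB Y} {ev : Y.T → D.W →ₗ[ℂ] E.W →ₗ[ℂ] F.W} (h : IsHomB D E F ev) :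
    D.chc = du E.chc * F.chc := by
  obtain ⟨Y', m, hm, ⟨χ, v, hv⟩, ψ, u, hu⟩ := exists_fr₂ E F
  refine pS_injective hm ?_
  rw [map_mul, chh_pS_du, ← chc_pb, ← chc_pb, ← chc_pb]
  exact (h.pb m).chc_fr hv hu

variable {ι : Type} [Fintype ι] {B : Ch.Sp} {W : S6} {p : ι → ℤ} {e : B.T → Matrix ι ι ℂ}
  {d : B.T → Matrix ι ι S6}

theorem chc_sup_fin (h : EF B W p e d) (m : Mor Y B) (χ : Y.G →ₜ* ℂˣ) (w : ℤ → ℤ)
    (cn : PreconnectedSpace Y.T) (S : Finset ℤ) : ∀ s : ℤ → Prop, (∀ i, s (p i) ↔ p i ∈ S) →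
      (h.pj_sup m χ s w cn).vb.chc =
        ∑ n ∈ S, pS m.map (h.Vn n).chc * ex (w n • c1 χ) := by
  induction S using Finset.induction_on with
  | empty =>
    intro s hs
    rcases isEmpty_or_nonempty Y.T with _ | ⟨⟨t⟩⟩
    · exact subsingleton_series.elim _ _
    refine chc_zero _ (((h.pj_sup m χ s w cn).vb.rank t).symm.trans ?_)
    exact Submodule.finrank_eq_zero.2 (eq_bot_iff.2 fun v hv => funext fun i =>
      hv.1 i fun k => Finset.notMem_empty _ ((hs i).1 k))
  | insert n S hn ih =>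
    intro s hs
    let σ : ℤ → ℂ := fun k => if k = n then 1 else 0
    have key : Exact (h.pj_sup m χ (· ∈ S) w cn).vb (h.pj_sup m χ s w cn).vb
        ((h.Vn n).tw m (χ ^ w n)) (fun _ => LinearMap.id)
        fun _ => LinearMap.pi fun i => σ (p i) • LinearMap.proj i := by
      have a1 : ∀ t (v : ι → ℂ), v ∈ (h.pj_sup m χ (· ∈ S) w cn).vb.F t →
          v ∈ (h.pj_sup m χ s w cn).vb.F t := fun t v hv =>
        ⟨fun i hi => hv.1 i fun k => hi ((hs i).2 (Finset.mem_insert_of_mem k)), hv.2⟩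
      refine ⟨Hom.of_continuous a1 continuous_snd fun _ _ _ _ => rfl,
        Hom.of_continuous (fun t (v : ι → ℂ) hv => ⟨fun i hi => ?_, ?_, zero_mulVec _⟩)
          (continuous_pi fun i => continuous_const.mul ((continuous_apply i).comp continuous_snd))
          fun g t (v : ι → ℂ) _ => funext fun i => ?_, fun _ _ _ k => k,
        fun t (v : ι → ℂ) hv => ⟨v, ⟨fun i hi => hv.1 i fun k => hi ((hs i).2 ?_), hv.2⟩,
          funext fun i => ?_⟩, fun t (v : ι → ℂ) hv => ⟨fun k => ⟨v, ⟨fun i hi => ?_, hv.2⟩, rfl⟩, ?_⟩⟩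
      · exact mul_eq_zero_of_left (if_neg hi) _
      · exact (h.mulVec_e _ σ v).trans (funext fun i => congrArg (_ * ·) (congrFun hv.2.1 i))
      · change σ (p i) * (((χ ^ w (p i)) g : ℂ) * v i) =
          ((χ ^ w n) g : ℂ) * ((((1 : B.G →ₜ* ℂˣ) ^ (0 : ℤ)) (m.ρ g) : ℂ) * (σ (p i) * v i))
        by_cases hi : p i = n
        · rw [hi, zp_apply 1, zpow_zero, one_mul, mul_left_comm]
        · rw [show σ (p i) = 0 from if_neg hi, zero_mul, zero_mul, mul_zero, mul_zero]
      · exact (show p i = n from k) ▸ Finset.mem_insert_self _ _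
      · change σ (p i) * v i = v i
        by_cases hi : p i = n
        · rw [show σ (p i) = 1 from if_pos hi, one_mul]
        · rw [hv.1 i hi, mul_zero]
      · by_cases h1 : p i = n
        · have h2 : σ (p i) * v i = 0 := congrFun k i
          rwa [show σ (p i) = 1 from if_pos h1, one_mul] at h2
        · exact hv.1 i fun h2 => (Finset.mem_insert.1 ((hs i).1 h2)).elim h1 hi
      · rintro ⟨v', hv', rfl⟩
        funext i
        change σ (p i) * (show ι → ℂ from v') i = 0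
        by_cases h1 : p i = n
        · exact mul_eq_zero_of_right _ (hv'.1 i fun h2 => hn (h1 ▸ h2))
        · exact mul_eq_zero_of_left (if_neg h1) _
    rw [Exact.chc key, ih _ fun _ => Iff.rfl, Finset.sum_insert hn, chc_tw, c1_zpow, add_comm,
      mul_comm]

open Classical in
/-- **the generators with charges in `s`** -/
theorem chc_sup (h : EF B W p e d) (m : Mor Y B) (χ : Y.G →ₜ* ℂˣ) (s : ℤ → Prop) (w : ℤ → ℤ)
    (cn : PreconnectedSpace Y.T) : (h.pj_sup m χ s w cn).vb.chc =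
      ∑ n ∈ (Finset.univ.image p).filter s, pS m.map (h.Vn n).chc * ex (w n • c1 χ) :=
  chc_sup_fin h m χ w cn _ s fun i => by simp

/-- the same with the generating function -/
theorem chc_sup_gen (h : EF B W p e d) (m : Mor Y B) (χ : Y.G →ₜ* ℂˣ) (s : ℤ → Prop)
    [DecidablePred s] (w : ℤ → ℤ) (cn : PreconnectedSpace Y.T) : (h.pj_sup m χ s w cn).vb.chc =
      h.gen (pS m.map) fun n => if s n then ex (w n • c1 χ) else 0 := by
  rw [chc_sup_fin h m χ w cn ((Finset.univ.image p).filter s) s fun i => by simp,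
    Finset.sum_filter, EF.gen]
  exact Finset.sum_congr rfl fun n _ => by rw [mul_ite, mul_zero]

end Vale.Agent.P287T.Rr
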