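import Vale.Agent.P287T.Rr.St

/-!
# The substitution `Θ`
-/

namespace Vale.Agent.P287T.Rr

open P269 P269.Ch P269.Grr P287T.Cy P287T.Dn PowerSeries

section alg

variable {R S : Type} [CommRing R] [CommRing S]

/-- substitution of a nilpotent element -/
noncomputable def sub6 (φ : R →+* S) (w : S) (hw : w ^ 6 = 0) : R⟦X⟧ →+* S where
  toFun G := ∑ k ∈ Finset.range 6, φ (coeff k G) * w ^ k
  map_zero' := by simp
  map_add' G H := by simp only [map_add, add_mul, Finset.sum_add_distrib]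
  map_one' := by simp [coeff_one]
  map_mul' G H := by
    simp only [← eval₂_trunc_eq_sum_range]
    obtain ⟨c, hc⟩ : Polynomial.X ^ 6 ∣ trunc 6 (G * H) - trunc 6 G * trunc 6 H :=
      Polynomial.X_pow_dvd_iff.2 fun d hd => by
        rw [Polynomial.coeff_sub, coeff_trunc, if_pos hd, coeff_mul_eq_coeff_trunc_mul_trunc _ _ hd,
          ← Polynomial.coe_mul, Polynomial.coeff_coe, sub_self]
    rw [sub_eq_iff_eq_add.1 hc, Polynomial.eval₂_add, Polynomial.eval₂_mul, Polynomial.eval₂_mul,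
      Polynomial.eval₂_X_pow, hw, zero_mul, zero_add]

theorem coeff_du (G : R⟦X⟧) (k : ℕ) : coeff k (du G) = (-1) ^ k * coeff k G := coeff_rescale _ _ _

theorem coeff_du2 (G : R⟦X⟧⟦X⟧) (k : ℕ) : coeff k (du2 G) = (-1) ^ k * du (coeff k G) :=
  coeff_rescale _ _ _

theorem map_du (φ : R →+* S) (G : R⟦X⟧) :
    PowerSeries.map φ (du G) = du (PowerSeries.map φ G) := by
  ext k
  simp [coeff_du]

theorem du_C (a : R) : du (C a) = C a := by
  ext k
  rw [coeff_du, coeff_C]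
  split_ifs with h <;> simp [h]

theorem du_X : du (X : R⟦X⟧) = -X := rescale_neg_one_X

theorem du_du (G : R⟦X⟧) : du (du G) = G := by
  ext k
  rw [coeff_du, coeff_du, ← mul_assoc, ← mul_pow, neg_mul_neg, one_mul, one_pow, one_mul]

theorem mul_ev_gS [Algebra ℂ R] (x : R) : C x * X * Grr.ev x gS = 1 - ex (-x) := by
  linear_combination ex (-x) * X_mul_ev_gS x + (1 - C x * X * Grr.ev x gS) * ex_mul_neg x

theorem mul_ev [Algebra ℂ R] {x : R} {n : R⟦X⟧} (h : n * C x = 0) : n * Grr.ev x gS = n := by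
  have : Grr.ev x gS = 1 + C x * X * Grr.ev x (mk fun k => coeff (k + 1) gS) := by
    rw [← ev_X, ← map_mul, ← map_one (Grr.ev x), ← map_add]
    refine congrArg _ (PowerSeries.ext fun k => ?_)
    cases k with
    | zero => simp [coeff_gS, coeff_zero_X_mul, -coeff_zero_eq_constantCoeff]
    | succ k => simp [coeff_succ_X_mul, coeff_one]
  rw [this]
  linear_combination X * Grr.ev x (mk fun k => coeff (k + 1) gS) * h

end alg

theorem pS_du {X Y : Type} [TopologicalSpace X] [TopologicalSpace Y] (f : C(X, Y))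
    (G : (Hev Y)⟦X⟧) : pS f (du G) = du (pS f G) := map_du _ _

namespace Amb

variable {W : S6} (A : Amb W)

/-- the substitution as a ring homomorphism -/
noncomputable def ΘH : A.R⟦X⟧ →+* (Hev A.Y.X)⟦X⟧ :=
  sub6 (pS A.π.map) (C (c1 A.χ) * PowerSeries.X) (by rw [mul_pow, ← map_pow, A.six, map_zero, zero_mul])

theorem Θ_eq (G : A.R⟦X⟧) : A.Θ G = A.ΘH G := rfl

theorem Θ_mul (G H : A.R⟦X⟧) : A.Θ (G * H) = A.Θ G * A.Θ H := map_mul A.ΘH G H

theorem Θ_add (G H : A.R⟦X⟧) : A.Θ (G + H) = A.Θ G + A.Θ H := map_add A.ΘH G H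

theorem Θ_sub (G H : A.R⟦X⟧) : A.Θ (G - H) = A.Θ G - A.Θ H := map_sub A.ΘH G H

theorem Θ_one : A.Θ 1 = 1 := map_one A.ΘH

theorem Θ_zero : A.Θ 0 = 0 := map_zero A.ΘH

theorem Θ_sum {α : Type} (s : Finset α) (G : α → A.R⟦X⟧) :
    A.Θ (∑ i ∈ s, G i) = ∑ i ∈ s, A.Θ (G i) := map_sum A.ΘH G s

theorem Θ_C (a : A.R) : A.Θ (C a) = pS A.π.map a := by
  simp [Θ, th, coeff_C, Finset.sum_range_succ]

theorem coeff_Θ (G : A.R⟦X⟧) (j : ℕ) : coeff j (A.Θ G) = ∑ k ∈ Finset.range 6,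
    if k ≤ j then Hev.map A.π.map (coeff (j - k) (coeff k G)) * c1 A.χ ^ k else 0 := by
  rw [Θ, th, map_sum]
  refine Finset.sum_congr rfl fun k _ => ?_
  rw [mul_pow, ← map_pow, ← mul_assoc, coeff_mul_X_pow', coeff_mul_C]
  rfl

theorem coeff_zero_Θ (G : A.R⟦X⟧) : coeff 0 (A.Θ G) = Hev.map A.π.map (coeff 0 (coeff 0 G)) := by
  simp [coeff_Θ, -coeff_zero_eq_constantCoeff]

theorem π_inj {a : Hev A.B.X} (h : Hev.map A.π.map a = 0) : a = 0 := by
  have := A.lh a 5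
  rwa [h, zero_mul, map_zero, if_pos rfl, eq_comm] at this

theorem Θ_ev (c : ℂ) (f : ℂ⟦X⟧) :
    A.Θ (Grr.ev (algebraMap ℂ A.R c) f) = Grr.ev (c • c1 A.χ) f := by
  have h1 : ∀ k, pS A.π.map (coeff k (Grr.ev (algebraMap ℂ A.R c) f)) *
      (C (c1 A.χ) * PowerSeries.X) ^ k =
      C (coeff k (Grr.ev (c • c1 A.χ) f)) * PowerSeries.X ^ k := fun k => by
    rw [coeff_ev, coeff_ev, ← map_pow, Algebra.smul_def, ← map_mul, PowerSeries.algebraMap_apply,
      map_C, mul_pow, ← map_pow, ← mul_assoc, ← map_mul, smul_pow, smul_smul, Algebra.smul_def]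
    exact congrArg (fun z => C (z * _) * _) ((Hev.map A.π.map).commutes _)
  rw [Θ, th]
  simp only [h1]
  ext1 j
  simp only [map_sum, coeff_C_mul_X_pow, Finset.sum_ite_eq, Finset.mem_range]
  split_ifs with h
  · rfl
  · rw [coeff_ev, smul_pow, pow_eq_zero_of_le (not_lt.1 h) A.six, smul_zero, smul_zero]

theorem Θ_tw (n : ℤ) : A.Θ (tw A.R n) = ex ((-(n : ℂ) / 2) • c1 A.χ) := A.Θ_ev _ _

theorem Θ_du2 (G : A.R⟦X⟧) : A.Θ (du2 G) = du (A.Θ G) := by
  rw [Θ, Θ, th, th, map_sum]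
  refine Finset.sum_congr rfl fun k _ => ?_
  rw [coeff_du2, map_mul, map_mul, map_pow, map_pow, map_mul, du_C, du_X, pS_du, map_neg, map_one,
    mul_neg, neg_pow (_ * _)]
  ring

theorem fX_pow (a : Hev A.B.X) (k : ℕ) :
    A.fX (A.pb a * A.hX ^ k) = if k = 4 then 3 * a else 0 := by
  rw [pb, hX, ← map_pow, ← map_mul, A.dj, mul_left_comm, ← pow_succ', A.lh]
  by_cases h : k = 4 <;> simp [h]

theorem fY_Θ (G : A.R⟦X⟧) (j m : ℕ) (hm : m ≤ 5) :
    A.fY (coeff (j + m) (A.Θ G) * c1 A.χ ^ (5 - m)) = coeff j (coeff m G) := by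
  rw [coeff_Θ, Finset.sum_mul, map_sum, Finset.sum_eq_single m, if_pos (Nat.le_add_left _ _),
    mul_assoc, ← pow_add, A.lh, if_pos (by omega), Nat.add_sub_cancel]
  · intro k _ hk
    split_ifs
    · rw [mul_assoc, ← pow_add, A.lh, if_neg (by omega)]
    · rw [zero_mul, map_zero]
  · exact fun h => (h (Finset.mem_range.2 (by omega))).elim

theorem fX_prim (y : Hev A.X.X) (m : ℕ) : A.fX (A.prim y * A.hX ^ m) = 0 := by
  simp only [prim, _root_.sub_mul, Finset.sum_mul, smul_mul_assoc, mul_assoc, ← pow_add, map_sub, map_sum,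
    map_smul, fX_pow]
  by_cases h : m ≤ 4
  · rw [Finset.sum_eq_single (4 - m), if_pos (by omega), Nat.sub_sub_self h,
      show (3 : Hev A.B.X) = algebraMap ℂ _ 3 from (map_ofNat _ 3).symm, ← Algebra.smul_def,
      inv_smul_smul₀ (by norm_num), sub_self]
    · intro k _ hk
      rw [if_neg (by omega), smul_zero]
    · exact fun h => (h (Finset.mem_range.2 (by omega))).elim
  · rw [pow_eq_zero_of_le (a := A.hX) (by omega : 5 ≤ m) A.five, mul_zero, map_zero, Finset.sum_eq_zero,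
      sub_zero]
    intro k _
    rw [if_neg (by omega), smul_zero]

theorem fS_zero {n : (Hev A.X.X)⟦X⟧} (h : ∀ j m, A.fX (coeff j n * A.hX ^ m) = 0)
    (α : A.R⟦X⟧) : A.fS (n * pS A.i.map (A.Θ α)) = 0 := by
  ext1 j
  rw [fS, coeff_mk, coeff_mul, map_sum, map_zero]
  refine Finset.sum_eq_zero fun x _ => ?_
  rw [coeff_map, coeff_Θ, map_sum, Finset.mul_sum, map_sum]
  refine Finset.sum_eq_zero fun k _ => ?_
  split_ifs
  · rw [RingHom.coe_coe, map_mul (Hev.map A.i.map), map_pow, mul_left_comm]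
    exact (A.lin _ _).trans (mul_eq_zero_of_right _ (h _ _))
  · rw [map_zero, mul_zero, map_zero]

theorem gd_sub {G α : A.R⟦X⟧} {n : (Hev A.X.X)⟦X⟧} (h : GD A (A.Θ G) (pS A.i.map (A.Θ α) + n))
    (hn : n * C A.hX = 0) (k : ℕ) (z : Hev A.Y.X) :
    A.fY (coeff (k + 1) (A.Θ (G - (1 - tw A.R 6) * α)) * z) =
      A.fX (coeff k n * Hev.map A.i.map z) := by
  have h3 : c1 A.χ3 = 3 * c1 A.χ := by
    rw [A.e3, c1_zpow, zsmul_eq_mul]
    norm_num
  have h4 : (-((6 : ℤ) : ℂ) / 2) • c1 A.χ = -c1 A.χ3 := by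
    rw [h3, show -((6 : ℤ) : ℂ) / 2 = -3 by norm_num, neg_smul, Algebra.smul_def, map_ofNat]
  have h5 : n * Grr.ev (Hev.map A.i.map (c1 A.χ3)) gS = n := mul_ev (by
    rw [h3, map_mul, map_mul, mul_left_comm]
    exact mul_eq_zero_of_right _ hn)
  have h6 := h.2 k z
  rw [add_mul, h5, ← map_ev, ← map_mul, map_add, add_mul, map_add, coeff_map, RingHom.coe_coe,
    ← map_mul, A.dj] at h6
  rw [Θ_sub, Θ_mul, Θ_sub, Θ_one, Θ_tw, h4, ← mul_ev_gS, map_sub, _root_.sub_mul, map_sub, h6,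
    show C (c1 A.χ3) * PowerSeries.X * Grr.ev (c1 A.χ3) gS * A.Θ α =
      PowerSeries.X * (C (c1 A.χ3) * (A.Θ α * Grr.ev (c1 A.χ3) gS)) by ring, coeff_succ_X_mul, coeff_C_mul,
    show ∀ y : Hev A.Y.X, c1 A.χ3 * y * z = (3 : ℂ) • (c1 A.χ * (y * z)) from fun y => by
      rw [h3, Algebra.smul_def, map_ofNat]
      ring, map_smul, Algebra.smul_def, map_ofNat, add_sub_cancel_left]

end Amb

/-- the lifted Riemann-Roch theorem for a divisor -/
theorem stLift : StLift := by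
  intro W A G α n h hn
  have h0 := A.π_inj ((A.coeff_zero_Θ G).symm.trans h.1)
  refine ⟨fun k hk => PowerSeries.ext fun j => ?_, PowerSeries.ext fun j => ?_⟩
  · rcases Nat.eq_zero_or_pos (j + k) with h1 | h1
    · obtain ⟨rfl, rfl⟩ := Nat.add_eq_zero_iff.1 h1
      rw [map_sub, coeff_zero_eq_constantCoeff_apply (_ * _), map_mul,
        map_sub constantCoeff, map_one, tw, ex, constantCoeff_ev, constantCoeff_exp, map_one, sub_self, zero_mul, sub_zero, h0, map_zero]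
    · rw [← A.fY_Θ _ j k hk.le, ← Nat.sub_add_cancel h1, A.gd_sub h hn, map_pow,
        show 5 - k = 4 - k + 1 by omega, pow_succ', ← mul_assoc, ← coeff_mul_C]
      change A.fX (coeff _ (n * C A.hX) * _) = _
      rw [hn, map_zero, zero_mul, map_zero, map_zero]
  · rw [← A.fY_Θ _ j 5 le_rfl, A.gd_sub h hn (j + 4), Amb.fS, coeff_mk, Nat.sub_self, pow_zero,
      map_one, mul_one]

theorem stPrim : StPrim := by
  intro W A D
  refine ⟨⟨mk fun m => if m < 5 then
    mk fun l => (3 : ℂ)⁻¹ • A.fX (coeff (l + m) D.chc * A.hX ^ (4 - m)) else 0, ?_⟩, ?_,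
    fun α => ⟨A.fS_zero (fun j m => ?_) α, A.fS_zero (fun j m => ?_) α⟩⟩
  · ext1 j
    rw [map_add, Amb.primS, coeff_mk, Amb.prim, ← sub_eq_iff_eq_add, sub_sub_cancel, coeff_map,
      A.coeff_Θ, Finset.sum_range_succ _ 5, coeff_mk, if_neg (lt_irrefl 5), map_zero, map_zero,
      zero_mul, ite_self, add_zero, map_sum]
    refine Finset.sum_congr rfl fun m hm => ?_
    rw [coeff_mk, if_pos (Finset.mem_range.1 hm), coeff_mk]
    split_ifs with h
    · rw [Nat.sub_add_cancel h, map_smul, RingHom.coe_coe, map_mul (Hev.map A.i.map), map_smul,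
        map_pow, smul_mul_assoc]
      rfl
    · have h1 := Finset.mem_range.1 hm
      rw [A.dg _ (by omega) _ (Hev.mul_deg (chc_deg D j)
        (Hev.pow_deg (a := A.hX) (Hev.map_deg _ (c1_deg A.χ)) (4 - m))), map_zero, Amb.pb, map_zero, map_zero,
        zero_mul, smul_zero]
  · ext1 j
    rw [coeff_mul_C, Amb.primS, coeff_mk, map_zero]
    exact A.dec _ (A.fX_prim _)
  · rw [Amb.primS, coeff_mk, A.fX_prim]
  · rw [coeff_du, Amb.primS, coeff_mk, mul_assoc]
    rcases neg_one_pow_eq_or (Hev A.X.X) j with h | h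
    · rw [h, one_mul, A.fX_prim]
    · rw [h, neg_one_mul, map_neg, A.fX_prim, neg_zero]

end Vale.Agent.P287T.Rr
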