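import Vale.Agent.P287T.Rr.St
import Vale.Agent.P287T.Rr.DivT

/-!
# The setting of the Riemann-Roch theorem over an arbitrary connected base
-/

set_option linter.unusedSectionVars false
set_option linter.style.haveILetI false

namespace Vale.Agent.P287T.Rr

open Set Function Module Matrix P291Z P269 P269.Holo P269.Mono P269.Tq P269.Coh P269.Ch P269.Grr
  P287Q P287Q.Cub P287Q.Hb P287T.Cy P287T.Fa P287T.Dn PowerSeries

section cub

variable {Y : PS} {h : H Y.X} (L : Lf Y h) (n : Y.n = 4) (e : Y.J (h ^ 4) = 3)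

variable (Y h) in
/-- the projection to the primitive classes -/
noncomputable def prX : H Y.X →ₗ[ℂ] H Y.X :=
  LinearMap.id - ∑ m ∈ Finset.range 5,
    ((3 : ℂ)⁻¹ • Y.J ∘ₗ LinearMap.mulRight ℂ (h ^ (4 - m))).smulRight (h ^ m)

theorem prX_apply (b : H Y.X) :
    prX Y h b = b - ∑ m ∈ Finset.range 5, ((3 : ℂ)⁻¹ * Y.J (b * h ^ (4 - m))) • h ^ m := by
  rw [prX, LinearMap.sub_apply, LinearMap.sum_apply]
  rfl

include L n e

theorem amb_J (j : ℕ) : Y.J (h ^ j) = if j = 4 then 3 else 0 := by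
  split_ifs with k
  · rw [k, e]
  · exact Y.pd.deg _ (by omega) _ (isDeg_pow L.deg j)

theorem prX_pow (j : ℕ) : prX Y h (h ^ j) = 0 := by
  rw [prX_apply, sub_eq_zero]
  simp only [← pow_add, amb_J L n e]
  by_cases k : j < 5
  · rw [Finset.sum_eq_single j (fun m hm k' => by
      rw [if_neg (by have := Finset.mem_range.1 hm; omega), mul_zero, zero_smul])
      (fun k' => absurd (Finset.mem_range.2 k) k'), if_pos (by omega),
      inv_mul_cancel₀ three_ne_zero, one_smul]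
  · rw [L.pow_eq_zero (by omega)]
    exact (Finset.sum_eq_zero fun m hm => by
      rw [if_neg (by have := Finset.mem_range.1 hm; omega), mul_zero, zero_smul]).symm

theorem prX_amb {b : H Y.X} (hb : b ∈ Mono.amb h) : prX Y h b = 0 :=
  (Submodule.span_le (p := LinearMap.ker (prX Y h))).2
    (by rintro _ ⟨j, rfl⟩; exact prX_pow L n e j) hb

omit n e in
theorem prX_van {b : H Y.X} (hb : b ∈ van h Y.J) : prX Y h b = b := by
  rw [prX_apply, sub_eq_self]
  exact Finset.sum_eq_zero fun m _ => by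
    rw [← (isDeg_pow L.deg _).commute (even_two_mul _), mem_van.1 hb, mul_zero, zero_smul]

theorem prX_mem (b : H Y.X) : prX Y h b ∈ van h Y.J := by
  obtain ⟨a, ha, v, hv, rfl⟩ := L.exists_add b
  rwa [map_add, prX_amb L n e ha, prX_van L hv, zero_add]

theorem prX_mul (b : H Y.X) : prX Y h b * h = 0 :=
  (L.deg.commute even_two _).symm.trans (L.mul_van (prX_mem L n e b))

theorem prX_deg (b : H Y.X) : H.IsDeg 4 (prX Y h b) := n ▸ L.van_deg (prX_mem L n e b)

theorem prX_ne {k : ℤ} {b : H Y.X} (hb : H.IsDeg k b) (hk : k ≠ 4) : prX Y h b = 0 :=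
  prX_amb L n e (L.amb k (n ▸ hk) b hb)

omit e in
theorem prX_four {b : H Y.X} (hb : H.IsDeg 4 b) :
    prX Y h b = b - (Y.J (b * h ^ 2) / 3) • h ^ 2 := by
  rw [prX_apply, Finset.sum_eq_single 2 (fun m hm k => by
    rw [Y.pd.deg _ (by have := Finset.mem_range.1 hm; omega) _ (hb.mul (isDeg_pow L.deg _)),
      mul_zero, zero_smul]) (fun k => absurd (by decide) k), div_eq_inv_mul]

end cub

theorem fpP : haveI := isAct; FP acX ({0}ᶜ : Set (Fin 6 → ℂ)) := (sc_scl (π₀ (Fin 6))).fp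

theorem qmP : haveI := isAct; QM acX ({0}ᶜ : Set (Fin 6 → ℂ)) (5 : ℕ) :=
  haveI := isAct
  (sc_scl (π₀ (Fin 6))).qmP

/-- projective space -/
noncomputable def P5 : Ch.Sp :=
  haveI := isAct
  haveI := fpP
  sp acX {0}ᶜ

/-- the character of `O(1)` -/
noncomputable def χP : P5.G →ₜ* ℂˣ :=
  haveI := isAct
  (sc_scl (π₀ (Fin 6))).hm.ρ

/-- the character of `O(3)` -/
noncomputable def χ3P : P5.G →ₜ* ℂˣ :=
  haveI := isAct
  ((sc_scl (π₀ (Fin 6))).hm_pow 3).ρ

theorem χ3P_apply (g : P5.G) : (χ3P g : ℂ) = (χP g : ℂ) ^ (3 : ℤ) := (zpow_natCast _ 3).symm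

/-- the coordinates -/
def xP (t : P5.T) : Fin 6 → ℂ := Sp.val (act := acX) t

/-- the integral -/
noncomputable def JP : H P5.X →ₗ[ℂ] ℂ :=
  haveI := isAct
  qmP.ps.J

theorem pdP : PD P5.X 5 JP :=
  haveI := isAct
  qmP.pd

theorem kunP (T : Type) [TopologicalSpace T] [Nice T] : Kun T P5.X :=
  haveI := isAct
  qm_kun qmP T

theorem hP_val : ((c1 χP).1 : H (Quo acX {0}ᶜ)) = lcq acX {0}ᶜ fun t => t () :=
  haveI := isAct
  haveI := fpP
  lce_val (sc_scl (π₀ (Fin 6))).hm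

theorem c1_χ3P : c1 χ3P = (3 : ℂ) • c1 χP :=
  haveI := isAct
  haveI := fpP
  Subtype.ext ((lce_val ((sc_scl (π₀ (Fin 6))).hm_pow 3)).trans
    (((sc_scl (π₀ (Fin 6))).lcq_pow 3).trans (congrArg ((3 : ℂ) • ·) hP_val.symm)))

theorem JP_pow (k : ℕ) : JP (c1 χP ^ k).1 = if k = 5 then 1 else 0 := by
  rw [Subalgebra.coe_pow]
  split_ifs with e
  · haveI := isAct
    rw [e, hP_val]
    exact (sc_scl (π₀ (Fin 6))).J_P
  · exact pdP.deg _ (by omega) _ (isDeg_pow (c1_deg χP) k)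

theorem hP_six : c1 χP ^ 6 = 0 :=
  Subtype.ext (PS.eq_zero_of_lt (Y := ⟨P5.X, 5, JP, pdP⟩) (by norm_num) (isDeg_pow (c1_deg χP) 6))

theorem cnP : PreconnectedSpace P5.T :=
  isPreconnected_iff_preconnectedSpace.1 (isConnected_compl_singleton_of_one_lt_rank (by
    rw [← Module.finrank_eq_rank, Module.finrank_pi_fintype]
    simp) (0 : Fin 6 → ℂ)).isPreconnected

namespace Cu

variable {W : S6} (c : Cu W)

include c in
theorem dv : Dv acX {0}ᶜ (Pub.cone W) (fun t => t () ^ 3) fun y => MvPolynomial.eval y W :=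
  haveI := isAct
  ⟨(sc_scl (π₀ (Fin 6))).hm_pow 3, fun x _ => Cub.an_eval W x,
    fun a _ x _ => Hdg.eval_smul_of_hom c.hom (a ()) x, fun _ => Iff.rfl, fun x hx => by
      obtain ⟨v, hv⟩ := exists_dir c.sm hx.1
      have a : AnalyticAt ℂ (fun ε : ℂ => x + ε • v) 0 := by fun_prop
      have z : x + (0 : ℂ) • v = x := by rw [zero_smul, add_zero]
      refine ⟨_, ⟨a, z, a.continuousAt.eventually (isOpen_compl_singleton.mem_nhds
        (mem_of_eq_of_mem z hx.1))⟩, ?_⟩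
      have d := (HasFDerivAt.comp_hasDerivAt_of_eq 0
        (Cub.an_eval W x).differentiableAt.hasFDerivAt
        (((hasDerivAt_id (0 : ℂ)).smul_const v).const_add x) z.symm).deriv
      rw [one_smul, hv] at d
      exact d.trans_ne one_ne_zero⟩

/-- the inclusion of the cubic -/
noncomputable def inc : Mor c.Y P5 :=
  haveI := isAct
  haveI := fpP
  haveI := c.qm.fp
  (Eqh.incl (act := acX) c.dv.sub).mor

/-- the cubic as a Poincare duality space -/
@[reducible] noncomputable def ps : PS := ⟨c.Y.X, 4, c.J, haveI := isAct; c.qm.pd⟩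

theorem kun (T : Type) [TopologicalSpace T] [Nice T] : Kun T c.Y.X :=
  haveI := isAct
  qm_kun c.qm T

theorem lf : Lf c.ps c.h.1 :=
  haveI := isAct
  c.h_val ▸ (cubF c.qm c.hom c.sm).lf

theorem h4 : c.J (c.h.1 ^ 4) = 3 :=
  haveI := isAct
  c.h_val ▸ (cubF c.qm c.hom c.sm).deg

theorem inc_h : Hev.map c.inc.map (c1 χP) = c.h := map_c1 _ _

theorem J_inc (z : H P5.X) : c.J (H.map c.inc.map z) = JP ((c1 χ3P).1 * z) :=
  haveI := isAct
  haveI := fpP
  haveI := c.qm.fp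
  (c.dv.J' qmP c.qm z).trans (congrArg (fun y => JP (y * z)) (lce_val c.dv.hm).symm)

theorem h_five : c.h ^ 5 = 0 := Subtype.ext (c.lf.pow_eq_zero (by norm_num))

/-- the projection to the primitive classes -/
noncomputable abbrev pX : H c.Y.X →ₗ[ℂ] H c.Y.X := prX c.ps c.h.1

/-- the primitive part in families -/
theorem prim_mul {T : Type} [TopologicalSpace T] (K : Kun T c.Y.X) (a : H T) (b : H c.Y.X) :
    H.map .fst a * H.map .snd b - ∑ m ∈ Finset.range 5, (3 : ℂ)⁻¹ • (H.map .fst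
      (Dn.fib T c.J (H.map .fst a * H.map .snd b * H.map .snd c.h.1 ^ (4 - m))) *
        H.map (.snd : C(T × c.Y.X, c.Y.X)) c.h.1 ^ m) =
      H.map .fst a * H.map .snd (c.pX b) := by
  rw [prX_apply, map_sub, map_sum, mul_sub, Finset.mul_sum]
  refine congrArg _ (Finset.sum_congr rfl fun m _ => ?_)
  rw [mul_assoc, ← map_pow, ← map_pow, ← map_mul, K.fib_mul, H.map_smulC, H.map_smulC,
    smul_mul_assoc, mul_smul_comm, mul_smul]

theorem prim_h {T : Type} [TopologicalSpace T] (K : Kun T c.Y.X) (y : H (T × c.Y.X)) :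
    y * H.map .snd c.h.1 = (∑ m ∈ Finset.range 5, (3 : ℂ)⁻¹ • (H.map .fst
      (Dn.fib T c.J (y * H.map .snd c.h.1 ^ (4 - m))) *
        H.map (.snd : C(T × c.Y.X, c.Y.X)) c.h.1 ^ m)) * H.map .snd c.h.1 := by
  obtain ⟨y, rfl⟩ := K.2 y
  induction y with
  | zero => simp only [map_zero, zero_mul, smul_zero, Finset.sum_const_zero]
  | add a b ha hb =>
    simp only [map_add, add_mul, smul_add, Finset.sum_add_distrib]
    exact congrArg₂ _ ha hb
  | tmul a b =>
    rw [kmap_tmul, ← sub_eq_zero, ← _root_.sub_mul, c.prim_mul K, mul_assoc, ← map_mul,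
      prX_mul c.lf rfl c.h4, map_zero, mul_zero]

end Cu

variable {W : S6} (c : Cu W) (B : Ch.Sp)

theorem amb_hX : Hev.map (prM (Mor.id B) c.inc).map (c1 ((pr2 B P5).chr χP)) = sn B.X c.h := by
  rw [c1_pr2, prM_id, xm_snd, c.inc_h]

theorem amb_pb (a : Hev B.X) :
    Hev.map (prM (Mor.id B) c.inc).map (Hev.map (pr1 B P5).map a) = Hev.map .fst a := by
  rw [pr1_map, prM_id, Hev.map_map]
  rfl

theorem amb_gd {E K : VB (prS B P5)} {φ : B.T × P5.T → E.W →ₗ[ℂ] K.W}
    {ψ : B.T × P5.T → K.W →ₗ[ℂ] E.W}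
    (h : EM ((pr2 B P5).chr χ3P) (fun t : B.T × P5.T => MvPolynomial.eval (xP t.2) W) E K φ ψ)
    {D : VB (prS B c.Y)} {β : B.T × c.Y.T → K.W →ₗ[ℂ] D.W}
    (hβ : Hom (Mor.id _) (K.pb (prM (Mor.id B) c.inc)) D β)
    (sj : ∀ t w, w ∈ D.F t → ∃ w' ∈ K.F ((prM (Mor.id B) c.inc).f t), β t w' = w)
    (kr : ∀ t w, w ∈ K.F ((prM (Mor.id B) c.inc).f t) →
      (β t w = 0 ↔ ψ ((prM (Mor.id B) c.inc).f t) w = 0)) (k : ℕ) (z : H (B.X × P5.X)) :
    Dn.fib B.X JP ((coeff (k + 1) (K.chc - E.chc)).1 * z) =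
      Dn.fib B.X c.J ((coeff k (D.chc * Grr.ev (Hev.map (prM (Mor.id B) c.inc).map
        (c1 ((pr2 B P5).chr χ3P))) gS)).1 * H.map (prM (Mor.id B) c.inc).map z) := by
  haveI := isAct
  haveI := fpP
  haveI := c.qm.fp
  have e : Hev.map c.inc.map (c1 χ3P) = lce acX (Pub.cone W) c.dv.hm := map_c1 _ _
  have e' : c.inc.map = qinc acX c.dv.sub := Eqh.qm_incl' _
  rw [c1_pr2, prM_id, xm_snd, e, e']
  exact grr_base B c.dv (fun a _ => ((ContinuousLinearMap.proj () :
    (Unit → ℂ) →L[ℂ] ℂ).analyticAt a).pow 3) qmP c.qm h hβ sj kr k z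

/-- **The setting over the base `B`.** -/
@[reducible] noncomputable def ambB (cn : PreconnectedSpace B.T) : Amb W where
  B := B
  Y := prS B P5
  X := prS B c.Y
  π := pr1 B P5
  i := prM (Mor.id B) c.inc
  χ := (pr2 B P5).chr χP
  χ3 := (pr2 B P5).chr χ3P
  x t := xP t.2
  fY := (kunP B.X).fibE pdP.deg
  fX := (c.kun B.X).fibE c.ps.pd.deg
  sm := c.sm
  cY := haveI := cnP; inferInstanceAs (PreconnectedSpace (B.T × P5.T))
  cX := haveI := c.conn; inferInstanceAs (PreconnectedSpace (B.T × c.Y.T))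
  e3 := ContinuousMonoidHom.ext fun g => Units.ext
    ((χ3P_apply g.2).trans (zp_apply ((pr2 B P5).chr χP) 3 g).symm)
  cx := (Sp.continuous_val (act := acX)).comp continuous_snd
  eqx _ _ := rfl
  nx t := Sp.val_mem (act := acX) t.2
  onX t := (c.x_mem t.2).2
  six := by rw [c1_pr2, ← map_pow, hP_six, map_zero]
  five := by rw [amb_hX, ← map_pow, c.h_five, map_zero]
  lh a k := by
    rw [c1_pr2, pr1_map, ← map_pow, Kun.fibE_mul, JP_pow]
    split_ifs
    · exact one_smul _ _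
    · exact zero_smul _ _
  dj z := Subtype.ext (by
    have := (kunP B.X).lift2 (c.kun B.X) c.J_inc z.1
    rw [c1_χ3P, map_smul, Subalgebra.coe_smul, smul_mul_assoc, map_smul] at this
    rw [prM_id, c1_pr2, show (3 : Hev B.X) = algebraMap ℂ _ 3 from (map_ofNat _ 3).symm,
      ← Algebra.smul_def]
    exact this)
  lin a y := by rw [amb_pb, Kun.fibE_fst]
  dg k hk y hy := Subtype.ext (((c.kun B.X).fib_deg c.ps.pd.deg (k := 2 * k - 2 * 4)
    (by rwa [sub_add_cancel])).eq_zero (by omega))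
  dec y hy := Subtype.ext (by
    rw [amb_hX] at hy ⊢
    refine (c.prim_h (c.kun B.X) y.1).trans (mul_eq_zero_of_left (Finset.sum_eq_zero
      fun m _ => ?_) _)
    rw [show Dn.fib B.X c.J (y.1 * H.map .snd c.h.1 ^ (4 - m)) = 0 from
      congrArg Subtype.val (hy (4 - m)), map_zero, zero_mul, smul_zero])
  gd h _ _ hβ sj kr k z := Subtype.ext (amb_gd c B h hβ sj kr k z.1)

end Vale.Agent.P287T.Rr
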