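import Vale.Agent.P269.Grr.AltA
import Vale.Agent.P287T.Cy.Defs

/-!
# Koszul complexes of graded modules over the polynomial ring in six variables
-/

set_option linter.unusedSectionVars false

namespace Vale.Agent.P287T.Rr

open Module MvPolynomial P269.Grr P287T.Cy P287Z.O P287Z.O.L

/-- forms with values in `M` -/
abbrev Om (M : Type) [AddCommGroup M] [Module ℂ M] (j : ℕ) : Type :=
  (Fin 6 → ℂ) [⋀^Fin j]→ₗ[ℂ] M

/-- the standard basis -/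
def ee (i : Fin 6) : Fin 6 → ℂ := Pi.single i 1

theorem sum_ee (x : Fin 6 → ℂ) : ∑ i, x i • ee i = x := by
  funext k
  simp [ee, Finset.sum_apply, Pi.single_apply]

/-- **dimension shifting** -/
theorem ds {A : ℕ → Type} [∀ j, AddCommGroup (A j)] [∀ j, Module ℂ (A j)]
    (b : ∀ j, A (j + 1) →ₗ[ℂ] A j) (bb : ∀ j a, b j (b (j + 1) a) = 0)
    (P Q : ℕ → ∀ j, Submodule ℂ (A j)) (δ : ℕ → ∀ j, A j →ₗ[ℂ] A j)
    (comm : ∀ k j a, δ k j (b j a) = b j (δ k (j + 1) a))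
    (hP : ∀ k j a, a ∈ P k j ↔ a ∈ Q k j ∧ δ k j a = 0)
    (hδ : ∀ k j a, a ∈ Q k j → δ k j a ∈ P (k + 1) j)
    (hs : ∀ k j a, a ∈ P (k + 1) j → ∃ c ∈ Q k j, δ k j c = a)
    (hb : ∀ k j a, a ∈ Q k (j + 1) → b j a ∈ Q k j)
    (hQ : ∀ k j a, a ∈ Q k (j + 1) → b j a = 0 → ∃ c ∈ Q k (j + 2), b (j + 1) c = a)
    (N : ℕ) (top : ∀ j, N < j → ∀ a : A j, a = 0) (j k : ℕ) (q : A (j + 1)) (hq : q ∈ Q k (j + 1))
    (hz : δ k j (b j q) = 0) : ∃ p ∈ P k (j + 1), b j p = b j q := by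
  induction h : N - j generalizing j k with
  | zero => exact ⟨0, zero_mem _, by rw [top (j + 1) (by omega) q]⟩
  | succ m ih =>
    have h1 := hδ k _ q hq
    obtain ⟨c, hc, e⟩ := hQ (k + 1) j _ ((hP _ _ _).1 h1).1 (by rw [← comm, hz])
    obtain ⟨p, hp, e'⟩ := ih (j + 1) (k + 1) c hc (by rw [e]; exact ((hP _ _ _).1 h1).2) (by omega)
    obtain ⟨q', hq', rfl⟩ := hs k _ p hp
    refine ⟨q - b _ q', (hP _ _ _).2 ⟨sub_mem hq (hb _ _ _ hq'), ?_⟩, ?_⟩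
    · rw [map_sub, comm, e', e, sub_self]
    · rw [map_sub, bb, sub_zero]

variable {M M' N : Type} [AddCommGroup M] [Module ℂ M] [AddCommGroup M'] [Module ℂ M']
  [AddCommGroup N] [Module ℂ N] {j : ℕ}

/-- forms with values in `P` -/
def Og (P : Submodule ℂ M) (j : ℕ) : Submodule ℂ (Om M j) := altA ⊥ P j

theorem mem_Og {P : Submodule ℂ M} {ω : Om M j} : ω ∈ Og P j ↔ ∀ v, ω v ∈ P :=
  ⟨fun h => h.1, fun h => ⟨h, fun _ i hi => ω.map_coord_zero i hi⟩⟩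

theorem fin_Og (P : Submodule ℂ M) [FiniteDimensional ℂ P] (j : ℕ) :
    FiniteDimensional ℂ (Og P j) := finite_altA _ _ _

theorem finrank_Og (P : Submodule ℂ M) [FiniteDimensional ℂ P] (j : ℕ) :
    finrank ℂ (Og P j) = Nat.choose 6 j * finrank ℂ P := by
  rw [Og, finrank_altA, finrank_bot, finrank_fin_fun]

theorem om_top (h : 6 < j) (ω : Om M j) : ω = 0 :=
  eq_zero_of_lt (S := ⊥) (M := ⊤) (altA_bot_top.ge trivial)
    (by rw [finrank_bot, finrank_fin_fun]; omega)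

/-- contraction with a vector -/
def ct (x : Fin 6 → ℂ) (j : ℕ) : Om M (j + 1) →ₗ[ℂ] Om M j :=
  AlternatingMap.curryLeftLinearMap.flip x

theorem ct_apply (x : Fin 6 → ℂ) (ω : Om M (j + 1)) (v : Fin j → Fin 6 → ℂ) :
    ct x j ω v = ω (Matrix.vecCons x v) := rfl

theorem ct_ct (x : Fin 6 → ℂ) (ω : Om M (j + 2)) : ct x j (ct x (j + 1) ω) = 0 :=
  ω.curryLeft_same x

theorem ct_anti (x y : Fin 6 → ℂ) (ω : Om M (j + 2)) :
    ct y j (ct x (j + 1) ω) = -ct x j (ct y (j + 1) ω) := curry_curryA ω x y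

theorem ct_mem {P : Submodule ℂ M} (x : Fin 6 → ℂ) {ω : Om M (j + 1)} (h : ω ∈ Og P (j + 1)) :
    ct x j ω ∈ Og P j := mem_Og.2 fun _ => mem_Og.1 h _

theorem ct_sum (x : Fin 6 → ℂ) (ω : Om M (j + 1)) : ct x j ω = ∑ i, x i • ct (ee i) j ω := by
  conv_lhs => rw [← sum_ee x]
  exact (map_sum ω.curryLeft _ _).trans
    (Finset.sum_congr rfl fun i _ => map_smul ω.curryLeft _ _)

theorem ct_exact {P : Submodule ℂ M} {x : Fin 6 → ℂ} (hx : x ≠ 0) {ω : Om M (j + 1)}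
    (h : ω ∈ Og P (j + 1)) (h0 : ct x j ω = 0) : ∃ μ ∈ Og P (j + 2), ct x (j + 1) μ = ω :=
  exists_curry_eq (S := ⊥) hx (mem_altA_sup.2 ⟨h, h0⟩)

theorem lift_Og (φ : M →ₗ[ℂ] M') {P : Submodule ℂ M} {P' : Submodule ℂ M'}
    (h : ∀ m' ∈ P', ∃ m ∈ P, φ m = m') {ω' : Om M' j} (h' : ω' ∈ Og P' j) :
    ∃ ω ∈ Og P j, φ.compAlternatingMap ω = ω' := by
  let ψ : (P ⊓ P'.comap φ : Submodule ℂ M) →ₗ[ℂ] P' := φ.restrict fun _ hm => hm.2
  obtain ⟨s, hs⟩ := ψ.exists_rightInverse_of_surjective (LinearMap.range_eq_top.2 fun m' => by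
    obtain ⟨m, h1, h2⟩ := h m' m'.2
    exact ⟨⟨m, h1, show φ m ∈ P' from h2 ▸ m'.2⟩, Subtype.ext h2⟩)
  refine ⟨((Submodule.subtype _) ∘ₗ s).compAlternatingMap (ω'.codRestrict P' (mem_Og.1 h')),
    mem_Og.2 fun v => (s _).2.1, AlternatingMap.ext fun v => ?_⟩
  exact congrArg Subtype.val (LinearMap.congr_fun hs ⟨ω' v, mem_Og.1 h' v⟩)

variable [Module S6 M] [IsScalarTower ℂ S6 M] [Module S6 M'] [IsScalarTower ℂ S6 M']

/-- the Koszul differential -/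
noncomputable def del (j : ℕ) : Om M (j + 1) →ₗ[ℂ] Om M j where
  toFun ω := ∑ i, (X i : S6) • ct (ee i) j ω
  map_add' a b := by simp only [map_add, smul_add, Finset.sum_add_distrib]
  map_smul' c a := by
    simp only [map_smul, RingHom.id_apply, Finset.smul_sum, smul_comm c]

theorem del_eq (ω : Om M (j + 1)) : del j ω = ∑ i, (X i : S6) • ct (ee i) j ω := rfl

theorem om_sum {K : Type} (s : Finset K) (f : K → Om M j) (v : Fin j → Fin 6 → ℂ) :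
    (∑ k ∈ s, f k) v = ∑ k ∈ s, f k v :=
  map_sum (⟨⟨fun ω : Om M j => ω v, rfl⟩, fun _ _ => rfl⟩ : Om M j →+ M) f s

theorem del_apply (ω : Om M (j + 1)) (v : Fin j → Fin 6 → ℂ) :
    del j ω v = ∑ i, (X i : S6) • ω (Matrix.vecCons (ee i) v) := om_sum _ _ _

theorem ct_smul (x : Fin 6 → ℂ) (r : S6) (ω : Om M (j + 1)) : ct x j (r • ω) = r • ct x j ω := rfl

theorem ct_del (x : Fin 6 → ℂ) (ω : Om M (j + 2)) :
    ct x j (del (j + 1) ω) = -del j (ct x (j + 1) ω) := by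
  rw [del_eq, del_eq, map_sum, ← Finset.sum_neg_distrib]
  exact Finset.sum_congr rfl fun i _ => by rw [ct_smul, ct_anti, smul_neg]

theorem del_del (ω : Om M (j + 2)) : del j (del (j + 1) ω) = 0 := by
  have h1 : del j (del (j + 1) ω) =
      ∑ i, ∑ k, (X i * X k : S6) • ct (ee i) j (ct (ee k) (j + 1) ω) := by
    rw [del_eq, del_eq]
    simp only [map_sum, Finset.smul_sum, ct_smul, mul_smul]
  have h2 : del j (del (j + 1) ω) = -del j (del (j + 1) ω) := by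
    conv_lhs => rw [h1, Finset.sum_comm]
    rw [h1, ← Finset.sum_neg_distrib]
    refine Finset.sum_congr rfl fun i _ => ?_
    rw [← Finset.sum_neg_distrib]
    exact Finset.sum_congr rfl fun k _ => by rw [ct_anti, smul_neg, mul_comm]
  rw [← one_smul ℂ (del j _), show (1 : ℂ) = 2⁻¹ * 2 by norm_num, mul_smul, two_smul,
    eq_neg_iff_add_eq_zero.1 h2, smul_zero]

/-- composition with a map of modules -/
noncomputable def cm (φ : M →ₗ[S6] M') (j : ℕ) : Om M j →ₗ[ℂ] Om M' j where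
  toFun := (φ.restrictScalars ℂ).compAlternatingMap
  map_add' := LinearMap.compAlternatingMap_add _
  map_smul' c ω := AlternatingMap.ext fun v => (φ.restrictScalars ℂ).map_smul c (ω v)

theorem cm_apply (φ : M →ₗ[S6] M') (ω : Om M j) (v : Fin j → Fin 6 → ℂ) :
    cm φ j ω v = φ (ω v) := rfl

theorem cm_ct (φ : M →ₗ[S6] M') (x : Fin 6 → ℂ) (ω : Om M (j + 1)) :
    cm φ j (ct x j ω) = ct x j (cm φ (j + 1) ω) := rfl

theorem cm_del (φ : M →ₗ[S6] M') (ω : Om M (j + 1)) :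
    cm φ j (del j ω) = del j (cm φ (j + 1) ω) := AlternatingMap.ext fun v => by
  simp only [cm_apply, del_apply, map_sum, map_smul]

theorem cm_mem (φ : M →ₗ[S6] M') {P : Submodule ℂ M} {P' : Submodule ℂ M'}
    (h : ∀ m ∈ P, φ m ∈ P') {ω : Om M j} (hω : ω ∈ Og P j) : cm φ j ω ∈ Og P' j :=
  mem_Og.2 fun v => h _ (mem_Og.1 hω v)

/-- `Q` contains the products of the variables with `P` -/
def Mu (P Q : Submodule ℂ M) : Prop := ∀ i, ∀ m ∈ P, (X i : S6) • m ∈ Q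

theorem Mu.del_mem {P Q : Submodule ℂ M} (h : Mu P Q) {ω : Om M (j + 1)} (hω : ω ∈ Og P (j + 1)) :
    del j ω ∈ Og Q j := mem_Og.2 fun v => by
  rw [del_apply]
  exact sum_mem fun i _ => h i _ (mem_Og.1 hω _)

/-- the Koszul cycles with values in `P` -/
noncomputable def FF (P : Submodule ℂ M) : ∀ j, Submodule ℂ (Om M j)
  | 0 => Og P 0
  | j + 1 => Og P (j + 1) ⊓ LinearMap.ker (del j)

theorem FF_le {P : Submodule ℂ M} : ∀ {j} {ω : Om M j}, ω ∈ FF P j → ω ∈ Og P j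
  | 0, _, h => h
  | _ + 1, _, h => h.1

theorem FF_of {P Q : Submodule ℂ M} : ∀ {j} {ω : Om M j}, ω ∈ FF P j → ω ∈ Og Q j → ω ∈ FF Q j
  | 0, _, _, h => h
  | _ + 1, _, h, h' => ⟨h', h.2⟩

theorem Mu.del_FF {P Q : Submodule ℂ M} (h : Mu P Q) :
    ∀ {j} {ω : Om M (j + 1)}, ω ∈ Og P (j + 1) → del j ω ∈ FF Q j
  | 0, _, hω => h.del_mem hω
  | _ + 1, ω, hω => ⟨h.del_mem hω, del_del ω⟩

theorem ct_FF {P : Submodule ℂ M} (x : Fin 6 → ℂ) :
    ∀ {j} {ω : Om M (j + 1)}, ω ∈ FF P (j + 1) → ct x j ω ∈ FF P j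
  | 0, _, hω => ct_mem x hω.1
  | j + 1, ω, hω => ⟨ct_mem x hω.1, neg_eq_zero.1 ((ct_del x ω).symm.trans
      ((congrArg (ct x j) hω.2).trans (map_zero _)))⟩

theorem cm_FF (φ : M →ₗ[S6] M') {P : Submodule ℂ M} {P' : Submodule ℂ M'}
    (h : ∀ m ∈ P, φ m ∈ P') : ∀ {j} {ω : Om M j}, ω ∈ FF P j → cm φ j ω ∈ FF P' j
  | 0, _, hω => cm_mem φ h hω
  | j + 1, ω, hω => ⟨cm_mem φ h hω.1, (cm_del φ ω).symm.trans
      ((congrArg (cm φ j) hω.2).trans (map_zero _))⟩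

/-- exactness of the Koszul complex -/
def KE (P Q : Submodule ℂ M) (j : ℕ) : Prop := ∀ ω ∈ FF Q j, ∃ η ∈ Og P (j + 1), del j η = ω

/-- cycles of the complex of the contraction with `x`, augmented by `ev` -/
def cx (ev : M →ₗ[ℂ] N) (x : Fin 6 → ℂ) : ∀ j, Om M j → Prop
  | 0, ω => ev (ω 0) = 0
  | j + 1, ω => ct x j ω = 0

/-- exactness of the linear resolution at the point `x` -/
def AE (P : Submodule ℂ M) (ev : M →ₗ[ℂ] N) (x : Fin 6 → ℂ) (j : ℕ) : Prop :=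
  ∀ ω ∈ FF P j, cx ev x j ω → ∃ η ∈ FF P (j + 1), ct x j η = ω

/-- `ev` is an evaluation at `x` -/
def IsEv (ev : M →ₗ[ℂ] N) (x : Fin 6 → ℂ) : Prop := ∀ i m, ev ((X i : S6) • m) = x i • ev m

theorem IsEv.del {ev : M →ₗ[ℂ] N} {x : Fin 6 → ℂ} (h : IsEv ev x) (η : Om M 1) :
    ev (del 0 η 0) = ev (ct x 0 η 0) := by
  rw [del_apply, ct_sum, om_sum, map_sum, map_sum]
  exact Finset.sum_congr rfl fun i _ => (h i _).trans (map_smul ev _ _).symm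

theorem AE.step {P Q : Submodule ℂ M} {ev : M →ₗ[ℂ] N} {x : Fin 6 → ℂ} (hx : x ≠ 0)
    (he : IsEv ev x) (hm : Mu P Q) (hk : KE P Q j) (h : AE P ev x j) : AE Q ev x j := by
  intro ω h1 h2
  obtain ⟨θ, h3, rfl⟩ := hk ω h1
  have h4 : ct x j θ ∈ FF P j ∧ cx ev x j (ct x j θ) := by
    cases j with
    | zero => exact ⟨ct_mem x h3, (he.del θ).symm.trans h2⟩
    | succ j => exact ⟨⟨ct_mem x h3, neg_eq_zero.1 ((ct_del x θ).symm.trans h2)⟩, ct_ct x θ⟩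
  obtain ⟨η, h5, h6⟩ := h _ h4.1 h4.2
  obtain ⟨μ, h7, h8⟩ := ct_exact hx (sub_mem h3 h5.1) (by rw [map_sub, h6, sub_self])
  refine ⟨-del _ μ, neg_mem (hm.del_FF h7), ?_⟩
  rw [map_neg, ct_del, neg_neg, h8, map_sub, h5.2, sub_zero]

section sum

variable {K : Type} [Fintype K] (π : K → M →ₗ[S6] M') (s : K → M' →ₗ[S6] M)

theorem sum_cm {Q : Submodule ℂ M} (h1 : ∀ m ∈ Q, ∑ k, s k (π k m) = m) {ω : Om M j}
    (h : ω ∈ Og Q j) : ∑ k, cm (s k) j (cm (π k) j ω) = ω :=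
  AlternatingMap.ext fun v => (om_sum _ _ v).trans (h1 _ (mem_Og.1 h v))

theorem KE.sum {P Q : Submodule ℂ M} {P' Q' : K → Submodule ℂ M'}
    (hπ : ∀ k, ∀ m ∈ Q, π k m ∈ Q' k) (hs : ∀ k, ∀ m ∈ P' k, s k m ∈ P)
    (h1 : ∀ m ∈ Q, ∑ k, s k (π k m) = m) (h : ∀ k, KE (P' k) (Q' k) j) : KE P Q j := by
  intro ω hω
  choose η h2 h3 using fun k => h k _ (cm_FF (π k) (hπ k) hω)
  refine ⟨∑ k, cm (s k) _ (η k), sum_mem fun k _ => cm_mem _ (hs k) (h2 k), ?_⟩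
  simp only [map_sum, ← cm_del, h3]
  exact sum_cm π s h1 (FF_le hω)

theorem AE.sum {N' : Type} [AddCommGroup N'] [Module ℂ N'] {P : Submodule ℂ M}
    {P' : K → Submodule ℂ M'} {ev : M →ₗ[ℂ] N} {ev' : M' →ₗ[ℂ] N'} {x : Fin 6 → ℂ}
    (hπ : ∀ k, ∀ m ∈ P, π k m ∈ P' k) (hs : ∀ k, ∀ m ∈ P' k, s k m ∈ P)
    (h1 : ∀ m ∈ P, ∑ k, s k (π k m) = m) (he : ∀ k m, ev m = 0 → ev' (π k m) = 0)
    (h : ∀ k, AE (P' k) ev' x j) : AE P ev x j := by
  intro ω hω h0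
  have h4 : ∀ k, cx ev' x j (cm (π k) j ω) := fun k => by
    cases j with
    | zero => exact he k _ h0
    | succ j => exact (cm_ct _ x ω).symm.trans ((congrArg (cm (π k) j) h0).trans (map_zero _))
  choose η h2 h3 using fun k => h k _ (cm_FF (π k) (hπ k) hω) (h4 k)
  refine ⟨∑ k, cm (s k) _ (η k), sum_mem fun k _ => cm_FF _ (hs k) (h2 k), ?_⟩
  simp only [map_sum, ← cm_ct, h3]
  exact sum_cm π s h1 (FF_le hω)

end sum

theorem fin_FF (P : Submodule ℂ M) [FiniteDimensional ℂ P] (j : ℕ) :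
    FiniteDimensional ℂ (FF P j) :=
  have := fin_Og P j
  Submodule.finiteDimensional_of_le fun _ h => FF_le h

theorem finrank_FF_zero (P : Submodule ℂ M) [FiniteDimensional ℂ P] :
    finrank ℂ (FF P 0) = finrank ℂ P :=
  (finrank_Og P 0).trans (by rw [Nat.choose_zero_right, one_mul])

theorem finrank_FF_top (P : Submodule ℂ M) (h : 6 < j) : finrank ℂ (FF P j) = 0 := by
  rw [show FF P j = ⊥ from eq_bot_iff.2 fun ω _ => om_top h ω, finrank_bot]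

theorem KE.map_eq {P Q : Submodule ℂ M} (hm : Mu P Q) (h : KE P Q j) :
    (Og P (j + 1)).map (del j) = FF Q j :=
  le_antisymm (by rintro _ ⟨η, hη, rfl⟩; exact hm.del_FF hη) h

theorem KE.finrank {P Q : Submodule ℂ M} [FiniteDimensional ℂ P] (hm : Mu P Q) (h : KE P Q j) :
    finrank ℂ (FF Q j) + finrank ℂ (FF P (j + 1)) = Nat.choose 6 (j + 1) * finrank ℂ P := by
  have := fin_Og P (j + 1)
  rw [← finrank_Og, ← finrank_map_add (Og P (j + 1)) (del j), h.map_eq hm]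
  rfl

/-- A two-periodic complex of graded modules, exact in the degrees `≥ a₀`. -/
structure PC (C : ℤ → Submodule ℂ M) (δ : ℕ → M →ₗ[S6] M) (a₀ : ℤ) : Prop where
  mu : ∀ a, Mu (C a) (C (a + 2))
  map : ∀ k a, ∀ m ∈ C a, δ k m ∈ C (a + 3)
  dd : ∀ k a, ∀ m ∈ C a, δ (k + 1) (δ k m) = 0
  ex : ∀ k a, a₀ ≤ a → ∀ m ∈ C (a + 3), δ (k + 1) m = 0 → ∃ m' ∈ C a, δ k m' = m
  ke : ∀ a j, a₀ ≤ a → KE (C a) (C (a + 2)) j

/-- the cycles -/
noncomputable def Zy (C : ℤ → Submodule ℂ M) (δ : M →ₗ[S6] M) (a : ℤ) : Submodule ℂ M :=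
  C a ⊓ LinearMap.ker (δ.restrictScalars ℂ)

theorem mem_Og_Zy {C : ℤ → Submodule ℂ M} {δ : M →ₗ[S6] M} {a : ℤ} {ω : Om M j} :
    ω ∈ Og (Zy C δ a) j ↔ ω ∈ Og (C a) j ∧ cm δ j ω = 0 := by
  simp only [mem_Og, AlternatingMap.ext_iff]
  exact forall_and

namespace PC

variable {C : ℤ → Submodule ℂ M} {δ : ℕ → M →ₗ[S6] M} {a₀ : ℤ} (h : PC C δ a₀)
include h

theorem muZ (k : ℕ) (a : ℤ) : Mu (Zy C (δ k) a) (Zy C (δ k) (a + 2)) := fun i m hm =>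
  ⟨h.mu a i m hm.1, ((δ k).map_smul _ m).trans ((congrArg _ hm.2).trans (smul_zero _))⟩

theorem mapZ (k : ℕ) (a : ℤ) : ∀ m ∈ C a, δ k m ∈ Zy C (δ (k + 1)) (a + 3) := fun m hm =>
  ⟨h.map k a m hm, h.dd k a m hm⟩

theorem lift (k : ℕ) {a : ℤ} (ha : a₀ ≤ a) {ω : Om M j} (hω : ω ∈ Og (Zy C (δ (k + 1)) (a + 3)) j) :
    ∃ c ∈ Og (C a) j, cm (δ k) j c = ω :=
  lift_Og ((δ k).restrictScalars ℂ) (P' := Zy C (δ (k + 1)) (a + 3))
    (fun m hm => h.ex k a ha m hm.1 hm.2) hω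

/-- **The Koszul complex of the cycles is exact in high degrees.** -/
theorem keZ (k : ℕ) {a : ℤ} (ha : a₀ + 12 ≤ a) (j : ℕ) :
    KE (Zy C (δ k) a) (Zy C (δ k) (a + 2)) j := by
  intro ω hω
  have h0 := mem_Og_Zy.1 (FF_le hω)
  obtain ⟨q, hq, rfl⟩ := h.ke a j (by omega) ω (FF_of hω h0.1)
  have e : ∀ {l a b} {ω : Om M l} {G : ℤ → Submodule ℂ M}, a = b → ω ∈ Og (G a) l →
      ω ∈ Og (G b) l := fun e h => e ▸ h
  obtain ⟨p, hp, e'⟩ := ds del (fun _ => del_del)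
    (fun l i => Og (Zy C (δ (k + l)) (a + 2 * (j + 1) + 3 * l - 2 * i)) i)
    (fun l i => Og (C (a + 2 * (j + 1) + 3 * l - 2 * i)) i) (fun l => cm (δ (k + l)))
    (fun l i => cm_del _) (fun l i ω => mem_Og_Zy)
    (fun l i ω hω => e (G := Zy C (δ (k + l + 1))) (by push_cast; ring)
      (cm_mem _ (h.mapZ _ _) hω))
    (fun l i ω hω => by
      by_cases hi : 6 < i
      · exact ⟨0, zero_mem _, om_top hi _ |>.trans (om_top hi _).symm⟩
      · exact h.lift (k + l) (by omega) (e (G := Zy C (δ (k + l + 1))) (by push_cast; ring) hω))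
    (fun l i ω hω => e (by push_cast; ring) ((h.mu _).del_mem hω))
    (fun l i ω hω h0 => by
      by_cases hi : 6 < i + 1
      · exact ⟨0, zero_mem _, om_top hi _ |>.trans (om_top hi _).symm⟩
      · exact h.ke _ _ (by push_cast; omega) ω ⟨e (by push_cast; ring) hω, h0⟩)
    6 (fun _ => om_top) j 0 q (e (by push_cast; ring) hq) h0.2
  exact ⟨p, e (G := Zy C (δ k)) (by push_cast; ring) hp, e'⟩

variable {ev : M →ₗ[ℂ] N} {x : Fin 6 → ℂ}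

theorem liftF (k : ℕ) {a : ℤ} (ha : a₀ + 12 ≤ a) {ω : Om M j}
    (hω : ω ∈ FF (Zy C (δ (k + 1)) (a + 3)) j) : ∃ c ∈ FF (C a) j, cm (δ k) j c = ω := by
  obtain ⟨η, h1, rfl⟩ := h.keZ (k + 1) (a := a + 1) (by omega) j ω (by
    rwa [show a + 1 + 2 = a + 3 by ring])
  obtain ⟨c, h2, rfl⟩ := h.lift k (a := a - 2) (by omega) (ω := η) (by
    rwa [show a - 2 + 3 = a + 1 by ring])
  have h3 := (h.mu _).del_FF h2
  rw [sub_add_cancel] at h3
  exact ⟨_, h3, cm_del _ _⟩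

/-- **The linear resolution of the cycles is exact at `x`.** -/
theorem aeZ (hA : ∀ a j, a₀ ≤ a → AE (C a) ev x j) (k : ℕ) {a : ℤ} (ha : a₀ + 12 ≤ a) (j : ℕ) :
    AE (Zy C (δ k) a) ev x j := by
  intro ω hω h1
  have h0 := mem_Og_Zy.1 (FF_le hω)
  obtain ⟨q, hq, rfl⟩ := hA a j (by omega) ω (FF_of hω h0.1) h1
  have e : ∀ {l a b} {ω : Om M l} {G : ℤ → Submodule ℂ M}, a = b → ω ∈ FF (G a) l →
      ω ∈ FF (G b) l := fun e h => e ▸ h
  obtain ⟨p, hp, e'⟩ := ds (ct x) (fun _ => ct_ct x)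
    (fun l i => FF (Zy C (δ (k + l)) (a + 3 * l)) i) (fun l i => FF (C (a + 3 * l)) i)
    (fun l => cm (δ (k + l))) (fun l i => cm_ct _ x)
    (fun l i ω => ⟨fun hω => ⟨FF_of hω (mem_Og_Zy.1 (FF_le hω)).1, (mem_Og_Zy.1 (FF_le hω)).2⟩,
      fun hω => FF_of hω.1 (mem_Og_Zy.2 ⟨FF_le hω.1, hω.2⟩)⟩)
    (fun l i ω hω => e (G := Zy C (δ (k + l + 1))) (by push_cast; ring)
      (cm_FF _ (h.mapZ _ _) hω))
    (fun l i ω hω => h.liftF (k + l) (by omega)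
      (e (G := Zy C (δ (k + l + 1))) (by push_cast; ring) hω))
    (fun l i ω hω => ct_FF x hω) (fun l i ω hω h0 => hA _ _ (by omega) ω hω h0)
    6 (fun _ => om_top) j 0 q (e (by push_cast; ring) hq) h0.2
  exact ⟨p, e (G := Zy C (δ k)) (by push_cast; ring) hp, e'⟩

/-- **The cycles generate the kernel of the differential on the fibre.** -/
theorem surj (he : IsEv ev x) (hA : ∀ a j, a₀ ≤ a → AE (C a) ev x j) (k : ℕ) {a : ℤ}
    (ha : a₀ + 12 ≤ a) {c : M} (hc : c ∈ C a) (h0 : ev (δ k c) = 0) :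
    ∃ z ∈ Zy C (δ k) a, ev z = ev c := by
  obtain ⟨η, h1, h2⟩ := h.aeZ hA (k + 1) (a := a + 3) (by omega) 0
    (AlternatingMap.constOfIsEmpty ℂ _ _ (δ k c)) (mem_Og.2 fun _ => h.mapZ k a c hc) h0
  obtain ⟨θ, h3, rfl⟩ := h.liftF k ha h1
  refine ⟨c - ct x 0 θ 0, ⟨sub_mem hc (mem_Og.1 h3.1 _), ?_⟩, ?_⟩
  · exact ((δ k).map_sub _ _).trans (sub_eq_zero.2 (DFunLike.congr_fun h2 0).symm)
  · rw [map_sub, ← he.del, h3.2, AlternatingMap.zero_apply, map_zero, sub_zero]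

end PC

end Vale.Agent.P287T.Rr
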