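import Vale.Agent.P287T.Rr.Amb
import Vale.Agent.P287T.Rr.Pt

/-!
# The setting over a base: primitive parts, constant families
-/

set_option linter.unusedSectionVars false
set_option linter.style.haveILetI false

namespace Vale.Agent.P287T.Rr

open Set Function Module Matrix P291Z P269 P269.Holo P269.Mono P269.Tq P269.Coh P269.Ch P269.Grr
  P287Q P287Q.Cub P287Q.Hb P287T.Cy P287T.Fa P287T.Dn PowerSeries

variable {W : S6} (c : Cu W) {B : Ch.Sp} (cn : PreconnectedSpace B.T)

theorem ambB_hX : (ambB c B cn).hX = sn B.X c.h := amb_hX c B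

theorem ambB_pb (a : Hev B.X) : (ambB c B cn).pb a = Hev.map .fst a := amb_pb c B a

theorem ambB_fX (y : Hev (B.X × c.Y.X)) : ((ambB c B cn).fX y).1 = Dn.fib B.X c.J y.1 := rfl

theorem ambB_prim (y : Hev (B.X × c.Y.X)) : ((ambB c B cn).prim y).1 =
    y.1 - ∑ m ∈ Finset.range 5, (3 : ℂ)⁻¹ • (H.map .fst
      (Dn.fib B.X c.J (y.1 * H.map .snd c.h.1 ^ (4 - m))) *
        H.map (.snd : C(B.X × c.Y.X, c.Y.X)) c.h.1 ^ m) := by
  rw [Amb.prim, ambB_hX, AddSubgroupClass.coe_sub, AddSubmonoidClass.coe_finsetSum]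
  refine congrArg _ (Finset.sum_congr rfl fun m _ => ?_)
  rw [ambB_pb]
  rfl

theorem ambB_prim_mul (a : Hev B.X) (b : Hev c.Y.X) :
    ((ambB c B cn).prim (Hev.map .fst a * sn B.X b)).1 =
      H.map .fst a.1 * H.map .snd (c.pX b.1) :=
  (ambB_prim c cn _).trans (c.prim_mul (c.kun B.X) a.1 b.1)

theorem ambB_prim_sn (b : Hev c.Y.X) :
    ((ambB c B cn).prim (sn B.X b)).1 = H.map .snd (c.pX b.1) := by
  have := ambB_prim_mul c cn 1 b
  rwa [map_one, one_mul, OneMemClass.coe_one, map_one, one_mul] at this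

theorem Cu.pX_two {b : Hev c.Y.X} (hb : b ∈ Hev.deg c.Y.X 2) : c.pX b.1 = (c.prim b).1 :=
  prX_four c.lf rfl hb

theorem Cu.pX_ne {b : Hev c.Y.X} {k : ℤ} (hb : b ∈ Hev.deg c.Y.X k) (hk : k ≠ 2) : c.pX b.1 = 0 :=
  prX_ne c.lf rfl c.h4 hb (by omega)

theorem primS_pb (V : VB c.Y) : (ambB c B cn).primS (pS .snd V.chc) =
    monomial 2 (sn B.X (c.prim (coeff 2 V.chc))) := by
  ext1 j
  rw [Amb.primS, coeff_mk, coeff_monomial, coeff_map]
  refine Subtype.ext ((ambB_prim_sn c cn _).trans ?_)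
  split_ifs with e
  · rw [e, c.pX_two (chc_deg V 2)]
    rfl
  · rw [c.pX_ne (chc_deg V j) (by omega), map_zero]
    rfl

variable {ι : Type} [Fintype ι] [DecidableEq ι] {p : ι → ℤ} {d : Matrix ι ι S6}

/-- the bundle of a constant family -/
theorem chc_const (hd : IsMF W p d) (h : PjV (ambB c B cn) p (fun _ => 1) fun _ => d) :
    h.vb.chc = pS .snd (c.VE hd).chc := by
  rw [← pr2_map B c.Y]
  exact Iso.chc (A := fun _ => LinearMap.id) ⟨Hom.of_continuous (fun _ _ k => k) continuous_snd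
    fun g _ w _ => (am_smul _ _ g w).trans (am_smul c.χ _ g.2 w).symm, fun _ _ _ k => k,
      fun _ w k => ⟨w, k, rfl⟩⟩

theorem primS_const (hd : IsMF W p d) (h : PjV (ambB c B cn) p (fun _ => 1) fun _ => d) :
    (ambB c B cn).primS h.vb.chc = monomial 2 (sn B.X (c.nE hd)) := by
  rw [chc_const c cn hd h]
  exact primS_pb c cn _

theorem du_monomial {R : Type} [CommRing R] (a : R) : du (monomial 2 a) = monomial 2 a := by
  ext1 j
  rw [coeff_du, coeff_monomial]
  split_ifs with e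
  · rw [e, neg_one_sq, one_mul]
  · exact mul_zero _

theorem fS_monomial (a b : Hev c.Y.X) : coeff 0 ((ambB c B cn).fS
    (du (monomial 2 (sn B.X a)) * monomial 2 (sn B.X b))) = algebraMap ℂ _ (c.J (a * b).1) := by
  rw [du_monomial, monomial_mul_monomial, Amb.fS, coeff_mk, coeff_monomial_same, ← map_mul]
  exact Subtype.ext ((c.kun B.X).fib_snd _)

theorem stPt : StPt := fun c =>
  haveI : ConnectedSpace (Sp.triv Unit).T := inferInstanceAs (ConnectedSpace Unit)
  ⟨ambB c (.triv Unit) inferInstance, this, fun hd he h h' => by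
    rw [primS_const c _ hd h, primS_const c _ he h', fS_monomial]⟩

end Vale.Agent.P287T.Rr
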