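import Vale.Agent.P269.Grr.Alg

/-!
# Elementary modifications of bundles: the bundle on the deformation space
-/

set_option linter.unusedSectionVars false

namespace Vale.Agent.P287T.Dn

open Set Function Module P291Z P269 P269.Ch P269.Grr PowerSeries

variable {Y D : Ch.Sp}

/-- `φ : A → K`, `ψ : K → A ⊗ χ` factor the section `s` of `χ`, and are exact on its zeros. -/
structure EM (χ : Y.G →ₜ* ℂˣ) (s : Y.T → ℂ) (A K : VB Y) (φ : Y.T → A.W →ₗ[ℂ] K.W)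
    (ψ : Y.T → K.W →ₗ[ℂ] A.W) : Prop where
  hφ : Hom (Mor.id Y) A K φ
  hψ : Hom (Mor.id Y) K (A.tw (Mor.id Y) χ) ψ
  ψφ : ∀ t w, w ∈ A.F t → ψ t (φ t w) = s t • w
  φψ : ∀ t w, w ∈ K.F t → φ t (ψ t w) = s t • w
  exK : ∀ t w, s t = 0 → w ∈ K.F t → ψ t w = 0 → ∃ w' ∈ A.F t, φ t w' = w
  exA : ∀ t w, s t = 0 → w ∈ A.F t → φ t w = 0 → ∃ w' ∈ K.F t, ψ t w' = w
  rk : A.r = K.r

/-- the coordinates of the deformation space -/
structure DS (χ : Y.G →ₜ* ℂˣ) (s : Y.T → ℂ) (a b : Y.G →ₜ* ℂˣ) (t e u v : Y.T → ℂ) : Prop where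
  ct : Continuous t
  ce : Continuous e
  cu : Continuous u
  cv : Continuous v
  et : ∀ (g : Y.G) p, t (g • p) = b g * a g * t p
  ee : ∀ (g : Y.G) p, e (g • p) = b g * e p
  eu : ∀ (g : Y.G) p, u (g • p) = a g * u p
  ev : ∀ (g : Y.G) p, v (g • p) = a g * χ g * v p
  eq : ∀ p, s p * t p = e p * v p
  uv : ∀ p, u p = 0 → v p ≠ 0
  te : ∀ p, t p = 0 → e p ≠ 0

variable {χ a b : Y.G →ₜ* ℂˣ} {s t e u v : Y.T → ℂ} {A K : VB Y} {φ : Y.T → A.W →ₗ[ℂ] K.W}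
  {ψ : Y.T → K.W →ₗ[ℂ] A.W}

theorem EM.pb (h : EM χ s A K φ ψ) (m : Mor D Y) : EM (m.chr χ) (fun p => s (m.f p)) (A.pb m)
    (K.pb m) (fun p => φ (m.f p)) fun p => ψ (m.f p) :=
  have k := h.hψ.pb' m
  ⟨h.hφ.pb' m, ⟨k.mem, k.cont, k.eqv⟩, fun _ => h.ψφ _, fun _ => h.φψ _, fun _ => h.exK _,
    fun _ => h.exA _, h.rk⟩

theorem EM.eψ (h : EM χ s A K φ ψ) (g : Y.G) (p : Y.T) {w : K.W} (hw : w ∈ K.F p) :
    ψ (g • p) (g • w) = (χ g : ℂ) • g • ψ p w := h.hψ.eqv g p w hw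

theorem EM.mψ (h : EM χ s A K φ ψ) (p : Y.T) {w : K.W} (hw : w ∈ K.F p) : ψ p w ∈ A.F p :=
  h.hψ.mem p w hw

theorem EM.mφ (h : EM χ s A K φ ψ) (p : Y.T) {w : A.W} (hw : w ∈ A.F p) : φ p w ∈ K.F p :=
  h.hφ.mem p w hw

variable (φ ψ t e u v) in
/-- the fibres of the bundle on the deformation space -/
def VF (p : Y.T) : Submodule ℂ (A.W × K.W) where
  carrier := {x | (x.1 ∈ A.F p ∧ x.2 ∈ K.F p) ∧ t p • φ p x.1 = (e p * u p) • x.2 ∧
    u p • ψ p x.2 = v p • x.1}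
  add_mem' hx hy := ⟨⟨add_mem hx.1.1 hy.1.1, add_mem hx.1.2 hy.1.2⟩,
    by rw [Prod.fst_add, Prod.snd_add, map_add, smul_add, smul_add, hx.2.1, hy.2.1],
    by rw [Prod.fst_add, Prod.snd_add, map_add, smul_add, smul_add, hx.2.2, hy.2.2]⟩
  zero_mem' := ⟨⟨zero_mem _, zero_mem _⟩, by simp, by simp⟩
  smul_mem' c x hx := ⟨⟨Submodule.smul_mem _ _ hx.1.1, Submodule.smul_mem _ _ hx.1.2⟩,
    by rw [Prod.smul_fst, Prod.smul_snd, map_smul, smul_comm, hx.2.1, smul_comm],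
    by rw [Prod.smul_fst, Prod.smul_snd, map_smul, smul_comm, hx.2.2, smul_comm]⟩

theorem mem_VF {p : Y.T} {x : A.W × K.W} : x ∈ VF t e u v φ ψ p ↔ (x.1 ∈ A.F p ∧ x.2 ∈ K.F p) ∧
    t p • φ p x.1 = (e p * u p) • x.2 ∧ u p • ψ p x.2 = v p • x.1 := Iff.rfl

theorem DS.tv (d : DS χ s a b t e u v) (p : Y.T) (h : v p ≠ 0) : t p ≠ 0 := fun k =>
  mul_ne_zero (d.te p k) h (by rw [← d.eq, k, mul_zero])

theorem EM.map_φ (h : EM χ s A K φ ψ) {p : Y.T} (hs : s p = 0) :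
    (A.F p).map (φ p) = K.F p ⊓ LinearMap.ker (ψ p) :=
  le_antisymm (by
    rintro _ ⟨w, hw, rfl⟩
    exact ⟨h.mφ p hw, (h.ψφ p w hw).trans (by rw [hs, zero_smul])⟩)
    fun w hw => h.exK p w hs hw.1 hw.2

theorem EM.map_ψ (h : EM χ s A K φ ψ) {p : Y.T} (hs : s p = 0) :
    (K.F p).map (ψ p) = A.F p ⊓ LinearMap.ker (φ p) :=
  le_antisymm (by
    rintro _ ⟨w, hw, rfl⟩
    exact ⟨h.mψ p hw, (h.φψ p w hw).trans (by rw [hs, zero_smul])⟩)
    fun w hw => h.exA p w hs hw.1 hw.2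

variable (h : EM χ s A K φ ψ) (d : DS χ s a b t e u v)
include h d

theorem VF_rank (p : Y.T) : finrank ℂ (VF t e u v φ ψ p) = A.r := by
  by_cases hv : v p = 0
  · have hu : u p ≠ 0 := fun k => d.uv p k hv
    by_cases he : e p = 0
    · have ht : t p ≠ 0 := fun k => d.te p k he
      have hs : s p = 0 := (mul_eq_zero.1 ((d.eq p).trans (by rw [he, zero_mul]))).resolve_right ht
      have e1 : VF t e u v φ ψ p =
          (A.F p ⊓ LinearMap.ker (φ p)).prod (K.F p ⊓ LinearMap.ker (ψ p)) := by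
        ext x
        simp only [mem_VF, he, hv, zero_mul, zero_smul, smul_eq_zero, ht, hu, false_or,
          Submodule.mem_prod, Submodule.mem_inf, LinearMap.mem_ker]
        tauto
      rw [e1, VB.finrank_prod, ← h.map_φ hs, add_comm, finrank_inf_ker, A.rank]
    · have e1 : VF t e u v φ ψ p =
          (A.F p).map (LinearMap.id.prod ((t p / (e p * u p)) • φ p)) := by
        refine le_antisymm (fun x hx => ?_) ?_
        · refine ⟨x.1, hx.1.1, Prod.ext rfl ?_⟩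
          show (t p / (e p * u p)) • φ p x.1 = x.2
          rw [div_eq_inv_mul, mul_smul, hx.2.1, inv_smul_smul₀ (mul_ne_zero he hu)]
        · rintro _ ⟨w, hw, rfl⟩
          refine ⟨⟨hw, Submodule.smul_mem _ _ (h.mφ p hw)⟩, ?_, ?_⟩
          · show t p • φ p w = (e p * u p) • (t p / (e p * u p)) • φ p w
            rw [smul_smul, mul_div_cancel₀ _ (mul_ne_zero he hu)]
          · show u p • ψ p ((t p / (e p * u p)) • φ p w) = v p • w
            rw [map_smul, h.ψφ p w hw, smul_smul, smul_smul]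
            congr 1
            have := d.eq p
            field_simp
            linear_combination this
      rw [e1, finrank_map_of_inj fun w _ k => congrArg Prod.fst k, A.rank]
  · have e1 : VF t e u v φ ψ p = (K.F p).map (((u p / v p) • ψ p).prod LinearMap.id) := by
      refine le_antisymm (fun x hx => ?_) ?_
      · refine ⟨x.2, hx.1.2, Prod.ext ?_ rfl⟩
        show (u p / v p) • ψ p x.2 = x.1
        rw [div_eq_inv_mul, mul_smul, hx.2.2, inv_smul_smul₀ hv]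
      · rintro _ ⟨w, hw, rfl⟩
        refine ⟨⟨Submodule.smul_mem _ _ (h.mψ p hw), hw⟩, ?_, ?_⟩
        · show t p • φ p ((u p / v p) • ψ p w) = (e p * u p) • w
          rw [map_smul, h.φψ p w hw, smul_smul, smul_smul]
          congr 1
          have := d.eq p
          field_simp
          linear_combination u p * this
        · show u p • ψ p w = v p • (u p / v p) • ψ p w
          rw [smul_smul, mul_div_cancel₀ _ hv]
    rw [e1, finrank_map_of_inj fun w _ k => congrArg Prod.snd k, K.rank, h.rk]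

theorem VF_closed : IsClosed {x : Y.T × A.W × K.W | x.2 ∈ VF t e u v φ ψ x.1} := by
  have c0 : Continuous fun x : (A.sum K).V => x.1.1 := by fun_prop
  have c1 : Continuous fun x : (A.sum K).V => x.1.2.1 := by fun_prop
  have c2 : Continuous fun x : (A.sum K).V => x.1.2.2 := by fun_prop
  convert (A.sum K).closed.isClosedEmbedding_subtypeVal.isClosedMap _
    ((isClosed_eq ((d.ct.comp c0).smul (h.hφ.continuous c0 c1 fun x => x.2.1))
      (((d.ce.comp c0).mul (d.cu.comp c0)).smul c2)).inter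
      (isClosed_eq (g := fun x : (A.sum K).V => v x.1.1 • x.1.2.1)
        ((d.cu.comp c0).smul (h.hψ.continuous c0 c2 fun x => x.2.2)) ((d.cv.comp c0).smul c1)))
    using 1
  ext x
  exact ⟨fun hx => ⟨⟨x, hx.1⟩, hx.2, rfl⟩, by rintro ⟨y, hy, rfl⟩; exact ⟨y.2, hy⟩⟩

theorem VF_inv (g : Y.G) (p : Y.T) (x : A.W × K.W) (hx : x ∈ VF t e u v φ ψ p) :
    g • x ∈ VF t e u v φ ψ (g • p) := by
  refine ⟨⟨A.inv g _ _ hx.1.1, K.inv g _ _ hx.1.2⟩, ?_, ?_⟩
  · have := h.hφ.eqv g p _ hx.1.1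
    change φ (g • p) (g • x.1) = g • φ p x.1 at this
    rw [Prod.smul_fst, Prod.smul_snd, this, d.et, d.ee, d.eu, mul_mul_mul_comm, mul_smul,
      mul_smul (_ * _), ← smul_comm g (t p), ← smul_comm g (e p * u p), hx.2.1]
  · rw [Prod.smul_fst, Prod.smul_snd, h.eψ g p hx.1.2, d.eu, d.ev, smul_smul, mul_right_comm,
      mul_smul, mul_smul (_ * _), ← smul_comm g (u p), ← smul_comm g (v p), hx.2.2]

/-- the bundle on the deformation space -/
@[reducible] noncomputable def VV : VB Y :=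
  (A.sum K).sub (VF t e u v φ ψ) A.r (VF_closed h d) (VF_rank h d) (VF_inv h d)

theorem chc_t (m : Mor D Y) (hm : ∀ p, t (m.f p) = 0) :
    pS m.map (VV h d).chc = pS m.map A.chc := by
  rw [← chc_pb]
  refine Iso.chc (A := fun _ => LinearMap.fst ℂ A.W K.W) (Iso.of_inj (Hom.of_continuous
    (fun _ _ k => k.1.1) (continuous_fst.comp continuous_snd) fun _ _ _ _ => rfl)
    (fun p w k k' => Prod.ext k' ?_) rfl)
  have k1 := k.2.1
  rw [hm, zero_smul, eq_comm, smul_eq_zero] at k1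
  exact k1.resolve_left (mul_ne_zero (d.te _ (hm p)) fun k2 => d.tv _ (d.uv _ k2) (hm p))

theorem chc_u (m : Mor D Y) (hm : ∀ p, u (m.f p) = 0) :
    pS m.map (VV h d).chc = pS m.map K.chc := by
  rw [← chc_pb]
  refine Iso.chc (A := fun _ => LinearMap.snd ℂ A.W K.W) (Iso.of_inj (Hom.of_continuous
    (fun _ _ k => k.1.2) (continuous_snd.comp continuous_snd) fun _ _ _ _ => rfl)
    (fun p w k k' => Prod.ext ?_ k') h.rk)
  have k1 := k.2.2
  rw [hm, zero_smul, eq_comm, smul_eq_zero] at k1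
  exact k1.resolve_left (d.uv _ (hm p))

omit d in
/-- the kernel of `φ` and the cokernel -/
theorem EM.exists_ker (hs : ∀ p, s p = 0) {B : VB Y} {β : Y.T → K.W →ₗ[ℂ] B.W}
    (hβ : Hom (Mor.id Y) K B β) (sj : ∀ p w, w ∈ B.F p → ∃ w' ∈ K.F p, β p w' = w)
    (kr : ∀ p w, w ∈ K.F p → (β p w = 0 ↔ ψ p w = 0)) :
    ∃ hk : ∀ p, finrank ℂ (A.F p ⊓ LinearMap.ker (φ p) : Submodule ℂ A.W) = B.r,
      B.chc = ex (c1 χ) * (h.hφ.ker B.r hk).chc := by
  have e1 : ∀ p, K.F p ⊓ LinearMap.ker (β p) = K.F p ⊓ LinearMap.ker (ψ p) := fun p =>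
    Submodule.ext fun w => and_congr_right (kr p w)
  have e2 : ∀ p, B.r + finrank ℂ (K.F p ⊓ LinearMap.ker (β p) : Submodule ℂ K.W) = K.r := fun p => by
    rw [← K.rank p, ← finrank_inf_ker (K.F p) (β p), show (K.F p).map (β p) = B.F p from
      le_antisymm (by rintro _ ⟨w, hw, rfl⟩; exact hβ.mem p w hw) (sj p), B.rank]
  have hk : ∀ p, finrank ℂ (A.F p ⊓ LinearMap.ker (φ p) : Submodule ℂ A.W) = B.r := fun p => by
    have := finrank_inf_ker (K.F p) (ψ p)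
    have k := e2 p
    rw [h.map_ψ (hs p), K.rank, ← e1] at this
    omega
  have hR : ∀ p, finrank ℂ (K.F p ⊓ LinearMap.ker (β p) : Submodule ℂ K.W) = K.r - B.r :=
    fun p => by have := e2 p; omega
  have i1 : Hom (Mor.id Y) (hβ.ker _ hR) K fun _ => LinearMap.id :=
    Hom.of_continuous (fun _ _ k => k.1) continuous_snd fun _ _ _ _ => rfl
  have x1 : Exact (hβ.ker _ hR) K B (fun _ => LinearMap.id) β :=
    ⟨i1, hβ, fun _ _ _ k => k, sj, fun p w hw =>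
      ⟨fun k => ⟨w, ⟨hw, k⟩, rfl⟩, by rintro ⟨w, k, rfl⟩; exact k.2⟩⟩
  have x2 : Exact (hβ.ker _ hR) K ((h.hφ.ker B.r hk).tw (Mor.id Y) χ) (fun _ => LinearMap.id) ψ :=
    ⟨i1, ⟨fun p w hw => (h.map_ψ (hs p)).le ⟨w, hw, rfl⟩, h.hψ.cont, h.hψ.eqv⟩, fun _ _ _ k => k,
      fun p w hw => (h.map_ψ (hs p)).ge hw, fun p w hw =>
      ⟨fun k => ⟨w, ⟨hw, (kr p w hw).2 k⟩, rfl⟩, by
        rintro ⟨w, k, rfl⟩; exact (kr p w k.1).1 k.2⟩⟩
  refine ⟨hk, add_left_cancel ((Exact.chc x1).symm.trans ((Exact.chc x2).trans ?_))⟩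
  rw [chc_tw, pS_id]

theorem chc_e0 (he : ∀ p, e p = 0) {B : VB Y} {β : Y.T → K.W →ₗ[ℂ] B.W}
    (hβ : Hom (Mor.id Y) K B β) (sj : ∀ p w, w ∈ B.F p → ∃ w' ∈ K.F p, β p w' = w)
    (kr : ∀ p w, w ∈ K.F p → (β p w = 0 ↔ ψ p w = 0)) :
    ex (c1 χ) * (K.chc - (VV h d).chc) = B.chc * (ex (c1 a + c1 χ) - 1) := by
  have ht : ∀ p, t p ≠ 0 := fun p k => d.te p k (he p)
  have hs : ∀ p, s p = 0 := fun p =>
    (mul_eq_zero.1 ((d.eq p).trans (by rw [he, zero_mul]))).resolve_right (ht p)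
  obtain ⟨hk, e1⟩ := h.exists_ker hs hβ sj kr
  have k0 : ∀ p x, x ∈ VF t e u v φ ψ p → φ p x.1 = 0 := fun p x hx => by
    have k1 := hx.2.1
    rw [he, zero_mul, zero_smul, smul_eq_zero] at k1
    exact k1.resolve_left (ht p)
  have c0 : Continuous fun x : ((h.hφ.ker B.r hk).sum K).V => x.1.1 := by fun_prop
  have c1' : Continuous fun x : ((h.hφ.ker B.r hk).sum K).V => x.1.2.1 := by fun_prop
  have c2 : Continuous fun x : ((h.hφ.ker B.r hk).sum K).V => x.1.2.2 := by fun_prop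
  have x3 : Exact (VV h d) ((h.hφ.ker B.r hk).sum K) ((h.hφ.ker B.r hk).tw (Mor.id Y) (a * χ))
      (fun _ => LinearMap.id)
      fun p => u p • ψ p ∘ₗ LinearMap.snd ℂ A.W K.W - v p • LinearMap.fst ℂ A.W K.W := by
    refine ⟨Hom.of_continuous (fun p x k => ⟨⟨k.1.1, k0 p x k⟩, k.1.2⟩) continuous_snd
      fun _ _ _ _ => rfl, ⟨fun p x k => sub_mem (Submodule.smul_mem _ _
        ((h.map_ψ (hs p)).le ⟨_, k.2, rfl⟩)) (Submodule.smul_mem _ _ k.1),
      Continuous.sub (G := A.W) ((d.cu.comp c0).smul (h.hψ.continuous c0 c2 fun x => x.2.2))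
        ((d.cv.comp c0).smul c1'), fun g p (x : A.W × K.W) k => ?_⟩, fun _ _ _ k => k,
      fun p (w : A.W) hw => ?_, fun p (x : A.W × K.W) k => ⟨fun k' => ⟨x, ⟨⟨k.1.1, k.2⟩, ?_,
        sub_eq_zero.1 k'⟩, rfl⟩, by rintro ⟨x, k', rfl⟩; exact sub_eq_zero.2 k'.2.2⟩⟩
    · show u (g • p) • ψ (g • p) (g • x.2) - v (g • p) • g • x.1 =
        ((a g * χ g : ℂˣ) : ℂ) • g • (u p • ψ p x.2 - v p • x.1)
      rw [h.eψ g p k.2, d.eu, d.ev, smul_smul, mul_right_comm, mul_smul, mul_smul (_ * _),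
        ← smul_comm g (u p), ← smul_comm g (v p), smul_sub, smul_sub, Units.val_mul]
    · by_cases hv : v p = 0
      · obtain ⟨w', k1, rfl⟩ := (h.map_ψ (hs p)).ge hw
        refine ⟨(0, (u p)⁻¹ • w'), ⟨zero_mem _, Submodule.smul_mem _ _ k1⟩, ?_⟩
        show u p • ψ p ((u p)⁻¹ • w') - v p • (0 : A.W) = ψ p w'
        rw [map_smul, smul_inv_smul₀ fun k => d.uv p k hv, smul_zero, sub_zero]
      · refine ⟨(-((v p)⁻¹ • w), 0), ⟨neg_mem (Submodule.smul_mem _ _ hw), zero_mem _⟩, ?_⟩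
        show u p • ψ p 0 - v p • -((v p)⁻¹ • w) = w
        rw [map_zero, smul_zero, smul_neg, smul_inv_smul₀ hv, zero_sub, neg_neg]
    · rw [he, zero_mul, zero_smul, show φ p x.1 = 0 from k.1.2, smul_zero]
  have e2 := Exact.chc x3
  rw [chc_sum, chc_tw, pS_id, c1_mul] at e2
  rw [e1]
  linear_combination ex (c1 χ) * e2

theorem chc_e (m : Mor D Y) (hm : ∀ p, e (m.f p) = 0) {B : VB D} {β : D.T → K.W →ₗ[ℂ] B.W}
    (hβ : Hom (Mor.id D) (K.pb m) B β) (sj : ∀ p w, w ∈ B.F p → ∃ w' ∈ K.F (m.f p), β p w' = w)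
    (kr : ∀ p w, w ∈ K.F (m.f p) → (β p w = 0 ↔ ψ (m.f p) w = 0)) :
    pS m.map (ex (c1 χ) * (K.chc - (VV h d).chc)) = B.chc * pS m.map (ex (c1 a + c1 χ) - 1) := by
  have d' : DS (m.chr χ) (fun p => s (m.f p)) (m.chr a) (m.chr b) (fun p => t (m.f p))
      (fun p => e (m.f p)) (fun p => u (m.f p)) fun p => v (m.f p) :=
    ⟨d.ct.comp m.cf, d.ce.comp m.cf, d.cu.comp m.cf, d.cv.comp m.cf,
      fun g p => m.eqv g p ▸ d.et _ _, fun g p => m.eqv g p ▸ d.ee _ _,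
      fun g p => m.eqv g p ▸ d.eu _ _, fun g p => m.eqv g p ▸ d.ev _ _, fun _ => d.eq _,
      fun _ => d.uv _, fun _ => d.te _⟩
  have k := chc_e0 (h.pb m) d' hm hβ sj kr
  have e1 : (VV (h.pb m) d').chc = pS m.map (VV h d).chc :=
    Iso.chc (A := fun _ => LinearMap.id) ⟨Hom.of_continuous (fun _ _ k => k) continuous_snd
      fun _ _ _ _ => rfl, fun _ _ _ k => k, fun _ w k => ⟨w, k, rfl⟩⟩
  rw [e1, chc_pb] at k
  rw [map_mul, map_sub, map_sub, map_one, pS_ex, pS_ex, map_add, map_c1, map_c1, k]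

end Vale.Agent.P287T.Dn
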