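import Vale.Agent.P287T.Rr.Geo0

/-!
# The fibres of the complex of maps between two matrix factorizations: the algebra
-/

set_option linter.unusedSectionVars false

namespace Vale.Agent.P287T.Rr.G2

open Matrix

variable {ι κ : Type} [Fintype ι] [Fintype κ]

/-- the relations in a fibre: `σ` is the projector on the odd generators -/
structure Fb (s : ℂ) (σ e D H : Matrix ι ι ℂ) : Prop where
  σσ : σ * σ = σ
  ee : e * e = e
  σe : σ * e = e * σ
  σD : σ * D = D - D * σ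
  σH : σ * H = H - H * σ
  eD : e * D = D
  De : D * e = D
  eH : e * H = H
  He : H * e = H
  DD : D * D = s • e
  DH : D * H = e - H * D

/-- maps from the odd generators to the even generators -/
def Ao (σ e : Matrix ι ι ℂ) (τ f : Matrix κ κ ℂ) : Submodule ℂ (Matrix κ ι ℂ) where
  carrier := {a | a * σ = a ∧ τ * a = 0 ∧ f * a = a ∧ a * e = a}
  zero_mem' := ⟨Matrix.zero_mul _, Matrix.mul_zero _, Matrix.mul_zero _, Matrix.zero_mul _⟩
  add_mem' h k := ⟨by rw [Matrix.add_mul, h.1, k.1], by rw [Matrix.mul_add, h.2.1, k.2.1, add_zero],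
    by rw [Matrix.mul_add, h.2.2.1, k.2.2.1], by rw [Matrix.add_mul, h.2.2.2, k.2.2.2]⟩
  smul_mem' c _ h := ⟨by rw [Matrix.smul_mul, h.1], by rw [Matrix.mul_smul, h.2.1, smul_zero],
    by rw [Matrix.mul_smul, h.2.2.1], by rw [Matrix.smul_mul, h.2.2.2]⟩

/-- those which are killed by the differentials -/
def Do (σ e D : Matrix ι ι ℂ) (τ f D' : Matrix κ κ ℂ) : Submodule ℂ (Matrix κ ι ℂ) where
  carrier := {a | a ∈ Ao σ e τ f ∧ D' * a = 0 ∧ a * D = 0}
  zero_mem' := ⟨zero_mem _, Matrix.mul_zero _, Matrix.zero_mul _⟩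
  add_mem' h k := ⟨add_mem h.1 k.1, by rw [Matrix.mul_add, h.2.1, k.2.1, add_zero],
    by rw [Matrix.add_mul, h.2.2, k.2.2, add_zero]⟩
  smul_mem' c _ h := ⟨Submodule.smul_mem _ c h.1, by rw [Matrix.mul_smul, h.2.1, smul_zero],
    by rw [Matrix.smul_mul, h.2.2, smul_zero]⟩

/-- closed even maps -/
structure Zo (σ e D : Matrix ι ι ℂ) (τ f D' : Matrix κ κ ℂ) (g : Matrix κ ι ℂ) : Prop where
  ev : τ * g = g * σ
  fg : f * g = g
  ge : g * e = g
  cl : D' * g = g * D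

variable {s : ℂ} {σ e D H : Matrix ι ι ℂ} {τ f D' H' : Matrix κ κ ℂ} {a g : Matrix κ ι ℂ}

theorem Fb.σDσ (E : Fb s σ e D H) : σ * (D * σ) = 0 := by
  rw [← Matrix.mul_assoc, E.σD, Matrix.sub_mul, Matrix.mul_assoc, E.σσ, sub_self]

theorem Fb.σHσ (E : Fb s σ e D H) : σ * (H * σ) = 0 := by
  rw [← Matrix.mul_assoc, E.σH, Matrix.sub_mul, Matrix.mul_assoc, E.σσ, sub_self]

theorem Fb.Dσ (E : Fb s σ e D H) : D * σ = D - σ * D := by rw [E.σD, sub_sub_cancel]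

theorem Fb.Hσ (E : Fb s σ e D H) : H * σ = H - σ * H := by rw [E.σH, sub_sub_cancel]

theorem Fb.HD (E : Fb s σ e D H) : H * D = e - D * H := by rw [E.DH, sub_sub_cancel]

theorem Fb.σeσ (E : Fb s σ e D H) : σ * (e * σ) = σ * e := by
  rw [← E.σe, ← Matrix.mul_assoc, E.σσ]

variable (E : Fb s σ e D H) (F : Fb s τ f D' H')
include E F

theorem dl_mem (ho : a * σ = a - τ * a) (hf : f * a = a) (he : a * e = a) :
    Zo σ e D τ f D' (D' * a + a * D) := by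
  refine ⟨?_, ?_, ?_, ?_⟩
  · rw [Matrix.mul_add, Matrix.add_mul, ← Matrix.mul_assoc τ D', F.σD, Matrix.mul_assoc D' a, ho,
      Matrix.mul_assoc a, E.Dσ, Matrix.mul_sub a, ← Matrix.mul_assoc a σ, ho, Matrix.sub_mul,
      Matrix.sub_mul, sub_sub_cancel, Matrix.mul_sub, Matrix.mul_assoc, Matrix.mul_assoc]
  · rw [Matrix.mul_add, ← Matrix.mul_assoc, ← Matrix.mul_assoc, F.eD, hf]
  · rw [Matrix.add_mul, Matrix.mul_assoc, Matrix.mul_assoc, E.De, he]
  · rw [Matrix.mul_add, Matrix.add_mul, ← Matrix.mul_assoc D' D', Matrix.mul_assoc a D, F.DD, E.DD,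
      Matrix.smul_mul, Matrix.mul_smul, hf, he, add_comm, Matrix.mul_assoc]

theorem phi_mem (h : a ∈ Ao σ e τ f) : Zo σ e D τ f D' (D' * a + a * D) :=
  dl_mem E F (by rw [h.1, h.2.1, sub_zero]) h.2.2.1 h.2.2.2

omit F in
theorem psi_mem (h : Zo σ e D τ f D' g) : g * (D * σ) ∈ Ao σ e τ f :=
  ⟨by rw [Matrix.mul_assoc, Matrix.mul_assoc, E.σσ],
    by rw [← Matrix.mul_assoc, h.ev, Matrix.mul_assoc, E.σDσ, Matrix.mul_zero],
    by rw [← Matrix.mul_assoc, h.fg],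
    by rw [Matrix.mul_assoc, Matrix.mul_assoc, E.σe, ← Matrix.mul_assoc D, E.De]⟩

omit F in
theorem ao_Dσ (h : a ∈ Ao σ e τ f) : a * (D * σ) = 0 := by
  rw [← h.1, Matrix.mul_assoc, E.σDσ, Matrix.mul_zero]

omit F in
theorem psi_phi (h : a ∈ Ao σ e τ f) : (D' * a + a * D) * (D * σ) = s • a := by
  rw [Matrix.add_mul, Matrix.mul_assoc, ao_Dσ E h, Matrix.mul_zero, zero_add, Matrix.mul_assoc,
    ← Matrix.mul_assoc D, E.DD, Matrix.smul_mul, Matrix.mul_smul, ← Matrix.mul_assoc, h.2.2.2, h.1]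

omit F in
theorem phi_psi (h : Zo σ e D τ f D' g) : D' * (g * (D * σ)) + g * (D * σ) * D = s • g := by
  rw [← Matrix.mul_assoc, h.cl, Matrix.mul_assoc g, Matrix.mul_assoc g, ← Matrix.mul_add,
    Matrix.mul_assoc D σ, E.σD, ← Matrix.mul_add, add_sub_cancel, E.DD, Matrix.mul_smul, h.ge]

theorem ao_split (h : a ∈ Ao σ e τ f) (k : D' * a + a * D = 0) : a ∈ Do σ e D τ f D' := by
  have h1 : D' * a = 0 := by
    have := congrArg (· * σ) k
    simp only [Matrix.add_mul, Matrix.mul_assoc, h.1, ao_Dσ E h, add_zero, Matrix.zero_mul] at this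
    exact this
  exact ⟨h, h1, by rwa [h1, zero_add] at k⟩

theorem do_ex (h : a ∈ Do σ e D τ f D') : Zo σ e D τ f D' (a * H + H' * a) ∧
    (a * H + H' * a) * (D * σ) = a := by
  obtain ⟨⟨h1, h2, h3, h4⟩, h5, h6⟩ := h
  have h7 : (a * H + H' * a) * D = a := by
    rw [Matrix.add_mul, Matrix.mul_assoc, Matrix.mul_assoc, h6, Matrix.mul_zero, add_zero, E.HD,
      Matrix.mul_sub, h4, ← Matrix.mul_assoc, h6, Matrix.zero_mul, sub_zero]
  refine ⟨⟨?_, ?_, ?_, ?_⟩, by rw [← Matrix.mul_assoc, h7, h1]⟩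
  · rw [Matrix.mul_add, Matrix.add_mul, ← Matrix.mul_assoc τ a, h2, Matrix.zero_mul,
      ← Matrix.mul_assoc τ, F.σH, Matrix.sub_mul, Matrix.mul_assoc H' τ, h2, Matrix.mul_zero,
      sub_zero, Matrix.mul_assoc H', h1, Matrix.mul_assoc a, E.Hσ, Matrix.mul_sub,
      ← Matrix.mul_assoc a σ, h1, sub_self]
  · rw [Matrix.mul_add, ← Matrix.mul_assoc, ← Matrix.mul_assoc, h3, F.eH]
  · rw [Matrix.add_mul, Matrix.mul_assoc, Matrix.mul_assoc, h4, E.He]
  · rw [h7, Matrix.mul_add, ← Matrix.mul_assoc, h5, Matrix.zero_mul, zero_add, ← Matrix.mul_assoc,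
      F.DH, Matrix.sub_mul, h3, Matrix.mul_assoc, h5, Matrix.mul_zero, sub_zero]

theorem zo_ex (hs : s = 0) (h : Zo σ e D τ f D' g) (k : g * (D * σ) = 0) :
    ∃ a ∈ Ao σ e τ f, D' * a + a * D = g := by
  have h1 : D' * (H' * (g * σ)) = g * σ := by
    rw [← Matrix.mul_assoc, F.DH, Matrix.sub_mul, Matrix.mul_assoc, ← Matrix.mul_assoc f,
      ← Matrix.mul_assoc D', h.fg, h.cl, Matrix.mul_assoc g, k, Matrix.mul_zero, sub_zero]
  have h2 : g * (σ * D) = D' * g := by rw [E.σD, Matrix.mul_sub, k, sub_zero, h.cl]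
  have h3 : g * (H * σ) * D = g - g * σ := by
    have h4 : H * (σ * D) = e - e * σ - D * (σ * H) := by
      rw [E.σD, E.σH, Matrix.mul_sub, Matrix.mul_sub, ← Matrix.mul_assoc H, ← Matrix.mul_assoc D,
        E.HD, Matrix.sub_mul]
      abel
    rw [Matrix.mul_assoc, Matrix.mul_assoc, h4, Matrix.mul_sub, Matrix.mul_sub, ← Matrix.mul_assoc D,
      ← Matrix.mul_assoc g (D * σ), k, Matrix.zero_mul, sub_zero, ← Matrix.mul_assoc, h.ge]
  have h5 : τ * (D' * H') = D' * H' * τ := by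
    rw [← Matrix.mul_assoc, F.σD, Matrix.sub_mul, Matrix.mul_assoc D' τ, F.σH, Matrix.mul_sub,
      sub_sub_cancel, Matrix.mul_assoc]
  refine ⟨H' * (g * σ) + D' * H' * (g * (H * σ)), ⟨?_, ?_, ?_, ?_⟩, ?_⟩
  · simp only [Matrix.add_mul, Matrix.mul_assoc, E.σσ]
  · rw [Matrix.mul_add, ← Matrix.mul_assoc τ H', F.σH, Matrix.sub_mul, Matrix.mul_assoc H' τ,
      ← Matrix.mul_assoc τ g, h.ev, Matrix.mul_assoc g, E.σσ, sub_self, zero_add,
      ← Matrix.mul_assoc, h5, Matrix.mul_assoc _ τ, ← Matrix.mul_assoc τ, h.ev, Matrix.mul_assoc g,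
      E.σHσ, Matrix.mul_zero, Matrix.mul_zero]
  · rw [Matrix.mul_add, ← Matrix.mul_assoc f, ← Matrix.mul_assoc f, ← Matrix.mul_assoc f, F.eH, F.eD]
  · simp only [Matrix.add_mul, Matrix.mul_assoc, E.σe]
    rw [← Matrix.mul_assoc g e, ← Matrix.mul_assoc H e, h.ge, E.He]
  · rw [Matrix.mul_add, Matrix.add_mul, h1, ← Matrix.mul_assoc D' (D' * H'), ← Matrix.mul_assoc D' D',
      F.DD, hs, zero_smul, Matrix.zero_mul, Matrix.zero_mul, add_zero, Matrix.mul_assoc H',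
      Matrix.mul_assoc g σ, h2, Matrix.mul_assoc (D' * H'), h3, Matrix.mul_sub,
      Matrix.mul_assoc D' H' (g * σ), h1, F.DH, Matrix.sub_mul, h.fg, Matrix.mul_assoc]
    abel

omit F in
theorem psi_do (hs : s = 0) (h : Zo σ e D τ f D' g) : g * (D * σ) ∈ Do σ e D τ f D' := by
  have h1 : D * D = 0 := by rw [E.DD, hs, zero_smul]
  refine ⟨psi_mem E h, ?_, ?_⟩
  · rw [← Matrix.mul_assoc, h.cl, Matrix.mul_assoc, ← Matrix.mul_assoc D, h1, Matrix.zero_mul,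
      Matrix.mul_zero]
  · rw [Matrix.mul_assoc, Matrix.mul_assoc, E.σD, Matrix.mul_sub, ← Matrix.mul_assoc D, h1,
      Matrix.zero_mul, sub_self, Matrix.mul_zero]

/-- the projector on `Ao` -/
theorem pa_mem (b : Matrix κ ι ℂ) : (f - f * τ) * b * (σ * e) ∈ Ao σ e τ f :=
  ⟨by rw [Matrix.mul_assoc, Matrix.mul_assoc σ, E.σeσ],
    by rw [← Matrix.mul_assoc, ← Matrix.mul_assoc τ, Matrix.mul_sub, F.σeσ, sub_self,
      Matrix.zero_mul, Matrix.zero_mul],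
    by rw [← Matrix.mul_assoc, ← Matrix.mul_assoc f, Matrix.mul_sub, ← Matrix.mul_assoc f, F.ee],
    by rw [Matrix.mul_assoc, Matrix.mul_assoc σ, E.ee]⟩

omit E F in
theorem pa_eq (h : a ∈ Ao σ e τ f) : (f - f * τ) * a * (σ * e) = a := by
  rw [Matrix.sub_mul, Matrix.mul_assoc f τ, h.2.1, Matrix.mul_zero, sub_zero, h.2.2.1,
    ← Matrix.mul_assoc, h.1, h.2.2.2]

/-- the projector on `Do` -/
theorem pd_mem (hs : s = 0) (h : a ∈ Ao σ e τ f) : D' * H' * a * (H * D) ∈ Do σ e D τ f D' := by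
  have h1 : D * D = 0 := by rw [E.DD, hs, zero_smul]
  have h2 : D' * D' = 0 := by rw [F.DD, hs, zero_smul]
  have h5 : τ * (D' * H') = D' * H' * τ := by
    rw [← Matrix.mul_assoc, F.σD, Matrix.sub_mul, Matrix.mul_assoc D' τ, F.σH, Matrix.mul_sub,
      sub_sub_cancel, Matrix.mul_assoc]
  have h6 : H * D * σ = σ * (H * D) := by
    rw [← Matrix.mul_assoc, E.σH, Matrix.sub_mul, Matrix.mul_assoc H σ, E.σD, Matrix.mul_sub,
      sub_sub_cancel, Matrix.mul_assoc]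
  refine ⟨⟨?_, ?_, ?_, ?_⟩, ?_, ?_⟩
  · rw [Matrix.mul_assoc _ (H * D), h6, ← Matrix.mul_assoc, Matrix.mul_assoc _ a, h.1]
  · rw [← Matrix.mul_assoc, ← Matrix.mul_assoc τ, h5, Matrix.mul_assoc _ τ, h.2.1, Matrix.mul_zero,
      Matrix.zero_mul]
  · rw [← Matrix.mul_assoc, ← Matrix.mul_assoc f, ← Matrix.mul_assoc f, F.eD]
  · rw [Matrix.mul_assoc _ (H * D), Matrix.mul_assoc H, E.De]
  · rw [← Matrix.mul_assoc, ← Matrix.mul_assoc D', ← Matrix.mul_assoc D', h2, Matrix.zero_mul,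
      Matrix.zero_mul, Matrix.zero_mul]
  · rw [Matrix.mul_assoc _ (H * D), Matrix.mul_assoc H, h1, Matrix.mul_zero, Matrix.mul_zero]

theorem pd_eq (h : a ∈ Do σ e D τ f D') : D' * H' * a * (H * D) = a := by
  rw [F.DH, E.HD, Matrix.sub_mul, Matrix.mul_assoc H', h.2.1, Matrix.mul_zero, sub_zero, h.1.2.2.1,
    Matrix.mul_sub, ← Matrix.mul_assoc, h.2.2, Matrix.zero_mul, sub_zero, h.1.2.2.2]

/-- the projector on the closed even maps -/
theorem pz_mem (b : Matrix κ ι ℂ) {c : Matrix κ ι ℂ}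
    (hc : c = H' * τ * b * (σ * e) + (H' - H' * τ) * b * (e - σ * e)) :
    Zo σ e D τ f D' (D' * c + c * D) := by
  have h1 : τ * (H' * τ) = 0 := F.σHσ
  have h2 : τ * (H' - H' * τ) = H' - H' * τ := by rw [Matrix.mul_sub, h1, sub_zero, F.σH]
  have h3 : σ * e * σ = σ * e := by rw [Matrix.mul_assoc, E.σeσ]
  have h4 : (e - σ * e) * σ = 0 := by rw [Matrix.sub_mul, h3, E.σe, sub_self]
  subst hc
  refine dl_mem E F ?_ ?_ ?_
  · rw [Matrix.add_mul, Matrix.mul_add, Matrix.mul_assoc _ (σ * e), Matrix.mul_assoc _ (e - _), h3,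
      h4, ← Matrix.mul_assoc τ, ← Matrix.mul_assoc τ, ← Matrix.mul_assoc τ (_ * b),
      ← Matrix.mul_assoc τ (_ - _), h1, h2, Matrix.zero_mul, Matrix.zero_mul, Matrix.mul_zero,
      zero_add, add_zero, add_sub_cancel_right]
  · simp only [Matrix.mul_add, ← Matrix.mul_assoc, Matrix.mul_sub f, F.eH]
  · simp only [Matrix.add_mul, Matrix.mul_assoc, Matrix.sub_mul e, E.ee]

theorem pz_eq (h : Zo σ e D τ f D' g) {c : Matrix κ ι ℂ}
    (hc : c = H' * τ * g * (σ * e) + (H' - H' * τ) * g * (e - σ * e)) : D' * c + c * D = g := by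
  have h1 : c = H' * g := by
    have h2 : g * (σ * e) = g * σ := by rw [E.σe, ← Matrix.mul_assoc, h.ge]
    simp only [hc, Matrix.sub_mul, Matrix.mul_sub, Matrix.mul_assoc, h.ev, h.ge, h2]
    rw [← Matrix.mul_assoc σ, E.σσ, h2]
    abel
  rw [h1, ← Matrix.mul_assoc, F.DH, Matrix.sub_mul, h.fg, Matrix.mul_assoc, Matrix.mul_assoc, h.cl,
    sub_add_cancel]

end Vale.Agent.P287T.Rr.G2
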