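import Vale.Agent.P287T.Rr.Geo0
import Vale.Agent.P287T.Rr.Chh
import Vale.Agent.P287T.Rr.Th

/-!
# The geometry of one family of matrix factorizations
-/

set_option linter.unusedSectionVars false

namespace Vale.Agent.P287T.Rr

open Set Function Module Matrix P269 P269.Ch P269.Grr P287T.Cy P287T.Fa P287T.Dn PowerSeries

variable {ι : Type} [Fintype ι] {W : S6} {p : ι → ℤ}

open Classical in
theorem trace_Vf {e : Matrix ι ι ℂ} (hb : Blk p p e) (he : e * e = e) (s : ℤ → Prop) :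
    (finrank ℂ (Vf (fun i => s (p i)) e 0) : ℂ) =
      (e * diagonal fun i => if s (p i) then 1 else 0).trace := by
  rw [← Matrix.trace_toLin'_eq]
  refine (LinearMap.IsProj.trace (p := Vf (fun i => s (p i)) e 0)
    ⟨fun v => ⟨fun i hi => ?_, ?_, zero_mulVec _⟩, fun v hv => ?_⟩).symm
  · refine Finset.sum_eq_zero fun j _ => mul_eq_zero_of_left ((mul_diagonal _ _ i j).trans ?_) _
    split_ifs with hj
    · exact mul_eq_zero_of_left (hb i j fun k => hi (show s (p i) from k ▸ hj)) _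
    · exact mul_zero _
  · rw [toLin'_apply, mulVec_mulVec, ← mul_assoc, he]
  · rw [toLin'_apply, ← mulVec_mulVec, diag_eq hv.1, hv.2.1]

theorem rank_Vf {e D H : Matrix ι ι ℂ} (hb : Blk p p e) (he : e * e = e)
    (oD : ∀ i j, 2 ∣ p i - p j → D i j = 0) (h : D * H + H * D = e) :
    finrank ℂ (Vf (fun i => 2 ∣ p i) e 0) = finrank ℂ (Vf (fun i => ¬2 ∣ p i) e 0) := by
  classical
  have h1 : ∀ s s' : ℤ → Prop, (∀ i j, D i j ≠ 0 → (s (p i) ↔ s' (p j))) →
      (D * H * diagonal fun i => if s (p i) then (1 : ℂ) else 0).trace =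
        (H * D * diagonal fun i => if s' (p i) then (1 : ℂ) else 0).trace := fun s s' k => by
    rw [mul_assoc, trace_mul_comm, mul_assoc, mul_assoc]
    refine congrArg (fun M => (H * M).trace) (Matrix.ext fun i j => ?_)
    rw [diagonal_mul, mul_diagonal, mul_comm]
    by_cases u : D i j = 0
    · rw [u, zero_mul, zero_mul]
    · rw [if_congr (k i j u) rfl rfl]
  have h2 : ∀ i j, D i j ≠ 0 → ¬2 ∣ p i - p j := fun i j u v => u (oD i j v)
  refine Nat.cast_injective (R := ℂ)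
    ((trace_Vf hb he (2 ∣ ·)).trans (.trans ?_ (trace_Vf hb he (¬2 ∣ ·)).symm))
  rw [← h, add_mul, add_mul, trace_add, trace_add, add_comm]
  exact congrArg₂ (· + ·)
    (h1 (¬2 ∣ ·) (2 ∣ ·) fun i j u => by have := h2 i j u; omega).symm
    (h1 (2 ∣ ·) (¬2 ∣ ·) fun i j u => by have := h2 i j u; omega)

variable (A : Amb W) {e : A.B.T → Matrix ι ι ℂ} {d : A.B.T → Matrix ι ι S6}

theorem Θ_gen (h : EF A.B W p e d) (s : ℤ → Prop) [DecidablePred s] (w : ℤ → ℤ) (a : ℤ)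
    (hw : ∀ n, s n → 2 * w n = -n - a) :
    A.Θ (tw A.R a * h.gen C fun n => if s n then tw A.R n else 0) =
      (h.pj_sup A.π A.χ s w A.cY).vb.chc := by
  rw [chc_sup_gen h A.π A.χ s w A.cY, EF.gen, EF.gen, Finset.mul_sum, A.Θ_sum]
  refine Finset.sum_congr rfl fun n _ => ?_
  split_ifs with u
  · rw [mul_left_comm, A.Θ_mul, A.Θ_C, A.Θ_mul, A.Θ_tw, A.Θ_tw, ← ex_add, ← add_smul,
      ← Int.cast_smul_eq_zsmul ℂ]
    have : ((2 * w n : ℤ) : ℂ) = ((-n - a : ℤ) : ℂ) := congrArg _ (hw n u)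
    push_cast at this
    rw [show (w n : ℂ) = -(a : ℂ) / 2 + -(n : ℂ) / 2 by linear_combination this / 2]
  · rw [mul_zero, mul_zero, mul_zero, A.Θ_zero]

section fib

variable {e : Matrix ι ι ℂ} {d : Matrix ι ι S6} (h : IsPF W p e d) {x : Fin 6 → ℂ}
  {s s' : ι → Prop} (a b : ℤ) (k : ¬2 ∣ a + b) (h1 : ∀ i, s i → 2 ∣ p i + a)
  (h2 : ∀ i, 2 ∣ p i + b → s' i) {v : ι → ℂ}
include h

include k h1 h2 in
theorem pf_mem (hv : v ∈ Vf s e 0) : evM x d *ᵥ v ∈ Vf s' e 0 :=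
  ⟨fun i hi => odd_sup (pf_oD h _) k (fun j u => hv.1 j fun u' => u (h1 j u')) i
    fun u => hi (h2 i u), by rw [mulVec_mulVec, pf_eD h], zero_mulVec _⟩

include k h1 h2 in
theorem pf_ex (hs : Sm W) (hx : x ≠ 0) (hv : v ∈ Vf s e (evM x d)) :
    ∃ v' ∈ Vf s' e 0, evM x d *ᵥ v' = v :=
  ⟨hoM W d x *ᵥ v, ⟨fun i hi => odd_sup (pf_oH h _) k (fun j u => hv.1 j fun u' => u (h1 j u')) i
    fun u => hi (h2 i u), by rw [mulVec_mulVec, pf_eH h], zero_mulVec _⟩, by
      have h3 := congrArg (· *ᵥ v) (pf_ho h hs hx)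
      simpa only [add_mulVec, ← mulVec_mulVec, hv.2.1, hv.2.2, mulVec_zero, add_zero] using h3⟩

theorem pf_DD (hv : v ∈ Vf s e 0) : evM x d *ᵥ (evM x d *ᵥ v) = MvPolynomial.eval x W • v := by
  rw [mulVec_mulVec, pf_sq h, smul_mulVec, hv.2.1]

end fib

variable (hE : EF A.B W p e d)
include hE

theorem geo_cont : Continuous fun y : A.Y.T × (ι → ℂ) => evM (A.x y.1) (d (A.π.f y.1)) *ᵥ y.2 :=
  ((hE.contD A.π A.cx).comp continuous_fst).matrix_mulVec continuous_snd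

theorem geo_eqm : Eqm A.χ (fun i => ¬2 ∣ p i) (fun i => wt (p i)) (fun i => wt (p i))
    fun t => evM (A.x t) (d (A.π.f t)) :=
  hE.eqm_d A.π A.eqx fun i j hj u => by
    have := wt_odd hj
    have := wt_even (a := p i) (by omega)
    omega

theorem geo_em : EM A.χ3 (fun t => MvPolynomial.eval (A.x t) W)
    (hE.pj_sup A.π A.χ (2 ∣ ·) (fun n => wt n - 3) A.cY).vb
    (hE.pj_sup A.π A.χ (¬2 ∣ ·) wt A.cY).vb (fun t => (evM (A.x t) (d (A.π.f t))).mulVecLin)
    fun t => (evM (A.x t) (d (A.π.f t))).mulVecLin := by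
  have pf := fun t => hE.pf.pf (A.π.f t)
  refine ⟨Hom.of_continuous (fun t v => pf_mem (pf t) 0 1 (by omega) (fun i u => by omega)
    fun i u => by omega) (geo_cont A hE) fun g t v hv => ?_, Hom.of_continuous
      (fun t v => pf_mem (pf t) 1 0 (by omega) (fun i u => by omega) fun i u => by omega)
      (geo_cont A hE) fun g t v hv => ?_, fun t v => pf_DD (pf t), fun t v => pf_DD (pf t),
    fun t v _ hv u => pf_ex (pf t) 1 0 (by omega) (fun i u => by omega) (fun i u => by omega) A.sm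
      (A.nx t) ⟨hv.1, hv.2.1, u⟩, fun t v _ hv u => pf_ex (pf t) 0 1 (by omega)
        (fun i u => by omega) (fun i u => by omega) A.sm (A.nx t) ⟨hv.1, hv.2.1, u⟩,
    iSup_congr fun t =>
      rank_Vf (pf t).blk (pf t).ee (pf_oD (pf t) _) (pf_ho (pf t) A.sm (A.nx t))⟩
  · refine .trans ?_ (am_smul A.χ _ g _).symm
    rw [am_smul]
    refine Eqm.mulVec (s := fun i => 2 ∣ p i) (hE.eqm_d A.π A.eqx fun i j hj u => ?_) g t hv.1
    have := wt_even hj
    have := wt_odd (a := p i) (by omega)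
    omega
  · rw [am_smul]
    refine ((geo_eqm A hE).mulVec g t hv.1).trans (funext fun i => ?_)
    change _ = (A.χ3 g : ℂ) * (((A.χ ^ (wt (p i) - 3)) g : ℂ) * _)
    rw [A.e3, zp_apply, zp_apply, ← mul_assoc, ← zpow_add₀ (A.χ g).ne_zero, add_sub_cancel]
    rfl

theorem geo_hom : Hom (Mor.id _) ((hE.pj_sup A.π A.χ (¬2 ∣ ·) wt A.cY).vb.pb A.i) (hE.pjV A).vb
    fun t => (evM (A.x (A.i.f t)) (d (A.π.f (A.i.f t)))).mulVecLin := by
  refine Hom.of_continuous
    (fun t v hv => (pf_fib (hE.pf.pf _) A.sm (A.nx _) (A.onX t)).D_mem (a := 1) (by omega)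
      fun j u => hv.1 j (by omega)) (((hE.contD (A.π.comp A.i) (A.cx.comp A.i.cf)).comp
        continuous_fst).matrix_mulVec continuous_snd)
    fun g t v hv => .trans ?_ (am_smul _ _ g _).symm
  change evM (A.x (A.i.f (g • t))) (d (A.π.f (A.i.f (g • t)))) *ᵥ
    (A.i.ρ g • (show (am A.χ fun i => wt (p i)).W from v)) = _
  rw [am_smul, A.i.eqv]
  exact (geo_eqm A hE).mulVec _ _ hv.1

omit hE in
/-- the geometry of one family -/
theorem stGeo1 : StGeo1 := by
  intro ι _ W A p e d hE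
  refine ⟨hE.pjV A, ?_⟩
  rw [A.Θ_sub, show gO A hE = hE.gen C fun n => if ¬2 ∣ n then tw A.R n else 0 by
    simp only [gO, ite_not], Θ_gen A hE (¬2 ∣ ·) wt 3 fun n u => wt_odd u, gE,
    Θ_gen A hE (2 ∣ ·) (fun n => wt n - 3) 6 fun n u => by have := wt_even u; omega]
  refine ⟨?_, A.gd (geo_em A hE) (geo_hom A hE) (fun t v hv => pf_ex (hE.pf.pf _) 0 1 (by omega)
    (fun i u => u) (fun i u => by omega) A.sm (A.nx _) hv) fun _ _ _ => Iff.rfl⟩
  rw [map_sub, VB.chc, VB.chc, coeff_zero_chP, coeff_zero_chP, (geo_em A hE).rk, sub_self]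

end Vale.Agent.P287T.Rr
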