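import Vale.Agent.P287T.Rr.G2a
import Vale.Agent.P287T.Rr.Geo1

/-!
# The bundles of maps between two families of matrix factorizations
-/

set_option linter.unusedSectionVars false

namespace Vale.Agent.P287T.Rr.G2

open Set Function Module Matrix P269 P269.Ch P269.Grr P287T.Cy P287T.Fa P287T.Dn PowerSeries

variable {ι κ : Type} [Fintype ι] [Fintype κ] {W : S6} {p : ι → ℤ} {q : κ → ℤ}

open Classical in
/-- the projector on the odd generators -/
noncomputable def od (p : ι → ℤ) : Matrix ι ι ℂ := diagonal fun i => if 2 ∣ p i then 0 else 1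

section od

variable {a : Matrix κ ι ℂ}

theorem od_mul (a : Matrix κ ι ℂ) (i : κ) (l : ι) :
    (od q * a) i l = if 2 ∣ q i then 0 else a i l := by
  classical
  rw [od, diagonal_mul, ite_mul, zero_mul, one_mul]

theorem mul_od (a : Matrix κ ι ℂ) (i : κ) (l : ι) :
    (a * od p) i l = if 2 ∣ p l then 0 else a i l := by
  classical
  rw [od, mul_diagonal, mul_ite, mul_zero, mul_one]

theorem od_vec (v : ι → ℂ) (l : ι) : (od p *ᵥ v) l = if 2 ∣ p l then 0 else v l := by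
  classical
  rw [od, mulVec_diagonal, ite_mul, zero_mul, one_mul]

theorem od_blk : Blk p p (od p) := fun _ _ h => by
  classical
  exact diagonal_apply_ne _ fun k => h (congrArg p k)

theorem od_od : od p * od p = od p := by
  classical
  rw [od, diagonal_mul_diagonal]
  exact congrArg diagonal (funext fun i => by split_ifs <;> simp)

theorem od_odd (h : ∀ i l, 2 ∣ q i - p l → a i l = 0) : od q * a = a - a * od p :=
  Matrix.ext fun i l => by
    rw [Matrix.sub_apply, od_mul, mul_od]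
    split_ifs with h1 h2 h2
    · rw [h i l (by omega), sub_zero]
    · rw [sub_self]
    · rw [sub_zero]
    · rw [h i l (by omega), sub_zero]

theorem od_even : od q * a = a * od p ↔ ∀ i l, ¬2 ∣ 0 + p l - q i → a i l = 0 := by
  refine ⟨fun h i l k => ?_, fun h => Matrix.ext fun i l => ?_⟩
  · have := congrFun₂ h i l
    rw [od_mul, mul_od] at this
    split_ifs at this with h1 h2 h2
    exacts [absurd (by omega) k, this.symm, this, absurd (by omega) k]
  · rw [od_mul, mul_od]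
    split_ifs with h1 h2 h2
    exacts [rfl, (h i l (by omega)).symm, h i l (by omega), rfl]

theorem ao_ne {e : Matrix ι ι ℂ} {f : Matrix κ κ ℂ} (h : a ∈ Ao (od p) e (od q) f) {i : κ} {l : ι}
    (k : a i l ≠ 0) : 2 ∣ q i ∧ ¬2 ∣ p l :=
  ⟨by_contra fun u => k (by
      simpa only [od_mul, if_neg u, Matrix.zero_apply] using congrFun₂ h.2.1 i l),
    fun u => k (by simpa only [mul_od, if_pos u] using (congrFun₂ h.1 i l).symm)⟩

theorem Zo.mem {e D : Matrix ι ι ℂ} {f D' : Matrix κ κ ℂ} (h : Zo (od p) e D (od q) f D' a) :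
    a ∈ Z0 p e D q f D' 0 := ⟨⟨od_even.1 h.ev, by rw [h.fg, h.ge]⟩, h.cl⟩

theorem zo {s : ℂ} {e D H : Matrix ι ι ℂ} {f D' H' : Matrix κ κ ℂ} (E : Fb s (od p) e D H)
    (F : Fb s (od q) f D' H') (h : a ∈ Z0 p e D q f D' 0) : Zo (od p) e D (od q) f D' a :=
  ⟨od_even.2 h.1.1, by rw [← h.1.2, ← Matrix.mul_assoc, ← Matrix.mul_assoc, F.ee],
    by rw [← h.1.2, Matrix.mul_assoc, E.ee], h.2⟩

theorem fb {e : Matrix ι ι ℂ} {d : Matrix ι ι S6} (h : IsPF W p e d) (hs : Sm W) {x : Fin 6 → ℂ}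
    (hx : x ≠ 0) : Fb (MvPolynomial.eval x W) (od p) e (evM x d) (hoM W d x) :=
  ⟨od_od, h.ee,
    od_even.2 fun i l k => h.blk i l (by omega), od_odd (pf_oD h x), od_odd (pf_oH h x), pf_eD h x,
    pf_De h x, pf_eH h x, pf_He h x, pf_sq h x, eq_sub_of_add_eq (pf_ho h hs hx)⟩

end od

section sc

variable {μ : Type} {c : ℂ} {a : Matrix κ ι ℂ}

/-- rescaling of the entries -/
noncomputable def sc (c : ℂ) (w : κ → ι → ℤ) (a : Matrix κ ι ℂ) : Matrix κ ι ℂ :=
  of fun i l => c ^ w i l * a i l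

theorem sc_left {w : κ → ι → ℤ} {w' : μ → ι → ℤ} {D D' : Matrix μ κ ℂ}
    (h : ∀ i j l, a j l ≠ 0 → D' i j * c ^ w j l = c ^ w' i l * D i j) :
    D' * sc c w a = of fun i l => c ^ w' i l * (D * a) i l := by
  ext i l
  rw [of_apply, Matrix.mul_apply, Matrix.mul_apply, Finset.mul_sum]
  refine Finset.sum_congr rfl fun j _ => ?_
  rw [sc, of_apply]
  by_cases k : a j l = 0
  · rw [k, mul_zero, mul_zero, mul_zero, mul_zero]
  · rw [← mul_assoc, h i j l k, mul_assoc]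

theorem sc_right {w : κ → ι → ℤ} {w' : κ → μ → ℤ} {D D' : Matrix ι μ ℂ}
    (h : ∀ i j l, a i j ≠ 0 → D' j l * c ^ w i j = c ^ w' i l * D j l) :
    sc c w a * D' = of fun i l => c ^ w' i l * (a * D) i l := by
  ext i l
  rw [of_apply, Matrix.mul_apply, Matrix.mul_apply, Finset.mul_sum]
  refine Finset.sum_congr rfl fun j _ => ?_
  rw [sc, of_apply]
  by_cases k : a i j = 0
  · rw [k, mul_zero, zero_mul, zero_mul, mul_zero]
  · rw [mul_right_comm, mul_comm _ (D' j l), h i j l k, mul_assoc, mul_comm (D j l)]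

theorem sc_vec (hc : c ≠ 0) {w : κ → ι → ℤ} {u : ι → ℤ} {u' : κ → ℤ}
    (h : ∀ i l, a i l ≠ 0 → w i l + u l = u' i) (v : ι → ℂ) :
    (sc c w a *ᵥ fun l => c ^ u l * v l) = fun i => c ^ u' i * (a *ᵥ v) i := by
  funext i
  rw [Matrix.mulVec, Matrix.mulVec, dotProduct, dotProduct, Finset.mul_sum]
  refine Finset.sum_congr rfl fun l _ => ?_
  rw [sc, of_apply]
  by_cases k : a i l = 0
  · rw [k, mul_zero, zero_mul, zero_mul, mul_zero]
  · rw [← h i l k, zpow_add₀ hc]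
    ring

theorem sc_add (w : κ → ι → ℤ) (a b : Matrix κ ι ℂ) : sc c w (a + b) = sc c w a + sc c w b :=
  Matrix.ext fun _ _ => mul_add _ _ _

theorem sc_zero (w : κ → ι → ℤ) : sc c w (0 : Matrix κ ι ℂ) = 0 := Matrix.ext fun _ _ => mul_zero _

variable (ω : ℤ → ℤ → ℤ)

theorem blk_left {b : Matrix κ κ ℂ} (hb : Blk q q b) :
    b * sc c (fun i l => ω (q i) (p l)) a = sc c (fun i l => ω (q i) (p l)) (b * a) :=
  sc_left fun i j l _ => by
    by_cases k : q i = q j
    · rw [k, mul_comm]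
    · rw [hb i j k, zero_mul, mul_zero]

theorem blk_right {b : Matrix ι ι ℂ} (hb : Blk p p b) :
    sc c (fun i l => ω (q i) (p l)) a * b = sc c (fun i l => ω (q i) (p l)) (a * b) :=
  sc_right fun i j l _ => by
    by_cases k : p j = p l
    · rw [k, mul_comm]
    · rw [hb j l k, zero_mul, mul_zero]

theorem sc_ao {e : Matrix ι ι ℂ} {f : Matrix κ κ ℂ} (he : Blk p p e) (hf : Blk q q f)
    (h : a ∈ Ao (od p) e (od q) f) : sc c (fun i l => ω (q i) (p l)) a ∈ Ao (od p) e (od q) f :=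
  ⟨by rw [blk_right ω od_blk, h.1], by rw [blk_left ω od_blk, h.2.1, sc_zero],
    by rw [blk_left ω hf, h.2.2.1], by rw [blk_right ω he, h.2.2.2]⟩

end sc

theorem chm_sc {Y : Ch.Sp} (χ : Y.G →ₜ* ℂˣ) (w : κ → ι → ℤ) (g : Y.G)
    (a : (chm fun i l => χ ^ w i l).W) : g • a = sc (χ g) w a :=
  funext fun i => funext fun l => congrArg (· * (a : κ → ι → ℂ) i l) (zp_apply χ (w i l) g)

/-- `a ↦ L a R` -/
def lr (L : Matrix κ κ ℂ) (R : Matrix ι ι ℂ) : Matrix κ ι ℂ →ₗ[ℂ] Matrix κ ι ℂ where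
  toFun a := L * a * R
  map_add' a b := by rw [Matrix.mul_add, Matrix.add_mul]
  map_smul' c a := by rw [Matrix.mul_smul, Matrix.smul_mul, RingHom.id_apply]

/-- `a ↦ a R` -/
def rm (R : Matrix ι ι ℂ) : Matrix κ ι ℂ →ₗ[ℂ] Matrix κ ι ℂ where
  toFun a := a * R
  map_add' _ _ := Matrix.add_mul _ _ _
  map_smul' _ _ := Matrix.smul_mul _ _ _

/-- `a ↦ D' a + a D` -/
def dm (D' : Matrix κ κ ℂ) (D : Matrix ι ι ℂ) : Matrix κ ι ℂ →ₗ[ℂ] Matrix κ ι ℂ where
  toFun a := D' * a + a * D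
  map_add' a b := by rw [Matrix.mul_add, Matrix.add_mul, add_add_add_comm]
  map_smul' c a := by rw [Matrix.mul_smul, Matrix.smul_mul, RingHom.id_apply, smul_add]

theorem rk_eq {U V : Type} [AddCommGroup U] [Module ℂ U] [AddCommGroup V] [Module ℂ V]
    [FiniteDimensional ℂ U] [FiniteDimensional ℂ V] {A : Submodule ℂ U} {K : Submodule ℂ V}
    {φ : U →ₗ[ℂ] V} {ψ : V →ₗ[ℂ] U} {s : ℂ} (mψ : ∀ w ∈ K, ψ w ∈ A)
    (φψ : ∀ w ∈ K, φ (ψ w) = s • w) (exK : ∀ w ∈ K, s = 0 → ψ w = 0 → ∃ w' ∈ A, φ w' = w) :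
    finrank ℂ K ≤ finrank ℂ A := by
  rw [← finrank_inf_ker K ψ]
  by_cases hs : s = 0
  · rw [← finrank_inf_ker A φ, add_comm]
    refine add_le_add (Submodule.finrank_mono fun w hw => exK w hw.1 hs hw.2)
      (Submodule.finrank_mono ?_)
    rintro _ ⟨w, hw, rfl⟩
    exact ⟨mψ w hw, (φψ w hw).trans (by rw [hs, zero_smul])⟩
  · rw [show K ⊓ LinearMap.ker ψ = ⊥ from eq_bot_iff.2 fun w hw => (smul_eq_zero.1
      ((φψ w hw.1).symm.trans (by rw [hw.2, map_zero]))).resolve_left hs, finrank_bot, add_zero]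
    exact Submodule.finrank_mono (by rintro _ ⟨w, hw, rfl⟩; exact mψ w hw)

end Vale.Agent.P287T.Rr.G2
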