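import Vale.Agent.P287T.Rr.G2b

/-!
# The geometry of two families of matrix factorizations
-/

set_option linter.unusedSectionVars false

namespace Vale.Agent.P287T.Rr.G2

open Set Function Module Matrix P269 P269.Ch P269.Grr P287T.Cy P287T.Fa P287T.Dn PowerSeries

variable {ι κ : Type} [Fintype ι] [Fintype κ] {W : S6} {p : ι → ℤ} {q : κ → ℤ}

theorem pj_chm {Y : Ch.Sp} (χ : Y.G →ₜ* ℂˣ) (w : κ → ι → ℤ)
    {F : Y.T → Submodule ℂ (Matrix κ ι ℂ)} (P : Y.T → Matrix κ ι ℂ →ₗ[ℂ] Matrix κ ι ℂ)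
    (c : ∀ b, Continuous fun t => P t b) (h1 : ∀ t b, P t b ∈ F t) (h2 : ∀ t b, b ∈ F t → P t b = b)
    (iv : ∀ (g : Y.G) t b, b ∈ F t → sc (χ g) w b ∈ F (g • t)) (cn : PreconnectedSpace Y.T) :
    Pj (chm fun i l => χ ^ w i l) F :=
  ⟨⟨P, c, h1, h2⟩, fun g t b hb => (congrArg (· ∈ F (g • t)) (chm_sc χ w g b)).mpr (iv g t b hb),
    cn⟩

/-- the action of matrices on vectors -/
noncomputable def mv : Matrix κ ι ℂ →ₗ[ℂ] (ι → ℂ) →ₗ[ℂ] (κ → ℂ) where
  toFun := Matrix.mulVecLin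
  map_add' := Matrix.mulVecLin_add
  map_smul' c a := LinearMap.ext fun v => smul_mulVec c a v

theorem chc_chm {Y : Ch.Sp} {χ : Y.G →ₜ* ℂˣ} {w : κ → ι → ℤ} {u : ι → ℤ} {u' : κ → ℤ}
    {FD : Y.T → Submodule ℂ (Matrix κ ι ℂ)} {FE : Y.T → Submodule ℂ (ι → ℂ)}
    {FF : Y.T → Submodule ℂ (κ → ℂ)} (hD : Pj (chm fun i l => χ ^ w i l) FD) (h : Pj (am χ u) FE)
    (h' : Pj (am χ u') FF) {M : Y.T → Matrix ι ι ℂ} (cM : Continuous M)
    (mem : ∀ t a v, a ∈ FD t → v ∈ FE t → (a * M t) *ᵥ v ∈ FF t)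
    (eqv : ∀ (g : Y.G) t a v, a ∈ FD t → sc (χ g) w a ∈ FD (g • t) → v ∈ FE t →
      ((sc (χ g) w a * M (g • t)) *ᵥ fun l => (χ g : ℂ) ^ u l * v l) =
        fun i => (χ g : ℂ) ^ u' i * ((a * M t) *ᵥ v) i)
    (inj : ∀ t a, a ∈ FD t → (∀ v ∈ FE t, (a * M t) *ᵥ v = 0) → a = 0)
    (surj : ∀ t (φ : Matrix κ ι ℂ), (∀ v ∈ FE t, φ *ᵥ v ∈ FF t) →
      ∃ a ∈ FD t, ∀ v ∈ FE t, (a * M t) *ᵥ v = φ *ᵥ v) :
    hD.vb.chc = du h.vb.chc * h'.vb.chc := by
  classical
  refine chc_hom (ev := fun t => mv ∘ₗ rm (M t)) ⟨mem, fun (b : Matrix κ ι ℂ) (v : ι → ℂ) =>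
    (continuous_const.matrix_mul cM).matrix_mulVec continuous_const, fun g t b v hb hv => ?_, inj,
    fun t (φ : (ι → ℂ) →ₗ[ℂ] κ → ℂ) hφ => ?_⟩
  · have h2 := chm_sc χ w g b
    refine .trans ?_ (am_smul χ _ g _).symm
    exact (congrArg₂ (fun (y : Matrix κ ι ℂ) (u : ι → ℂ) => (y * M (g • t)) *ᵥ u) h2
      (am_smul χ _ g v)).trans (eqv g t b v hb
        ((congrArg (· ∈ FD (g • t)) h2).mp (hD.iv g t b hb)) hv)
  · obtain ⟨a, h1, h2⟩ := surj t (LinearMap.toMatrix' φ) fun v hv =>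
      (LinearMap.toMatrix'_mulVec φ v).symm ▸ hφ v hv
    exact ⟨a, h1, fun v hv => (h2 v hv).trans (LinearMap.toMatrix'_mulVec φ v)⟩

section gen

variable {Y B : Ch.Sp} {χ : Y.G →ₜ* ℂˣ} {e : B.T → Matrix ι ι ℂ} {d : B.T → Matrix ι ι S6}
  {f : B.T → Matrix κ κ ℂ} {d' : B.T → Matrix κ κ S6} (hE : EF B W p e d) (hF : EF B W q f d')
  (m : Mor Y B) {x : Y.T → Fin 6 → ℂ} (hx : ∀ (g : Y.G) t, x (g • t) = (χ g : ℂ) • x t)

include hE hx in
theorem ev_d (g : Y.G) (t : Y.T) (i j : ι) {a b : ℤ}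
    (h : ¬2 ∣ p i - p j → 3 + p j - p i + 2 * a = 2 * b) :
    evM (x (g • t)) (d (m.f (g • t))) i j * (χ g : ℂ) ^ a =
      (χ g : ℂ) ^ b * evM (x t) (d (m.f t)) i j := by
  rw [m.eqv, hE.id, hx]
  exact hg_eval ((hE.pf.pf _).deg i j) (χ g).ne_zero _ fun k => h (by omega)

variable {w w' : κ → ι → ℤ} {a : Matrix κ ι ℂ}

include hF hx in
theorem d_left (g : Y.G) (t : Y.T)
    (h : ∀ i j l, a j l ≠ 0 → ¬2 ∣ q i - q j → 3 + q j - q i + 2 * w j l = 2 * w' i l) :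
    evM (x (g • t)) (d' (m.f (g • t))) * sc (χ g) w a =
      sc (χ g) w' (evM (x t) (d' (m.f t)) * a) :=
  sc_left fun i j l k => ev_d hF m hx g t i j (h i j l k)

include hE hx in
theorem d_right (g : Y.G) (t : Y.T)
    (h : ∀ i j l, a i j ≠ 0 → ¬2 ∣ p j - p l → 3 + p l - p j + 2 * w i j = 2 * w' i l) :
    sc (χ g) w a * evM (x (g • t)) (d (m.f (g • t))) =
      sc (χ g) w' (a * evM (x t) (d (m.f t))) :=
  sc_right fun i j l k => ev_d hE m hx g t j l (h i j l k)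

include hE hF

theorem inv_ao (ω : ℤ → ℤ → ℤ) (g : Y.G) (t : Y.T)
    (h : a ∈ Ao (od p) (e (m.f t)) (od q) (f (m.f t))) :
    sc (χ g) (fun i l => ω (q i) (p l)) a ∈ Ao (od p) (e (m.f (g • t))) (od q) (f (m.f (g • t))) := by
  rw [m.eqv, hE.ie, hF.ie]
  exact sc_ao ω (hE.pf.pf _).blk (hF.pf.pf _).blk h

variable (hs : Sm W) (cx : Continuous x) (nx : ∀ t, x t ≠ 0) (cn : PreconnectedSpace Y.T)
include hs nx cn

theorem pjA (χ : Y.G →ₜ* ℂˣ) (ω : ℤ → ℤ → ℤ) : Pj (chm fun i l => χ ^ ω (q i) (p l))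
    fun t => Ao (od p) (e (m.f t)) (od q) (f (m.f t)) := by
  have ce := hE.pf.ce.comp m.cf
  have cf := hF.pf.ce.comp m.cf
  exact pj_chm χ _ (fun t => lr (f (m.f t) - f (m.f t) * od q) (od p * e (m.f t)))
    (fun b => ((cf.sub (cf.matrix_mul continuous_const)).matrix_mul
      continuous_const).matrix_mul (continuous_const.matrix_mul ce))
    (fun t b => pa_mem (fb (hE.pf.pf _) hs (nx t)) (fb (hF.pf.pf _) hs (nx t)) b)
    (fun t b => pa_eq) (fun g t b => inv_ao hE hF m ω g t) cn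

include hx cx

theorem pjZ : Pj (chm fun i l => χ ^ ((p l - q i) / 2)) fun t => Z0 p (e (m.f t))
    (evM (x t) (d (m.f t))) q (f (m.f t)) (evM (x t) (d' (m.f t))) 0 := by
  have ce := hE.pf.ce.comp m.cf
  have cH := hF.contH m cx hs nx
  have E := fun t => fb (hE.pf.pf (m.f t)) hs (nx t)
  have F := fun t => fb (hF.pf.pf (m.f t)) hs (nx t)
  have c1 := fun b : Matrix κ ι ℂ => (((cH.matrix_mul (continuous_const (y := od q))).matrix_mul
    (continuous_const (y := b))).matrix_mul ((continuous_const (y := od p)).matrix_mul ce)).add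
      (((cH.sub (cH.matrix_mul (continuous_const (y := od q)))).matrix_mul
        (continuous_const (y := b))).matrix_mul
          (ce.sub ((continuous_const (y := od p)).matrix_mul ce)))
  refine pj_chm χ _ (fun t => dm (evM (x t) (d' (m.f t))) (evM (x t) (d (m.f t))) ∘ₗ
    (lr (hoM W (d' (m.f t)) (x t) * od q) (od p * e (m.f t)) +
      lr (hoM W (d' (m.f t)) (x t) - hoM W (d' (m.f t)) (x t) * od q)
        (e (m.f t) - od p * e (m.f t)))) (fun b =>
      ((hF.contD m cx).matrix_mul (c1 b)).add ((c1 b).matrix_mul (hE.contD m cx)))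
    (fun t b => (pz_mem (E t) (F t) b rfl).mem)
    (fun t b hb => pz_eq (E t) (F t) (zo (E t) (F t) hb) rfl) (fun g t b hb => ?_) cn
  have k : ∀ i l, b i l ≠ 0 → 2 ∣ p l - q i := fun i l u =>
    by_contra fun v => u (hb.1.1 i l (by omega))
  refine ⟨⟨fun i l u => mul_eq_zero_of_right _ (hb.1.1 i l u), ?_⟩, ?_⟩
  · rw [m.eqv, hE.ie, hF.ie, blk_left (fun a b => (b - a) / 2) (hF.pf.pf _).blk,
      blk_right (fun a b => (b - a) / 2) (hE.pf.pf _).blk, hb.1.2]
  · rw [d_left hF m hx g t (w' := fun i l => (p l - q i + 3) / 2) fun i j l u v => by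
        have := k j l u
        omega,
      d_right hE m hx g t (w' := fun i l => (p l - q i + 3) / 2) fun i j l u v => by
        have := k i j u
        omega, hb.2]

variable (hW : ∀ t, MvPolynomial.eval (x t) W = 0)
include hW

theorem pjD : Pj (chm fun i l => χ ^ ((p l - q i + 3) / 2)) fun t => Do (od p) (e (m.f t))
    (evM (x t) (d (m.f t))) (od q) (f (m.f t)) (evM (x t) (d' (m.f t))) := by
  have ce := hE.pf.ce.comp m.cf
  have cf := hF.pf.ce.comp m.cf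
  have E := fun t => fb (hE.pf.pf (m.f t)) hs (nx t)
  have F := fun t => fb (hF.pf.pf (m.f t)) hs (nx t)
  refine pj_chm χ _ (fun t => lr (evM (x t) (d' (m.f t)) * hoM W (d' (m.f t)) (x t))
    (hoM W (d (m.f t)) (x t) * evM (x t) (d (m.f t))) ∘ₗ
      lr (f (m.f t) - f (m.f t) * od q) (od p * e (m.f t))) (fun b =>
      (((hF.contD m cx).matrix_mul (hF.contH m cx hs nx)).matrix_mul
        (((cf.sub (cf.matrix_mul continuous_const)).matrix_mul continuous_const).matrix_mul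
          (continuous_const.matrix_mul ce))).matrix_mul
            ((hE.contH m cx hs nx).matrix_mul (hE.contD m cx)))
    (fun t b => pd_mem (E t) (F t) (hW t) (pa_mem (E t) (F t) b)) (fun t b hb => ?_)
    (fun g t b hb => ?_) cn
  · have h1 : lr (f (m.f t) - f (m.f t) * od q) (od p * e (m.f t)) b = b := pa_eq hb.1
    rw [LinearMap.comp_apply, h1]
    exact pd_eq (E t) (F t) hb
  refine ⟨inv_ao hE hF m (fun a b => (b - a + 3) / 2) g t hb.1, ?_, ?_⟩
  · rw [d_left hF m hx g t (w' := fun i l => (p l - q i + 6) / 2) fun i j l u v => by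
      have := ao_ne hb.1 u
      omega, hb.2.1, sc_zero]
  · rw [d_right hE m hx g t (w' := fun i l => (p l - q i + 6) / 2) fun i j l u v => by
      have := ao_ne hb.1 u
      omega, hb.2.2, sc_zero]

theorem chc_D (h : Pj (am χ fun i => wt (p i)) fun t =>
      Vf (fun i => 2 ∣ p i + 0) (e (m.f t)) (evM (x t) (d (m.f t))))
    (h' : Pj (am χ fun i => wt (q i)) fun t =>
      Vf (fun i => 2 ∣ q i + 0) (f (m.f t)) (evM (x t) (d' (m.f t)))) :
    (pjD hE hF m hx hs cx nx cn hW).vb.chc = du h.vb.chc * h'.vb.chc := by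
  have E := fun t => fb (hE.pf.pf (m.f t)) hs (nx t)
  have Ef := fun t => pf_fib (hE.pf.pf (m.f t)) hs (nx t) (hW t)
  have k1 : ∀ t (b : Matrix κ ι ℂ), b ∈ Do (od p) (e (m.f t)) (evM (x t) (d (m.f t))) (od q)
      (f (m.f t)) (evM (x t) (d' (m.f t))) →
      b * (hoM W (d (m.f t)) (x t) * evM (x t) (d (m.f t))) = b := fun t b hb => by
    rw [(E t).HD, Matrix.mul_sub, ← Matrix.mul_assoc, hb.2.2, Matrix.zero_mul, sub_zero, hb.1.2.2.2]
  have k2 : ∀ t v, (evM (x t) (d (m.f t)) * od p) *ᵥ v ∈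
      Vf (fun i => 2 ∣ p i + 0) (e (m.f t)) (evM (x t) (d (m.f t))) := fun t v => by
    rw [← mulVec_mulVec]
    exact (Ef t).D_mem (a := 1) (by omega) fun j u => by rw [od_vec, if_pos (by omega)]
  have k3 : ∀ t v, v ∈ Vf (fun i => 2 ∣ p i + 0) (e (m.f t)) (evM (x t) (d (m.f t))) →
      ∀ i, ¬¬2 ∣ p i → (hoM W (d (m.f t)) (x t) *ᵥ v) i = 0 := fun t v hv i hi =>
    odd_sup (Ef t).oH (a := 0) (b := 1) (by omega) hv.1 i (by omega)
  refine chc_chm _ h h' (hE.contH m cx hs nx) (fun t b v hb _ => ⟨fun i hi => ?_, ?_, ?_⟩)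
    (fun g t b v hb h3 hv => ?_) (fun t b hb k => mulVec_injective (funext fun v => ?_))
    fun t φ hφ => ⟨φ * (evM (x t) (d (m.f t)) * od p), ⟨⟨?_, ?_, ?_, ?_⟩, ?_, ?_⟩, fun v hv => ?_⟩
  · refine Finset.sum_eq_zero fun l _ => mul_eq_zero_of_left
      (Finset.sum_eq_zero fun j _ => mul_eq_zero_of_left ?_ _) _
    exact by_contra fun u => hi (by have := (ao_ne hb.1 u).1; omega)
  · rw [mulVec_mulVec, ← Matrix.mul_assoc, hb.1.2.2.1]
  · rw [mulVec_mulVec, ← Matrix.mul_assoc, hb.2.1, Matrix.zero_mul, zero_mulVec]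
  · have h4 := Eqm.mulVec (s := fun i => ¬2 ∣ p i) (w := fun i => wt (p i))
      (w' := fun i => wt (p i)) (hE.eqm_d m hx fun i j hj u => by
        have := wt_odd hj
        have := wt_even (a := p i) (by omega)
        omega) g t (k3 t v hv)
    rw [(Ef t).DH hv] at h4
    rw [← h4, mulVec_mulVec, Matrix.mul_assoc, k1 _ _ h3, sc_vec (χ g).ne_zero
      (u' := fun i => wt (q i)) fun i l u => by
        have := ao_ne hb.1 u
        have := wt_odd this.2
        have := wt_even (a := q i) (by omega)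
        omega, mulVec_mulVec]
  · have := k _ (k2 t v)
    rwa [mulVec_mulVec, Matrix.mul_assoc, ← Matrix.mul_assoc (hoM W _ _), ← Matrix.mul_assoc,
      k1 t b hb, hb.1.1, ← zero_mulVec v] at this
  · rw [Matrix.mul_assoc, Matrix.mul_assoc, od_od]
  · refine mulVec_injective (funext fun v => funext fun i => ?_)
    rw [← mulVec_mulVec, ← mulVec_mulVec, od_vec, zero_mulVec]
    split_ifs with u
    exacts [rfl, (hφ _ (k2 t v)).1 i (by omega)]
  · refine mulVec_injective (funext fun v => ?_)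
    rw [← mulVec_mulVec, ← mulVec_mulVec]
    exact (hφ _ (k2 t v)).2.1
  · rw [Matrix.mul_assoc, Matrix.mul_assoc, (E t).σe, ← Matrix.mul_assoc _ (e _), (E t).De]
  · refine mulVec_injective (funext fun v => ?_)
    rw [← mulVec_mulVec, ← mulVec_mulVec, zero_mulVec]
    exact (hφ _ (k2 t v)).2.2
  · rw [Matrix.mul_assoc, Matrix.mul_assoc, (E t).σD, Matrix.mul_sub, ← Matrix.mul_assoc (evM _ _),
      (Ef t).DD, Matrix.zero_mul, sub_self, Matrix.mul_zero]
  · rw [← mulVec_mulVec, ← mulVec_mulVec, ← mulVec_mulVec, show od p *ᵥ (hoM W (d (m.f t)) (x t) *ᵥ v)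
      = hoM W (d (m.f t)) (x t) *ᵥ v from funext fun i => by
        rw [od_vec]
        split_ifs with u
        exacts [(k3 t v hv i (not_not.2 u)).symm, rfl], (Ef t).DH hv]

omit hx cx hW in
theorem chc_A (χ : Y.G →ₜ* ℂˣ) : (pjA hE hF m hs nx cn χ fun a b => (b - a - 3) / 2).vb.chc =
    du (hE.pj_sup m χ (¬2 ∣ ·) (fun n => wt n + 3) cn).vb.chc *
      (hF.pj_sup m χ (2 ∣ ·) wt cn).vb.chc := by
  classical
  have E := fun t => fb (hE.pf.pf (m.f t)) hs (nx t)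
  have k2 : ∀ t v, (od p * e (m.f t)) *ᵥ v ∈ Vf (fun i => ¬2 ∣ p i) (e (m.f t)) 0 := fun t v =>
    ⟨fun i hi => by rw [← mulVec_mulVec, od_vec, if_pos (not_not.1 hi)],
      by rw [mulVec_mulVec, ← Matrix.mul_assoc, ← (E t).σe, Matrix.mul_assoc, (E t).ee],
      zero_mulVec _⟩
  refine chc_chm _ _ _ (continuous_const (y := 1))
    (fun t b v hb _ => ⟨fun i hi => ?_, ?_, zero_mulVec _⟩)
    (fun g t b v hb _ hv => ?_) (fun t b hb k => mulVec_injective (funext fun v => ?_))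
    fun t φ hφ => ⟨φ * (od p * e (m.f t)), ⟨?_, ?_, ?_, ?_⟩, fun v hv => ?_⟩
  · rw [Matrix.mul_one]
    exact Finset.sum_eq_zero fun l _ => mul_eq_zero_of_left
      (by_contra fun u => hi (ao_ne hb u).1) _
  · rw [mulVec_mulVec, ← Matrix.mul_assoc, hb.2.2.1]
  · rw [Matrix.mul_one, Matrix.mul_one]
    refine sc_vec (χ g).ne_zero (fun i l u => ?_) v
    have := ao_ne hb u
    have := wt_odd this.2
    have := wt_even (a := q i) (by omega)
    omega
  · have := k _ (k2 t v)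
    rwa [Matrix.mul_one, mulVec_mulVec, ← Matrix.mul_assoc, hb.1, hb.2.2.2, ← zero_mulVec v] at this
  · rw [Matrix.mul_assoc, Matrix.mul_assoc, (E t).σeσ]
  · refine mulVec_injective (funext fun v => funext fun i => ?_)
    rw [← mulVec_mulVec, ← mulVec_mulVec, od_vec, zero_mulVec]
    split_ifs with u
    exacts [rfl, (hφ _ (k2 t v)).1 i u]
  · refine mulVec_injective (funext fun v => ?_)
    rw [← mulVec_mulVec, ← mulVec_mulVec]
    exact (hφ _ (k2 t v)).2.1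
  · rw [Matrix.mul_assoc, Matrix.mul_assoc, (E t).ee]
  · rw [Matrix.mul_one, ← mulVec_mulVec, ← mulVec_mulVec, hv.2.1, show od p *ᵥ v = v from
      funext fun i => by
        rw [od_vec]
        split_ifs with u
        exacts [(hv.1 i (not_not.2 u)).symm, rfl]]

end gen

end Vale.Agent.P287T.Rr.G2
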