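import Vale.Agent.P287T.Rr.G2c

/-!
# The elementary modification for two families of matrix factorizations
-/

set_option linter.unusedSectionVars false

namespace Vale.Agent.P287T.Rr.G2

open Set Function Module Matrix P269 P269.Ch P269.Grr P287T.Cy P287T.Fa P287T.Dn PowerSeries

variable {ι κ : Type} [Fintype ι] [Fintype κ] {W : S6} {p : ι → ℤ} {q : κ → ℤ}

theorem sc_tw {c : ℂ} (hc : c ≠ 0) (w : κ → ι → ℤ) (n : ℤ) (a : Matrix κ ι ℂ) :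
    sc c (fun i l => n + w i l) a = c ^ n • sc c w a :=
  Matrix.ext fun i l => by
    rw [Matrix.smul_apply, sc, sc, of_apply, of_apply, zpow_add₀ hc, mul_assoc, smul_eq_mul]

theorem em_chm {Y : Ch.Sp} {χ χ3 : Y.G →ₜ* ℂˣ} (e3 : χ3 = χ ^ (3 : ℤ)) {w w' : κ → ι → ℤ}
    {FA FK : Y.T → Submodule ℂ (Matrix κ ι ℂ)} (hA : Pj (chm fun i l => χ ^ w i l) FA)
    (hK : Pj (chm fun i l => χ ^ w' i l) FK) {s : Y.T → ℂ}
    {φ ψ : Y.T → Matrix κ ι ℂ →ₗ[ℂ] Matrix κ ι ℂ} (cφ : ∀ a, Continuous fun t => φ t a)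
    (cψ : ∀ a, Continuous fun t => ψ t a) (mφ : ∀ t, ∀ a ∈ FA t, φ t a ∈ FK t)
    (mψ : ∀ t, ∀ a ∈ FK t, ψ t a ∈ FA t)
    (eφ : ∀ (g : Y.G) t, ∀ a ∈ FA t, φ (g • t) (sc (χ g) w a) = sc (χ g) w' (φ t a))
    (eψ : ∀ (g : Y.G) t, ∀ a ∈ FK t, ψ (g • t) (sc (χ g) w' a) =
      sc (χ g) (fun i l => 3 + w i l) (ψ t a))
    (ψφ : ∀ t, ∀ a ∈ FA t, ψ t (φ t a) = s t • a) (φψ : ∀ t, ∀ a ∈ FK t, φ t (ψ t a) = s t • a)
    (exK : ∀ t, ∀ a ∈ FK t, s t = 0 → ψ t a = 0 → ∃ a' ∈ FA t, φ t a' = a)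
    (exA : ∀ t, ∀ a ∈ FA t, s t = 0 → φ t a = 0 → ∃ a' ∈ FK t, ψ t a' = a) :
    EM χ3 s hA.vb hK.vb φ ψ := by
  refine ⟨Hom.of_continuous mφ (cont_lin (U := κ → ι → ℂ) (U' := κ → ι → ℂ) cφ) fun g t a ha =>
    (congrArg (φ (g • t)) (chm_sc χ w g a)).trans ((eφ g t a ha).trans (chm_sc χ w' g _).symm),
    Hom.of_continuous mψ (cont_lin (U := κ → ι → ℂ) (U' := κ → ι → ℂ) cψ) fun g t a ha =>
    (congrArg (ψ (g • t)) (chm_sc χ w' g a)).trans ((eψ g t a ha).trans ?_), ψφ, φψ,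
    fun t a k ha => exK t a ha k, fun t a k ha => exA t a ha k, iSup_congr fun t =>
      le_antisymm (rk_eq (K := FA t) (A := FK t) (mφ t) (ψφ t) (exA t))
        (rk_eq (K := FK t) (A := FA t) (mψ t) (φψ t) (exK t))⟩
  rw [sc_tw (χ g).ne_zero, ← zp_apply, ← e3]
  exact congrArg ((χ3 g : ℂ) • ·) (chm_sc χ w g (ψ t a)).symm

theorem hom_chm {X Y : Ch.Sp} (i : Mor X Y) {χ : Y.G →ₜ* ℂˣ} {w w' : κ → ι → ℤ}
    {FK : Y.T → Submodule ℂ (Matrix κ ι ℂ)} {FD : X.T → Submodule ℂ (Matrix κ ι ℂ)}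
    (hK : Pj (chm fun i l => χ ^ w i l) FK) (hD : Pj (chm fun j l => i.chr χ ^ w' j l) FD)
    {β : X.T → Matrix κ ι ℂ →ₗ[ℂ] Matrix κ ι ℂ} (cβ : ∀ a, Continuous fun t => β t a)
    (mβ : ∀ t, ∀ a ∈ FK (i.f t), β t a ∈ FD t)
    (eβ : ∀ (g : X.G) t, ∀ a ∈ FK (i.f t), β (g • t) (sc (i.chr χ g) w a) =
      sc (i.chr χ g) w' (β t a)) : Hom (Mor.id X) (hK.vb.pb i) hD.vb β :=
  Hom.of_continuous mβ (cont_lin (U := κ → ι → ℂ) (U' := κ → ι → ℂ) cβ) fun g t a ha =>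
    (congrArg (β (g • t)) (chm_sc χ w (i.ρ g) a)).trans
      ((eβ g t a ha).trans (chm_sc (i.chr χ) w' g _).symm)

section gen

variable {Y B : Ch.Sp} {χ : Y.G →ₜ* ℂˣ} {e : B.T → Matrix ι ι ℂ} {d : B.T → Matrix ι ι S6}
  (hE : EF B W p e d) (m : Mor Y B) {x : Y.T → Fin 6 → ℂ}
  (hx : ∀ (g : Y.G) t, x (g • t) = (χ g : ℂ) • x t)
include hE hx

theorem psi_eqv (g : Y.G) (t : Y.T) {a : Matrix κ ι ℂ}
    (h : ∀ i l, ¬2 ∣ 0 + p l - q i → a i l = 0) (ω : ℤ → ℤ → ℤ)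
    (hω : ∀ u v, 2 ∣ v - u + 3 → 2 * ω u v = v - u + 3) :
    sc (χ g) (fun i l => (p l - q i) / 2) a * (evM (x (g • t)) (d (m.f (g • t))) * od p) =
      sc (χ g) (fun i l => ω (q i) (p l)) (a * (evM (x t) (d (m.f t)) * od p)) := by
  rw [← Matrix.mul_assoc, d_right hE m hx g t (w' := fun i l => ω (q i) (p l)) fun i j l u v => by
    have h1 : 2 ∣ 0 + p j - q i := by_contra fun k => u (h i j k)
    have := hω (q i) (p l) (by omega)
    omega, blk_right ω od_blk, Matrix.mul_assoc]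

end gen

variable (A : Amb W) {e : A.B.T → Matrix ι ι ℂ} {d : A.B.T → Matrix ι ι S6}
  {f : A.B.T → Matrix κ κ ℂ} {d' : A.B.T → Matrix κ κ S6} (hE : EF A.B W p e d)
  (hF : EF A.B W q f d')
include hE hF

theorem geo_em : EM A.χ3 (fun t => MvPolynomial.eval (A.x t) W)
    (pjA hE hF A.π A.sm A.nx A.cY A.χ fun a b => (b - a - 3) / 2).vb
    (pjZ hE hF A.π A.eqx A.sm A.cx A.nx A.cY).vb
    (fun t => dm (evM (A.x t) (d' (A.π.f t))) (evM (A.x t) (d (A.π.f t))))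
    fun t => rm (evM (A.x t) (d (A.π.f t)) * od p) := by
  have E := fun t => fb (hE.pf.pf (A.π.f t)) A.sm (A.nx t)
  have F := fun t => fb (hF.pf.pf (A.π.f t)) A.sm (A.nx t)
  refine em_chm A.e3 _ _ (fun a => ((hF.contD A.π A.cx).matrix_mul continuous_const).add
    (continuous_const.matrix_mul (hE.contD A.π A.cx)))
    (fun a => continuous_const.matrix_mul ((hE.contD A.π A.cx).matrix_mul continuous_const))
    (fun t a ha => (phi_mem (E t) (F t) ha).mem) (fun t a ha => psi_mem (E t) (zo (E t) (F t) ha))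
    (fun g t a ha => ?_) (fun g t a ha => psi_eqv hE A.π A.eqx g t ha.1.1
      (fun u v => 3 + (v - u - 3) / 2) fun u v k => by omega) (fun t a ha => psi_phi (E t) ha)
    (fun t a ha => phi_psi (E t) (zo (E t) (F t) ha))
    (fun t a ha k k' => zo_ex (E t) (F t) k (zo (E t) (F t) ha) k') fun t a ha _ k =>
      have h := do_ex (E t) (F t) (ao_split (E t) (F t) ha k)
      ⟨_, h.1.mem, h.2⟩
  refine (congrArg₂ (· + ·) (d_left hF A.π A.eqx g t fun i j l u v => ?_)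
    (d_right hE A.π A.eqx g t fun i j l u v => ?_)).trans (sc_add _ _ _).symm
  · have := ao_ne ha u
    omega
  · have := ao_ne ha u
    omega

theorem chc_Θ : (pjA hE hF A.π A.sm A.nx A.cY A.χ fun a b => (b - a - 3) / 2).vb.chc =
    A.Θ (tw A.R 3 * gE A hF * du2 (gO A hE)) := by
  have h1 := Θ_gen A hE (¬2 ∣ ·) (fun n => wt n + 3) (-3) fun n u => by
    have := wt_odd u
    omega
  have h2 := Θ_gen A hF (2 ∣ ·) wt 0 fun n u => by
    have := wt_even u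
    omega
  rw [chc_A hE hF A.π A.sm A.nx A.cY, ← h1, ← h2, show gO A hE = hE.gen C fun n => if ¬2 ∣ n then tw A.R n else 0 by
    simp only [gO, ite_not], gE, A.Θ_mul, A.Θ_mul, A.Θ_mul, A.Θ_mul, A.Θ_du2, map_mul, A.Θ_tw,
    A.Θ_tw, A.Θ_tw, chh_du_ex, Int.cast_zero, neg_zero, zero_div, zero_smul, ex_zero, one_mul,
    ← neg_smul, Int.cast_neg, neg_neg, neg_div]
  ring

theorem pjX : Pj (chm fun i l => A.i.chr A.χ ^ ((p l - q i + 3) / 2)) fun t =>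
    Do (od p) (e (A.π.f (A.i.f t))) (evM (A.x (A.i.f t)) (d (A.π.f (A.i.f t)))) (od q)
      (f (A.π.f (A.i.f t))) (evM (A.x (A.i.f t)) (d' (A.π.f (A.i.f t)))) :=
  pjD hE hF (A.π.comp A.i) A.eqxX A.sm (A.cx.comp A.i.cf) (fun _ => A.nx _) A.cX A.onX

theorem chc_X (h : PjV A p e d) (h' : PjV A q f d') :
    (pjX A hE hF).vb.chc = du h.vb.chc * h'.vb.chc :=
  chc_D hE hF (A.π.comp A.i) A.eqxX A.sm (A.cx.comp A.i.cf) (fun _ => A.nx _) A.cX A.onX h h'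

theorem geo_hom : Hom (Mor.id _) ((pjZ hE hF A.π A.eqx A.sm A.cx A.nx A.cY).vb.pb A.i)
    (pjX A hE hF).vb fun t => rm (evM (A.x (A.i.f t)) (d (A.π.f (A.i.f t))) * od p) := by
  have E := fun t => fb (hE.pf.pf (A.π.f (A.i.f t))) A.sm (A.nx (A.i.f t))
  have F := fun t => fb (hF.pf.pf (A.π.f (A.i.f t))) A.sm (A.nx (A.i.f t))
  have cD : Continuous fun t => evM (A.x (A.i.f t)) (d (A.π.f (A.i.f t))) :=
    (hE.contD A.π A.cx).comp A.i.cf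
  refine hom_chm A.i _ _ (fun a => ?_) (fun t a ha => ?_) fun g t a ha => ?_
  · exact continuous_const.matrix_mul (cD.matrix_mul continuous_const)
  · exact psi_do (E t) (A.onX t) (zo (E t) (F t) ha)
  · exact psi_eqv (x := fun t => A.x (A.i.f t)) hE (A.π.comp A.i) A.eqxX g t ha.1.1
      (fun u v => (v - u + 3) / 2) fun u v k => by omega

theorem geo_gd : GD A ((pjZ hE hF A.π A.eqx A.sm A.cx A.nx A.cY).vb.chc -
    (pjA hE hF A.π A.sm A.nx A.cY A.χ fun a b => (b - a - 3) / 2).vb.chc) (pjX A hE hF).vb.chc := by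
  refine ⟨?_, A.gd (geo_em A hE hF) (geo_hom A hE hF) (fun t a ha => ?_) fun _ _ _ => Iff.rfl⟩
  · rw [map_sub, VB.chc, VB.chc, coeff_zero_chP, coeff_zero_chP, (geo_em A hE hF).rk, sub_self]
  · have k := do_ex (fb (hE.pf.pf (A.π.f (A.i.f t))) A.sm (A.nx (A.i.f t)))
      (fb (hF.pf.pf (A.π.f (A.i.f t))) A.sm (A.nx (A.i.f t))) ha
    exact ⟨_, k.1.mem, k.2⟩

omit hE hF in
/-- the geometry of two families -/
theorem stGeo2 : StGeo2 := fun A _ _ _ _ _ _ hE hF h h' =>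
  ⟨pjZ hE hF A.π A.eqx A.sm A.cx A.nx A.cY,
    (congrArg₂ (GD A) (congrArg (_ - ·) (chc_Θ A hE hF)) (chc_X A hE hF h h')).mp (geo_gd A hE hF)⟩

end Vale.Agent.P287T.Rr.G2
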