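import Vale.Agent.P287T.Rr.Geo2a
import Vale.Agent.P287T.Rr.Geo0
import Vale.Agent.P287T.Rr.Th

/-!
# The geometry of two families
-/

set_option linter.unusedSectionVars false

namespace Vale.Agent.P287T.Rr

open Set Function Module Matrix P291Z P269 P269.Ch P269.Grr P287T.Cy P287T.Fa P287T.Dn PowerSeries

namespace Gz

variable {ι κ : Type} [Fintype ι] [Fintype κ] {p : ι → ℤ} {q : κ → ℤ}

theorem wm_od (c : ℂ) (a : κ → ι → ℤ) (M : Matrix κ ι ℂ) : wm c a M * od p = wm c a (M * od p) := by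
  ext i l
  simp only [mul_od, wm, of_apply, mul_ite, mul_zero]

section fibre

variable {e D H : Matrix ι ι ℂ} {f D' : Matrix κ κ ℂ} {w : ℂ} {x : Matrix κ ι ℂ}
  (hE : Fb p e D H w)
include hE

theorem mem_A : x ∈ Sd (Vf (fun i => 2 ∣ q i) f 0) (e * od p) ↔ InA p e q f x :=
  ⟨fun ⟨h, c, k⟩ => ⟨(mem_Vf.1 h).1, (mem_Vf.1 h).2.1, by
      rw [← k, Matrix.mul_assoc, mul_assoc, od_even hE.pe, asc hE.ee],
      by rw [← k, Matrix.mul_assoc, mul_assoc, od_od]⟩,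
    fun h => ⟨mem_Vf.2 ⟨h.row, h.fa, Matrix.zero_mul _⟩, x, by rw [asc h.ae, h.as]⟩⟩

theorem mem_D (hw : w = 0) : x ∈ Sd (Vf (fun i => 2 ∣ q i + 0) f D') (D * od p) ↔
    InA p e q f x ∧ fi D D' x = 0 := by
  refine ⟨fun ⟨h, c, k⟩ => ⟨⟨fun i l u => (mem_Vf.1 h).1 i l (by omega), (mem_Vf.1 h).2.1, by
      rw [← k, Matrix.mul_assoc, mul_assoc, od_even hE.pe, asc hE.De],
      by rw [← k, Matrix.mul_assoc, mul_assoc, od_od]⟩, ?_⟩, fun h => ⟨mem_Vf.2
    ⟨fun i l u => h.1.row i l (by omega), h.1.fa, (ker_phi hE h.1 h.2).1⟩, x * H, by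
      rw [asc (xHD hE h.1.ae (ker_phi hE h.1 h.2).2), h.1.as]⟩⟩
  show D' * x + x * D = 0
  rw [(mem_Vf.1 h).2.2, ← k, Matrix.mul_assoc, mul_assoc, od_odd hE.pD, mul_sub, ← mul_assoc, hE.DD,
    hw, zero_smul, zero_mul, sub_zero, Matrix.mul_zero, add_zero]

end fibre

/-- the weights of the maps of charge `n` -/
def hw (p : ι → ℤ) (q : κ → ℤ) (n : ℤ) (i : κ) (l : ι) : ℤ := (n + p l - q i) / 2

/-- an equivariant family of fibres -/
structure FF {Y : Ch.Sp} (χ : Y.G →ₜ* ℂˣ) (s : Y.T → ℂ) (p : ι → ℤ) (e D H : Y.T → Matrix ι ι ℂ) :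
    Prop where
  fb : ∀ t, Fb p (e t) (D t) (H t) (s t)
  blk : ∀ t, Blk p p (e t)
  ce : Continuous e
  cD : Continuous D
  cH : Continuous H
  ee : ∀ (g : Y.G) t, e (g • t) = e t
  eD : ∀ (g : Y.G) t, D (g • t) = wm (χ g) (hw p p 3) (D t)

theorem ff {Y B : Ch.Sp} {χ : Y.G →ₜ* ℂˣ} {W : S6} {e : B.T → Matrix ι ι ℂ}
    {d : B.T → Matrix ι ι S6} (h : EF B W p e d) (m : Mor Y B) {x : Y.T → Fin 6 → ℂ}
    (cx : Continuous x) (hx : ∀ (g : Y.G) t, x (g • t) = (χ g : ℂ) • x t) (nx : ∀ t, x t ≠ 0)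
    (hs : Sm W) : FF χ (fun t => MvPolynomial.eval (x t) W) p (fun t => e (m.f t))
      (fun t => evM (x t) (d (m.f t))) fun t => hoM W (d (m.f t)) (x t) := by
  refine ⟨fun t => ?_, fun t => (h.pf.pf _).blk, h.pf.ce.comp m.cf, h.contD m cx,
    h.contH m cx hs nx, fun g t => by rw [m.eqv, h.ie], fun g t => Matrix.ext fun i j => ?_⟩
  · have k := h.pf.pf (m.f t)
    exact ⟨fun i j u => k.blk i j (by omega), fun i j u => pf_oD k _ i j (by omega),
      fun i j u => pf_oH k _ i j (by omega), k.ee, pf_eD k _, pf_De k _, pf_eH k _, pf_He k _,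
      pf_sq k _, pf_ho k hs (nx t)⟩
  · have k := h.eqm_d m hx (s := fun l => l = j) (w := fun _ => 0) (w' := fun i => hw p p 3 i j)
      (fun i l u v => by subst u; unfold hw; omega) g t i j rfl
    rwa [zpow_zero, mul_one] at k

variable {Y : Ch.Sp} {χ : Y.G →ₜ* ℂˣ} {s : Y.T → ℂ} {e D H : Y.T → Matrix ι ι ℂ}
  {f D' H' : Y.T → Matrix κ κ ℂ} (hE : FF χ s p e D H) (hF : FF χ s q f D' H') (g : Y.G) (t : Y.T)
  {n : ℤ} {x : Matrix κ ι ℂ}

theorem actK (x : Matrix κ ι ℂ) : (g • (show (chm fun i l => χ ^ ((p l - q i) / 2)).W from x) :) =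
    wm (χ g) (hw p q 0) x :=
  (chm_wm χ _ g x).trans (wm_congr fun _ _ _ => by unfold hw; omega)

theorem actA {e f} (h : InA p e q f x) :
    (g • (show (chm fun i l => χ ^ (-(q i / 2) - (3 - p l) / 2)).W from x) :) =
      wm (χ g) (hw p q (-3)) x :=
  (chm_wm χ _ g x).trans (wm_congr fun _ _ k => by have := h.dvd k; unfold hw; omega)

theorem actD {e f} (h : InA p e q f x) :
    (g • (show (chm fun i l => χ ^ (wt (q i) - -((p l + 3) / 2))).W from x) :) =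
      wm (χ g) (hw p q 3) x :=
  (chm_wm χ _ g x).trans (wm_congr fun _ _ k => by
    have := h.dvd k
    have := wt_even this.1
    unfold hw
    omega)

include hE

theorem FF.we {a : ι → ι → ℤ} (ha : ∀ i j, p i = p j → a i j = 0) :
    e (g • t) = wm (χ g) a (e t) :=
  (hE.ee g t).trans ((wm_zero _ _).symm.trans (wm_congr fun i j k =>
    (ha i j (by_contra fun u => k (hE.blk t i j u))).symm))

theorem FF.rD (h : Par p q n x) {n' : ℤ} (hn : n' = n + 3) :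
    wm (χ g) (hw p q n) x * D (g • t) = wm (χ g) (hw p q n') (x * D t) := by
  rw [hE.eD]
  refine wm_mul (χ g).ne_zero fun i k l u v => ?_
  have := h.dvd u
  have := (hE.fb t).pD.dvd v
  unfold hw
  omega

theorem FF.lD {x : Matrix ι κ ℂ} (h : Par q p n x) {n' : ℤ} (hn : n' = n + 3) :
    D (g • t) * wm (χ g) (hw q p n) x = wm (χ g) (hw q p n') (D t * x) := by
  rw [hE.eD]
  refine wm_mul (χ g).ne_zero fun i k l u v => ?_
  have := h.dvd v
  have := (hE.fb t).pD.dvd u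
  unfold hw
  omega

theorem FF.psi (h : Par p q 0 x) : wm (χ g) (hw p q 0) x * (D (g • t) * od p) =
    wm (χ g) (hw p q 3) (x * (D t * od p)) := by
  rw [asc (hE.rD g t (n' := 3) h rfl), wm_od, Matrix.mul_assoc]

theorem FF.onA : On χ (fun l => (3 - p l) / 2) (fun l => (3 - p l) / 2)
    (fun t => Vf (fun i => ¬2 ∣ p i) (e t) 0) (fun _ => od p) fun t => e t * od p := by
  refine ⟨continuous_const, hE.ce.matrix_mul continuous_const, fun t => mem_Vf.2 ⟨fun i l k => ?_,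
    asc (hE.fb t).ee _, zero_mul _⟩, fun t v hv => ?_, fun g t => ?_⟩
  · rw [← od_even (hE.fb t).pe, od_mul, if_pos (not_not.1 k)]
  · have : od p *ᵥ v = v := funext fun i => by
      rw [od_mulVec]
      split_ifs with k
      exacts [(hv.1 i (not_not.2 k)).symm, rfl]
    rw [this, ← mulVec_mulVec, this, hv.2.1]
  · rw [← wm_od, ← hE.we g t fun i j k => by rw [k, sub_self]]

theorem FF.onD (hs : ∀ t, s t = 0) : On χ (fun l => wt (p l)) (fun l => -((p l + 3) / 2))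
    (fun t => Vf (fun i => 2 ∣ p i + 0) (e t) (D t)) H fun t => D t * od p := by
  refine ⟨hE.cH, hE.cD.matrix_mul continuous_const, fun t => mem_Vf.2 ⟨fun i l k => ?_,
    asc (hE.fb t).eD _, by rw [asc (hE.fb t).DD, hs, zero_smul, zero_mul]⟩, fun t v hv => ?_,
    fun g t => ?_⟩
  · rw [mul_od]
    split_ifs
    exacts [rfl, (hE.fb t).pD i l (by omega)]
  · have h1 : od p *ᵥ v = 0 := funext fun i => by
      rw [od_mulVec]
      split_ifs with k
      exacts [rfl, hv.1 i (by omega)]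
    have h2 : D t * od p = D t - od p * D t := by rw [od_odd (hE.fb t).pD, sub_sub_cancel]
    have h3 : D t *ᵥ (H t *ᵥ v) = v := by
      rw [mulVec_mulVec, (hE.fb t).DH, sub_mulVec, hv.2.1, ← mulVec_mulVec, hv.2.2, mulVec_zero,
        sub_zero]
    rw [h2, sub_mulVec, ← mulVec_mulVec, h3, h1, sub_zero]
  · rw [hE.eD, wm_od]
    refine wm_congr fun i l k => ?_
    rw [mul_od] at k
    split_ifs at k
    · exact absurd rfl k
    · have := (hE.fb t).pD.dvd k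
      have := wt_even (a := p i) (by omega)
      unfold hw
      omega

include hF

theorem pjZ (cn : PreconnectedSpace Y.T) : Pj (chm fun i l => χ ^ ((p l - q i) / 2))
    fun t => Z0 p (e t) (D t) q (f t) (D' t) 0 := by
  refine ⟨⟨fun t => fi (D t) (D' t) ∘ₗ lm (H' t) ∘ₗ rm (e t) ∘ₗ evn p q,
    fun (x : Matrix κ ι ℂ) => ?_, fun t => pr_mem (hE.fb t) (hF.fb t),
    fun t _ => pr_eq (hE.fb t) (hF.fb t)⟩, fun g t (x : Matrix κ ι ℂ) h => ?_, cn⟩
  · have := hF.cH.matrix_mul ((continuous_const (y := evn p q x)).matrix_mul hE.ce)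
    exact (hF.cD.matrix_mul this).add (this.matrix_mul hE.cD)
  refine (congrArg (· ∈ Z0 p (e (g • t)) (D (g • t)) q (f (g • t)) (D' (g • t)) 0)
    (actK g x)).mpr ⟨⟨fun i l k => mul_eq_zero_of_right _ (h.1.1 i l k), ?_⟩, ?_⟩
  · rw [hE.we g t (a := fun _ _ => 0) fun _ _ _ => rfl, hF.we g t (a := fun _ _ => 0)
      fun _ _ _ => rfl, wm_mul (a' := hw p q 0) (χ g).ne_zero, wm_mul (a' := hw p q 0) (χ g).ne_zero,
      h.1.2]
    · intro i k l _ u
      have : p k = p l := by_contra fun v => u (hE.blk t k l v)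
      unfold hw
      omega
    · intro i k l u _
      have : q i = q k := by_contra fun v => u (hF.blk t i k v)
      unfold hw
      omega
  · rw [hE.rD g t (n' := 3) h.1.1 rfl, hF.lD g t (n' := 3) h.1.1 rfl, h.2]

theorem em (cn : PreconnectedSpace Y.T)
    (U : Pj (am χ fun i => -(q i / 2)) fun t => Vf (fun i => 2 ∣ q i) (f t) 0) :
    EM (χ ^ (3 : ℤ)) s (hE.onA.pj U).vb (pjZ hE hF cn).vb (fun t => fi (D t) (D' t))
      fun t => rm (D t * od p) := by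
  have m1 : ∀ t x, x ∈ Sd (Vf (fun i => 2 ∣ q i) (f t) 0) (e t * od p) →
      fi (D t) (D' t) x ∈ Z0 p (e t) (D t) q (f t) (D' t) 0 := fun t x h =>
    have k := (mem_A (hE.fb t)).1 h
    fi_mem (hE.fb t) (hF.fb t) k.par k.fa k.ae
  have m2 : ∀ t x, x ∈ Z0 p (e t) (D t) q (f t) (D' t) 0 →
      rm (D t * od p) x ∈ Sd (Vf (fun i => 2 ∣ q i) (f t) 0) (e t * od p) := fun t x h =>
    (mem_A (hE.fb t)).2 (psi_mem (hE.fb t) (hF.fb t) h)
  have a1 := fun t (x : Matrix κ ι ℂ) h =>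
    psi_phi (hE.fb t) (D' := D' t) ((mem_A (f := f t) (x := x) (q := q) (hE.fb t)).1 h)
  have a2 := fun t (x : Matrix κ ι ℂ) => phi_psi (hE.fb t) (f := f t) (D' := D' t) (g := x) (q := q)
  have x1 : ∀ t x, s t = 0 → x ∈ Z0 p (e t) (D t) q (f t) (D' t) 0 → rm (D t * od p) x = 0 →
      ∃ y ∈ Sd (Vf (fun i => 2 ∣ q i) (f t) 0) (e t * od p), fi (D t) (D' t) y = x :=
    fun t x h k k' => (ex_K (hE.fb t) (hF.fb t) h k k').imp fun _ u =>
      ⟨(mem_A (hE.fb t)).2 u.1, u.2⟩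
  have x2 : ∀ t x, s t = 0 → x ∈ Sd (Vf (fun i => 2 ∣ q i) (f t) 0) (e t * od p) →
      fi (D t) (D' t) x = 0 → ∃ y ∈ Z0 p (e t) (D t) q (f t) (D' t) 0, rm (D t * od p) y = x :=
    fun t x _ k => ex_A (hE.fb t) (hF.fb t) ((mem_A (hE.fb t)).1 k)
  have r1 : ∀ t, finrank ℂ (Sd (Vf (fun i => 2 ∣ q i) (f t) 0) (e t * od p)) =
      finrank ℂ (Z0 p (e t) (D t) q (f t) (D' t) 0) := fun t =>
    le_antisymm (rk_le (m1 t) (a1 t) (x2 t)) (rk_le (m2 t) (a2 t) (x1 t))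
  refine ⟨Hom.of_continuous m1 (((hF.cD.comp continuous_fst).matrix_mul continuous_snd).add
      (continuous_snd.matrix_mul (hE.cD.comp continuous_fst))) fun g t (x : Matrix κ ι ℂ) h => ?_,
    Hom.of_continuous m2 (continuous_snd.matrix_mul ((hE.cD.comp continuous_fst).matrix_mul
      continuous_const)) fun g t (x : Matrix κ ι ℂ) h => ?_, a1, a2, x1, x2,
    congrArg iSup (funext r1)⟩
  · have k := (mem_A (hE.fb t)).1 h
    have k' : Par p q (-3) x := fun i l u => k.par i l (by omega)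
    refine (congrArg (fi (D (g • t)) (D' (g • t))) (actA g k)).trans (.trans ?_ (actK g _).symm)
    show D' (g • t) * wm (χ g) (hw p q (-3)) x + wm (χ g) (hw p q (-3)) x * D (g • t) =
      wm (χ g) (hw p q 0) (D' t * x + x * D t)
    rw [hE.rD g t (n' := 0) k' rfl, hF.lD g t (n' := 0) k' rfl, wm_add]
  · refine (congrArg (rm (D (g • t) * od p)) (actK g x)).trans ((hE.psi g t h.1.1).trans (.trans ?_
      (congrArg₂ (fun (c : ℂ) (y : Matrix κ ι ℂ) => c • y) (zp_apply χ 3 g)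
        (actA g (psi_mem (hE.fb t) (hF.fb t) h))).symm))
    ext i l
    show (χ g : ℂ) ^ hw p q 3 i l * (x * (D t * od p)) i l =
      (χ g : ℂ) ^ (3 : ℤ) * ((χ g : ℂ) ^ hw p q (-3) i l * (x * (D t * od p)) i l)
    rw [← mul_assoc, ← zpow_add₀ (χ g).ne_zero, show 3 + hw p q (-3) i l = hw p q 3 i l by
      unfold hw; omega]

end Gz

open Gz

theorem sup_Θ {ι : Type} [Fintype ι] {W : S6} (A : Amb W) {p : ι → ℤ} {e : A.B.T → Matrix ι ι ℂ}
    {d : A.B.T → Matrix ι ι S6} (h : EF A.B W p e d) (s : ℤ → Prop) [DecidablePred s] (w : ℤ → ℤ)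
    (m : ℤ) (hw : ∀ n, s n → 2 * w n = -(n + m)) : (h.pj_sup A.π A.χ s w A.cY).vb.chc =
      A.Θ (tw A.R m) * A.Θ (h.gen C fun n => if s n then tw A.R n else 0) := by
  rw [chc_sup_gen h A.π A.χ s w A.cY, EF.gen, EF.gen, A.Θ_sum, Finset.mul_sum]
  refine Finset.sum_congr rfl fun n _ => ?_
  split_ifs with k
  · have : (2 * w n : ℂ) = -(n + m) := by exact_mod_cast hw n k
    rw [A.Θ_mul, A.Θ_C, mul_left_comm, A.Θ_tw, A.Θ_tw, ← ex_add, ← add_smul,
      ← Int.cast_smul_eq_zsmul ℂ, show (w n : ℂ) = -(m : ℂ) / 2 + -(n : ℂ) / 2 by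
        linear_combination this / 2]
  · rw [mul_zero, mul_zero, A.Θ_zero, mul_zero]

/-- **the geometry of two families** -/
theorem stGeo2 : StGeo2 := by
  intro ι κ _ _ W A p e d q f d' hE hF h h'
  have yE := ff hE A.π A.cx A.eqx A.nx A.sm
  have yF := ff hF A.π A.cx A.eqx A.nx A.sm
  have xE := ff hE (A.π.comp A.i) (A.cx.comp A.i.cf) A.eqxX (fun _ => A.nx _) A.sm
  have U := hF.pj_sup A.π A.χ (2 ∣ ·) (fun n => -(n / 2)) A.cY
  have k := em yE yF A.cY U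
  have e1 : (yE.onA.pj U).vb.chc = A.Θ (tw A.R 3 * gE A hF * du2 (gO A hE)) := by
    refine (yE.onA.chc U (hE.pj_sup A.π A.χ (¬2 ∣ ·) (fun n => (3 - n) / 2) A.cY)).trans
      ((congrArg₂ (fun a b => du a * b)
        (sup_Θ A hE (¬2 ∣ ·) (fun n => (3 - n) / 2) (-3) fun n _ => by omega)
        (sup_Θ A hF (2 ∣ ·) (fun n => -(n / 2)) 0 fun n _ => by omega)).trans ?_)
    rw [A.Θ_mul, A.Θ_mul, A.Θ_du2, map_mul, A.Θ_tw, A.Θ_tw, A.Θ_tw, chh_du_ex, ← neg_smul]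
    simp only [ite_not, Int.cast_zero, neg_zero, zero_div, zero_smul, ex_zero, one_mul,
      Int.cast_neg, neg_neg, ← neg_div]
    exact mul_right_comm _ _ _
  refine ⟨pjZ yE yF A.cY, (congrArg₂ (fun a b => GD A ((pjZ yE yF A.cY).vb.chc - a) b) e1
    ((xE.onD A.onX).chc h' h)).mp ?_⟩
  refine ⟨?_, A.gd (A.e3 ▸ k) (β := fun t => rm (evM (A.x (A.i.f t)) (d (A.π.f (A.i.f t))) * od p))
    (Hom.of_continuous (fun t (x : Matrix κ ι ℂ) u => (mem_D (xE.fb t) (A.onX t)).2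
      ⟨psi_mem (yE.fb _) (yF.fb _) u, (phi_psi (yE.fb _) u).trans (by rw [A.onX, zero_smul])⟩)
      (continuous_snd.matrix_mul ((xE.cD.comp continuous_fst).matrix_mul continuous_const))
      fun g t (x : Matrix κ ι ℂ) u => ?_) (fun t x u => ?_) fun _ _ _ => Iff.rfl⟩
  · rw [map_sub, VB.chc, VB.chc, coeff_zero_chP, coeff_zero_chP, k.rk, sub_self]
  · exact (congrArg (rm _) (actK (A.i.ρ g) x)).trans ((xE.psi g t u.1.1).trans
      (actD g (psi_mem (yE.fb _) (yF.fb _) u)).symm)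
  · have v := (mem_D (xE.fb t) (A.onX t)).1 u
    exact ex_A (yE.fb _) (yF.fb _) v.1 v.2

end Vale.Agent.P287T.Rr
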