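import Vale.Agent.P287T.Rr.Chh

/-!
# The geometry of two families: linear algebra of the fibres and bundles of maps
-/

set_option linter.unusedSectionVars false

namespace Vale.Agent.P287T.Rr.Gz

open Set Function Module Matrix P291Z P269 P269.Ch P269.Grr P287T.Cy P287T.Fa P287T.Dn PowerSeries

variable {ι κ μ : Type} [Fintype ι] [Fintype κ] [Fintype μ]

/-- the entries multiplied by powers of `c` -/
noncomputable def wm (c : ℂ) (a : κ → ι → ℤ) (M : Matrix κ ι ℂ) : Matrix κ ι ℂ :=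
  of fun i l => c ^ a i l * M i l

theorem wm_mul {c : ℂ} (hc : c ≠ 0) {a : μ → κ → ℤ} {b : κ → ι → ℤ} {a' : μ → ι → ℤ}
    {M : Matrix μ κ ℂ} {N : Matrix κ ι ℂ}
    (h : ∀ i k l, M i k ≠ 0 → N k l ≠ 0 → a i k + b k l = a' i l) :
    wm c a M * wm c b N = wm c a' (M * N) := by
  ext i l
  simp only [wm, mul_apply, of_apply, Finset.mul_sum]
  refine Finset.sum_congr rfl fun k _ => ?_
  by_cases h1 : M i k = 0
  · simp [h1]
  by_cases h2 : N k l = 0
  · simp [h2]
  rw [← h i k l h1 h2, zpow_add₀ hc, mul_mul_mul_comm]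

theorem wm_mulVec {c : ℂ} (hc : c ≠ 0) {a : κ → ι → ℤ} {w : ι → ℤ} {w' : κ → ℤ}
    (h : ∀ i l, a i l + w l = w' i) (M : Matrix κ ι ℂ) (v : ι → ℂ) :
    (wm c a M *ᵥ fun l => c ^ w l * v l) = fun i => c ^ w' i * (M *ᵥ v) i := by
  funext i
  simp only [wm, mulVec, dotProduct, of_apply, Finset.mul_sum]
  exact Finset.sum_congr rfl fun l _ => by rw [← h i l, zpow_add₀ hc, mul_mul_mul_comm]

theorem wm_add (c : ℂ) (a : κ → ι → ℤ) (M N : Matrix κ ι ℂ) :
    wm c a (M + N) = wm c a M + wm c a N := Matrix.ext fun _ _ => mul_add _ _ _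

theorem wm_congr {c : ℂ} {a a' : κ → ι → ℤ} {M : Matrix κ ι ℂ}
    (h : ∀ i l, M i l ≠ 0 → a i l = a' i l) : wm c a M = wm c a' M := Matrix.ext fun i l => by
  by_cases k : M i l = 0
  · simp [wm, k]
  · simp [wm, h i l k]

theorem wm_zero (c : ℂ) (M : Matrix κ ι ℂ) : wm c (fun _ _ => 0) M = M :=
  Matrix.ext fun _ _ => by simp [wm]

theorem chm_wm {Y : Ch.Sp} (χ : Y.G →ₜ* ℂˣ) (a : κ → ι → ℤ) (g : Y.G)
    (v : (chm fun i l => χ ^ a i l).W) : g • v = wm (χ g) a v :=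
  funext fun i => funext fun l => congrArg (· * (show κ → ι → ℂ from v) i l) (zp_apply χ (a i l) g)

/-- matrices of the parity of `a` -/
def Par (p : ι → ℤ) (q : κ → ℤ) (a : ℤ) (M : Matrix κ ι ℂ) : Prop :=
  ∀ i l, ¬2 ∣ a + p l - q i → M i l = 0

variable {p : ι → ℤ} {q : κ → ℤ} {r : μ → ℤ} {a b c : ℤ}

theorem Par.mul {M : Matrix μ κ ℂ} {N : Matrix κ ι ℂ} (h : Par q r a M) (h' : Par p q b N)
    (k : 2 ∣ a + b - c) : Par p r c (M * N) :=
  fun i l h1 => Finset.sum_eq_zero fun j _ => by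
    by_cases h2 : 2 ∣ a + q j - r i
    · exact mul_eq_zero_of_right _ (h' j l (by omega))
    · exact mul_eq_zero_of_left (h i j h2) _

theorem Par.add {M N : Matrix κ ι ℂ} (h : Par p q a M) (h' : Par p q a N) : Par p q a (M + N) :=
  fun i l k => by rw [Matrix.add_apply, h i l k, h' i l k, add_zero]

theorem Par.dvd {M : Matrix κ ι ℂ} (h : Par p q a M) {i : κ} {l : ι} (k : M i l ≠ 0) :
    2 ∣ a + p l - q i := by_contra fun k' => k (h i l k')

open Classical in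
/-- the projection to the odd generators -/
noncomputable def od (p : ι → ℤ) : Matrix ι ι ℂ := diagonal fun i => if 2 ∣ p i then 0 else 1

theorem mul_od (M : Matrix κ ι ℂ) (i : κ) (l : ι) :
    (M * od p) i l = if 2 ∣ p l then 0 else M i l := by
  classical
  rw [od, mul_diagonal, mul_ite, mul_zero, mul_one]

theorem od_mul (M : Matrix κ ι ℂ) (i : κ) (l : ι) :
    (od q * M) i l = if 2 ∣ q i then 0 else M i l := by
  classical
  rw [od, diagonal_mul, ite_mul, zero_mul, one_mul]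

theorem od_mulVec (v : ι → ℂ) (i : ι) : (od p *ᵥ v) i = if 2 ∣ p i then 0 else v i := by
  classical
  rw [od, mulVec_diagonal, ite_mul, zero_mul, one_mul]

theorem od_od : od p * od p = od p := by
  classical
  rw [od, diagonal_mul_diagonal]
  exact congrArg _ (funext fun i => by split_ifs <;> simp)

theorem od_odd {D : Matrix ι ι ℂ} (h : Par p p 1 D) : od p * D = D - D * od p := by
  ext i l
  rw [od_mul, Matrix.sub_apply, mul_od]
  split_ifs
  · rw [h i l (by omega), sub_zero]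
  · rw [sub_self]
  · rw [sub_zero]
  · rw [h i l (by omega), sub_zero]

theorem od_even {e : Matrix ι ι ℂ} (h : Par p p 0 e) : od p * e = e * od p := by
  ext i l
  rw [od_mul, mul_od]
  split_ifs
  exacts [rfl, (h i l (by omega)).symm, h i l (by omega), rfl]

theorem asc {ν ρ : Type} {A : Matrix ν κ ℂ} {B : Matrix κ ι ℂ} {C : Matrix ν ι ℂ} (h : A * B = C)
    (X : Matrix ι ρ ℂ) : A * (B * X) = C * X := by rw [← Matrix.mul_assoc, h]

/-- a fibre of a matrix factorization with its contraction -/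
structure Fb (p : ι → ℤ) (e D H : Matrix ι ι ℂ) (w : ℂ) : Prop where
  pe : Par p p 0 e
  pD : Par p p 1 D
  pH : Par p p 1 H
  ee : e * e = e
  eD : e * D = D
  De : D * e = D
  eH : e * H = H
  He : H * e = H
  DD : D * D = w • e
  h : D * H + H * D = e

/-- maps from the odd generators to the even generators -/
structure InA (p : ι → ℤ) (e : Matrix ι ι ℂ) (q : κ → ℤ) (f : Matrix κ κ ℂ) (a : Matrix κ ι ℂ) :
    Prop where
  row : ∀ i l, ¬2 ∣ q i → a i l = 0
  fa : f * a = a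
  ae : a * e = a
  as : a * od p = a

/-- the differential on odd maps -/
def fi (D : Matrix ι ι ℂ) (D' : Matrix κ κ ℂ) : Matrix κ ι ℂ →ₗ[ℂ] Matrix κ ι ℂ where
  toFun a := D' * a + a * D
  map_add' a b := by rw [Matrix.mul_add, Matrix.add_mul, add_add_add_comm]
  map_smul' c a := by rw [Matrix.mul_smul, Matrix.smul_mul, ← smul_add]; rfl

/-- multiplication on the right -/
def rm (X : Matrix ι μ ℂ) : Matrix κ ι ℂ →ₗ[ℂ] Matrix κ μ ℂ where
  toFun a := a * X
  map_add' a b := Matrix.add_mul a b X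
  map_smul' c a := Matrix.smul_mul c a X

/-- multiplication on the left -/
def lm (X : Matrix μ κ ℂ) : Matrix κ ι ℂ →ₗ[ℂ] Matrix μ ι ℂ where
  toFun a := X * a
  map_add' := Matrix.mul_add X
  map_smul' := Matrix.mul_smul X

/-- the even part -/
def evn (p : ι → ℤ) (q : κ → ℤ) : Matrix κ ι ℂ →ₗ[ℂ] Matrix κ ι ℂ where
  toFun a := of fun i l => if 2 ∣ 0 + p l - q i then a i l else 0
  map_add' a b := Matrix.ext fun i l => by by_cases h : 2 ∣ p l - q i <;> simp [h]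
  map_smul' c a := Matrix.ext fun i l => by simp

section fibre

variable {e D H : Matrix ι ι ℂ} {f D' H' : Matrix κ κ ℂ} {w : ℂ} {g x : Matrix κ ι ℂ}

theorem InA.dvd (h : InA p e q f x) {i : κ} {l : ι} (k : x i l ≠ 0) : 2 ∣ q i ∧ ¬2 ∣ p l :=
  ⟨by_contra fun k' => k (h.row i l k'), fun k' => k (by rw [← h.as, mul_od, if_pos k'])⟩

theorem InA.par (h : InA p e q f x) : Par p q 1 x := fun i l k => by_contra fun k' => by
  have := h.dvd k'
  omega

theorem Fb.DH (h : Fb p e D H w) : D * H = e - H * D := eq_sub_of_add_eq h.h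

theorem Fb.HD (h : Fb p e D H w) : H * D = e - D * H := eq_sub_of_add_eq' h.h

theorem Fb.sDs (h : Fb p e D H w) : od p * (D * od p) = 0 := by
  rw [asc (od_odd h.pD), Matrix.sub_mul, mul_assoc, od_od, sub_self]

variable (hE : Fb p e D H w) (hF : Fb q f D' H' w)
include hE

theorem inA_of (h : Par p q 1 x) (h1 : f * x = x) (h2 : x * e = x) : InA p e q f (x * od p) := by
  refine ⟨fun i l k => ?_, by rw [← Matrix.mul_assoc, h1], by
    rw [Matrix.mul_assoc, od_even hE.pe, ← Matrix.mul_assoc, h2], by rw [Matrix.mul_assoc, od_od]⟩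
  rw [mul_od]
  split_ifs
  exacts [rfl, h i l (by omega)]

theorem m0_e (h : g ∈ M0 p e q f a) : g * e = g := by
  rw [← h.2, Matrix.mul_assoc, hE.ee]

omit hE in
theorem m0_f (hF : Fb q f D' H' w) (h : g ∈ M0 p e q f a) : f * g = g := by
  rw [← h.2, ← Matrix.mul_assoc, ← Matrix.mul_assoc, hF.ee]

theorem a_Ds (h : InA p e q f x) : x * (D * od p) = 0 := by
  rw [← h.as, Matrix.mul_assoc, hE.sDs, Matrix.mul_zero]

theorem psi_phi (h : InA p e q f x) : rm (D * od p) (fi D D' x) = w • x := by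
  show (D' * x + x * D) * (D * od p) = _
  rw [Matrix.add_mul, Matrix.mul_assoc, a_Ds hE h, Matrix.mul_assoc, asc hE.DD, Matrix.smul_mul,
    Matrix.mul_smul, asc h.ae, h.as, Matrix.mul_zero, zero_add]

theorem phi_psi (h : g ∈ Z0 p e D q f D' 0) : fi D D' (rm (D * od p) g) = w • g := by
  show D' * (g * (D * od p)) + g * (D * od p) * D = _
  rw [asc h.2, Matrix.mul_assoc, Matrix.mul_assoc, ← Matrix.mul_add, mul_assoc, ← mul_add,
    od_odd hE.pD, add_sub_cancel, hE.DD, Matrix.mul_smul, m0_e hE h.1]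

theorem ker_phi (h : InA p e q f x) (k : fi D D' x = 0) : D' * x = 0 ∧ x * D = 0 := by
  have h1 : D' * x = 0 := by
    have := congrArg (· * od p) (show D' * x + x * D = 0 from k)
    simpa only [Matrix.add_mul, Matrix.mul_assoc, a_Ds hE h, h.as, add_zero, Matrix.zero_mul]
      using this
  exact ⟨h1, by simpa only [h1, zero_add] using show D' * x + x * D = 0 from k⟩

theorem xHD (h : x * e = x) (k : x * D = 0) : x * H * D = x := by
  rw [Matrix.mul_assoc, hE.HD, Matrix.mul_sub, h, asc k, Matrix.zero_mul, sub_zero]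

include hF

theorem fi_mem (h : Par p q 1 x) (h1 : f * x = x) (h2 : x * e = x) :
    fi D D' x ∈ Z0 p e D q f D' 0 := by
  refine ⟨⟨(hF.pD.mul h (by decide)).add (h.mul hE.pD (by decide)), ?_⟩, ?_⟩
  · show f * (D' * x + x * D) * e = D' * x + x * D
    simp only [Matrix.mul_add, Matrix.add_mul, Matrix.mul_assoc, asc hF.eD, asc h1, h2, hE.De]
  · show D' * (D' * x + x * D) = (D' * x + x * D) * D
    simp only [Matrix.mul_add, Matrix.add_mul, Matrix.mul_assoc, asc hF.DD, hE.DD, Matrix.smul_mul,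
      Matrix.mul_smul, h1, h2, add_comm]

theorem psi_mem (h : g ∈ Z0 p e D q f D' 0) : InA p e q f (rm (D * od p) g) := by
  show InA p e q f (g * (D * od p))
  rw [← Matrix.mul_assoc]
  exact inA_of hE (Par.mul h.1.1 hE.pD (by decide)) (asc (m0_f hF h.1) _)
    (by rw [Matrix.mul_assoc, hE.De])

theorem ex_K (hw : w = 0) (h : g ∈ Z0 p e D q f D' 0) (k : rm (D * od p) g = 0) :
    ∃ x, InA p e q f x ∧ fi D D' x = g := by
  have k1 : g * (D * od p) = 0 := k
  have h1 : D' * D' = 0 := by rw [hF.DD, hw, zero_smul]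
  have h2 : D' * (H' * (g * od p)) = g * od p := by
    rw [asc hF.DH, Matrix.sub_mul, asc (m0_f hF h.1), Matrix.mul_assoc, asc h.2, Matrix.mul_assoc,
      k1, Matrix.mul_zero, sub_zero]
  have h3 : g * (H * (od p * D)) = g - g * od p := by
    have h4 : H * od p = H - od p * H := by rw [od_odd hE.pH, sub_sub_cancel]
    rw [asc h4, ← Matrix.mul_assoc, Matrix.mul_sub, ← Matrix.mul_assoc, ← Matrix.sub_mul]
    refine xHD hE ?_ ?_
    · rw [Matrix.sub_mul, Matrix.mul_assoc, od_even hE.pe, asc (m0_e hE h.1), m0_e hE h.1]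
    · rw [Matrix.sub_mul, Matrix.mul_assoc, od_odd hE.pD, Matrix.mul_sub, k1, sub_zero, sub_self]
  refine ⟨_, inA_of hE (x := H' * g + D' * (H' * (g * H))) ((hF.pH.mul h.1.1 (by decide)).add
    (hF.pD.mul (hF.pH.mul (b := 1) (c := 0) (Par.mul h.1.1 hE.pH (by decide)) (by decide))
      (by decide))) ?_ ?_, ?_⟩
  · rw [Matrix.mul_add, asc hF.eH, asc hF.eD]
  · simp only [Matrix.add_mul, Matrix.mul_assoc, m0_e hE h.1, hE.He]
  · show D' * ((H' * g + D' * (H' * (g * H))) * od p) +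
      (H' * g + D' * (H' * (g * H))) * od p * D = g
    simp only [Matrix.mul_add, Matrix.add_mul, Matrix.mul_assoc, asc h1, Matrix.zero_mul, h2, h3,
      add_zero]
    rw [od_odd hE.pD, Matrix.mul_sub, k1, sub_zero, Matrix.mul_sub, Matrix.mul_sub, h2, add_sub,
      ← h.2, ← Matrix.mul_assoc H', ← Matrix.mul_assoc D', ← Matrix.add_mul, add_comm (H' * D'),
      hF.h, m0_f hF h.1, add_sub_cancel]

theorem ex_A (h : InA p e q f x) (k : fi D D' x = 0) :
    ∃ g ∈ Z0 p e D q f D' 0, rm (D * od p) g = x := by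
  obtain ⟨h1, h2⟩ := ker_phi hE h k
  have h3 : (x * H + H' * x) * D = x := by
    rw [Matrix.add_mul, xHD hE h.ae h2, Matrix.mul_assoc, h2, Matrix.mul_zero, add_zero]
  refine ⟨x * H + H' * x, ⟨⟨(h.par.mul hE.pH (by decide)).add (hF.pH.mul h.par (by decide)), ?_⟩,
    ?_⟩, (asc h3 _).trans h.as⟩
  · simp only [Matrix.mul_add, Matrix.add_mul, Matrix.mul_assoc, asc h.fa, hE.He, asc hF.eH, h.ae]
  · rw [h3, Matrix.mul_add, asc h1, asc hF.DH, Matrix.sub_mul, h.fa, Matrix.mul_assoc, h1,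
      Matrix.mul_zero, Matrix.zero_mul, sub_zero, zero_add]

theorem pr_mem (g : Matrix κ ι ℂ) :
    fi D D' (lm H' (rm e (evn p q g))) ∈ Z0 p e D q f D' 0 :=
  fi_mem hE hF (hF.pH.mul (b := 0) (Par.mul (a := 0) (fun _ _ k => if_neg k) hE.pe (by decide))
    (by decide))
    (asc hF.eH _) (show H' * (evn p q g * e) * e = H' * (evn p q g * e) by
      rw [Matrix.mul_assoc, Matrix.mul_assoc, hE.ee])

theorem pr_eq (h : g ∈ Z0 p e D q f D' 0) : fi D D' (lm H' (rm e (evn p q g))) = g := by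
  have h1 : evn p q g = g := Matrix.ext fun i l => by
    show ite _ _ _ = _
    split_ifs with k
    exacts [rfl, (h.1.1 i l k).symm]
  rw [h1]
  show D' * (H' * (g * e)) + H' * (g * e) * D = g
  rw [m0_e hE h.1, Matrix.mul_assoc, ← h.2, ← Matrix.mul_assoc, ← Matrix.mul_assoc,
    ← Matrix.add_mul, hF.h, m0_f hF h.1]

end fibre

/-- matrices with image in `U` which factor through `S` -/
def Sd (U : Submodule ℂ (κ → ℂ)) (S : Matrix ι ι ℂ) : Submodule ℂ (Matrix κ ι ℂ) where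
  carrier := {b | (∀ u, b *ᵥ u ∈ U) ∧ ∃ c : Matrix κ ι ℂ, c * S = b}
  zero_mem' := ⟨fun u => by rw [zero_mulVec]; exact zero_mem _, 0, Matrix.zero_mul _⟩
  add_mem' := fun ⟨h, c, k⟩ ⟨h', c', k'⟩ => ⟨fun u => by
    rw [add_mulVec]; exact add_mem (h u) (h' u), c + c', by rw [Matrix.add_mul, k, k']⟩
  smul_mem' := fun z _ ⟨h, c, k⟩ => ⟨fun u => by
    rw [smul_mulVec]; exact U.smul_mem z (h u), z • c, by rw [Matrix.smul_mul, k]⟩

theorem mem_Vf {s : κ → Prop} {f D : Matrix κ κ ℂ} {b : Matrix κ ι ℂ} :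
    (∀ u, b *ᵥ u ∈ Vf s f D) ↔ (∀ i l, ¬s i → b i l = 0) ∧ f * b = b ∧ D * b = 0 := by
  classical
  refine ⟨fun h => ⟨fun i l k => ?_, ext_iff_mulVec.2 fun u => ?_, ext_iff_mulVec.2 fun u => ?_⟩,
    fun h u => ⟨fun i k => Finset.sum_eq_zero fun l _ => mul_eq_zero_of_left (h.1 i l k) _,
      by rw [mulVec_mulVec, h.2.1], by rw [mulVec_mulVec, h.2.2, zero_mulVec]⟩⟩
  · simpa using (h (Pi.single l 1)).1 i k
  · rw [← mulVec_mulVec, (h u).2.1]
  · rw [← mulVec_mulVec, (h u).2.2, zero_mulVec]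

section hom

variable {Y : Ch.Sp} {χ : Y.G →ₜ* ℂˣ} {w w'' : ι → ℤ} {w' : κ → ℤ}
  {U : Y.T → Submodule ℂ (κ → ℂ)} {V : Y.T → Submodule ℂ (ι → ℂ)} {R S : Y.T → Matrix ι ι ℂ}

/-- `S` maps onto `V`, with the section `R` -/
structure On (χ : Y.G →ₜ* ℂˣ) (w w'' : ι → ℤ) (V : Y.T → Submodule ℂ (ι → ℂ))
    (R S : Y.T → Matrix ι ι ℂ) : Prop where
  cR : Continuous R
  cS : Continuous S
  mem : ∀ t u, S t *ᵥ u ∈ V t
  sec : ∀ t, ∀ v ∈ V t, S t *ᵥ (R t *ᵥ v) = v
  eqv : ∀ (g : Y.G) t, S (g • t) = wm (χ g) (fun i l => w i - w'' l) (S t)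

theorem pj_iv (h : Pj (am χ w) V) (g : Y.G) (t : Y.T) {v : ι → ℂ} (hv : v ∈ V t) :
    (fun i => (χ g : ℂ) ^ w i * v i) ∈ V (g • t) :=
  (congrArg (· ∈ V (g • t)) (am_smul χ w g v)).mp (h.iv g t v hv)

variable (h : On χ w w'' V R S) (hU : Pj (am χ w') U)
include h

theorem On.srs (t : Y.T) : S t * (R t * S t) = S t := by
  classical
  exact ext_iff_mulVec.2 fun u => by
    rw [← mulVec_mulVec, ← mulVec_mulVec, h.sec t _ (h.mem t u)]

theorem On.act (g : Y.G) (t : Y.T) (c : Matrix κ ι ℂ) :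
    wm (χ g) (fun i l => w' i - w l) c * S (g • t) =
      wm (χ g) (fun i l => w' i - w'' l) (c * S t) := by
  rw [h.eqv]
  exact wm_mul (χ g).ne_zero fun _ _ _ _ _ => sub_add_sub_cancel _ _ _

include hU

theorem On.pj : Pj (chm fun i l => χ ^ (w' i - w'' l)) fun t => Sd (U t) (S t) := by
  classical
  obtain ⟨P, h1, h2, h3⟩ := hU.ex
  let M : Y.T → Matrix κ κ ℂ := fun t => LinearMap.toMatrix' (show (κ → ℂ) →ₗ[ℂ] κ → ℂ from P t)
  have e1 : ∀ t u, M t *ᵥ u = P t u := fun t u => LinearMap.toMatrix'_mulVec _ _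
  have cM : Continuous M := continuous_matrix fun i j => (continuous_apply i).comp (h1 _)
  refine ⟨⟨fun t => lm (M t) ∘ₗ rm (R t * S t), fun (b : Matrix κ ι ℂ) => cM.matrix_mul
    (continuous_const.matrix_mul (h.cR.matrix_mul h.cS)), fun t (b : Matrix κ ι ℂ) =>
      ⟨fun u => ?_, M t * (b * R t), ?_⟩, fun t (b : Matrix κ ι ℂ) ⟨k, c, k'⟩ => ?_⟩,
    fun g t (b : Matrix κ ι ℂ) ⟨k, c, k'⟩ => ?_, hU.cn⟩
  · show (M t * (b * (R t * S t))) *ᵥ u ∈ U t
    rw [← mulVec_mulVec, e1]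
    exact h2 _ _
  · show _ = M t * (b * (R t * S t))
    rw [Matrix.mul_assoc, Matrix.mul_assoc]
  · show M t * (b * (R t * S t)) = b
    rw [show b * (R t * S t) = b by rw [← k', Matrix.mul_assoc, h.srs]]
    exact ext_iff_mulVec.2 fun u => by rw [← mulVec_mulVec, e1]; exact h3 _ _ (k u)
  · refine (congrArg (· ∈ Sd (U (g • t)) (S (g • t))) (chm_wm χ _ g b)).mpr
      ⟨fun u => ?_, _, (h.act g t c).trans (congrArg _ k')⟩
    have e2 := pj_iv hU g t (k fun l => (χ g : ℂ) ^ (-w'' l) * u l)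
    rw [← wm_mulVec (χ g).ne_zero (a := fun i l => w' i - w'' l) (w := w'')
      fun _ _ => sub_add_cancel _ _] at e2
    simpa only [← mul_assoc, ← zpow_add₀ (χ g).ne_zero, add_neg_cancel, zpow_zero, one_mul] using e2

theorem On.chc (hV : Pj (am χ w) V) : (h.pj hU).vb.chc = du hV.vb.chc * hU.vb.chc := by
  classical
  refine chc_hom (ev := fun t => (mulVecBilin ℂ ℂ).compl₂ (R t).mulVecLin)
    ⟨fun t b v k _ => k.1 _, fun (b : Matrix κ ι ℂ) v =>
      continuous_const.matrix_mulVec (h.cR.matrix_mulVec continuous_const),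
    fun g t (b : Matrix κ ι ℂ) (v : ι → ℂ) ⟨_, c, k⟩ hv => ?_,
    fun t (b : Matrix κ ι ℂ) ⟨_, c, k⟩ k' => ?_,
    fun t (φ : (ι → ℂ) →ₗ[ℂ] κ → ℂ) k => ⟨LinearMap.toMatrix' φ * S t,
      ⟨fun u => ?_, _, rfl⟩, fun (v : ι → ℂ) hv => ?_⟩⟩
  · have e1 := pj_iv hV g t hv
    refine (congrArg₂ (fun (x : Matrix κ ι ℂ) (y : ι → ℂ) => x *ᵥ (R (g • t) *ᵥ y))
      (chm_wm χ (fun i l => w' i - w'' l) g b) (am_smul χ w g v)).trans
        (.trans ?_ (am_smul χ w' g (b *ᵥ (R t *ᵥ v))).symm)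
    rw [← k, ← h.act, ← mulVec_mulVec, h.sec _ _ e1, ← mulVec_mulVec, h.sec _ _ hv]
    exact wm_mulVec (a := fun i l => w' i - w l) (w := w) (w' := w') (χ g).ne_zero
      (fun _ _ => sub_add_cancel _ _) c v
  · refine ext_iff_mulVec.2 fun u => ?_
    have e1 : b *ᵥ (R t *ᵥ (S t *ᵥ u)) = 0 := k' _ (h.mem t u)
    rw [mulVec_mulVec, mulVec_mulVec, ← k, Matrix.mul_assoc, Matrix.mul_assoc, h.srs, k] at e1
    exact e1.trans (zero_mulVec u).symm
  · rw [← mulVec_mulVec, LinearMap.toMatrix'_mulVec]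
    exact k _ (h.mem t u)
  · show (LinearMap.toMatrix' φ * S t) *ᵥ (R t *ᵥ v) = φ v
    rw [← mulVec_mulVec, h.sec t v hv, LinearMap.toMatrix'_mulVec]

end hom

theorem rk_le {U V : Type} [AddCommGroup U] [Module ℂ U] [AddCommGroup V] [Module ℂ V]
    [FiniteDimensional ℂ U] [FiniteDimensional ℂ V] {S : Submodule ℂ U} {T : Submodule ℂ V}
    {φ : U →ₗ[ℂ] V} {ψ : V →ₗ[ℂ] U} {w : ℂ} (h1 : ∀ a ∈ S, φ a ∈ T)
    (h2 : ∀ a ∈ S, ψ (φ a) = w • a) (h3 : ∀ a, w = 0 → a ∈ S → φ a = 0 → ∃ b ∈ T, ψ b = a) :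
    finrank ℂ S ≤ finrank ℂ T := by
  have e1 := finrank_inf_ker S φ
  have e2 := finrank_inf_ker T ψ
  by_cases hw : w = 0
  · have e3 := Submodule.finrank_mono (show S ⊓ LinearMap.ker φ ≤ T.map ψ from
      fun a k => h3 a hw k.1 k.2)
    have e4 := Submodule.finrank_mono (show S.map φ ≤ T ⊓ LinearMap.ker ψ by
      rintro _ ⟨a, k, rfl⟩
      exact ⟨h1 a k, (h2 a k).trans (by rw [hw, zero_smul])⟩)
    omega
  · rw [← finrank_map_of_inj (f := φ) fun a k k' => (smul_eq_zero.1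
      ((h2 a k).symm.trans (by rw [k', map_zero]))).resolve_left hw]
    exact Submodule.finrank_mono (by rintro _ ⟨a, k, rfl⟩; exact h1 a k)

end Vale.Agent.P287T.Rr.Gz
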