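import Vale.Agent.P287T.Rr.Num2

/-!
# Riemann-Roch over a base from the geometric statements
-/

set_option linter.unusedSectionVars false

namespace Vale.Agent.P287T.Rr

open Finset PowerSeries P269 P269.Ch P269.Grr P287T.Dn P287T.Cy

variable {ι κ : Type} [Fintype ι] [Fintype κ] {W : S6}

theorem zeta_root : ζ ^ 2 - ζ + 1 = 0 := by
  have h : (√3 : ℝ) * √3 = 3 := Real.mul_self_sqrt (by norm_num)
  refine Complex.ext ?_ ?_ <;> simp [ζ, sq] <;> nlinarith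

section gen

variable {B : Ch.Sp} {p : ι → ℤ} {e : B.T → Matrix ι ι ℂ} {d : B.T → Matrix ι ι S6} {q : κ → ℤ}
  {f : B.T → Matrix κ κ ℂ} {d' : B.T → Matrix κ κ S6} (hE : EF B W p e d) (hF : EF B W q f d')
  {S : Type} [CommRing S]

theorem gen_mul (φ ψ : (Hev B.X)⟦X⟧ → S) (y z : ℤ → S) : hE.gen φ y * hF.gen ψ z =
    ∑ x ∈ univ.image p ×ˢ univ.image q,
      φ (hE.Vn x.1).chc * ψ (hF.Vn x.2).chc * (y x.1 * z x.2) := by
  rw [EF.gen, EF.gen, sum_mul_sum, sum_product]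
  exact sum_congr rfl fun u _ => sum_congr rfl fun v _ => mul_mul_mul_comm _ _ _ _

theorem gen_gen (φ ψ : (Hev B.X)⟦X⟧ → S) (z : ℤ → ℤ → S) :
    (hE.gen φ fun u => hF.gen ψ fun v => z u v) = ∑ x ∈ univ.image p ×ˢ univ.image q,
      φ (hE.Vn x.1).chc * ψ (hF.Vn x.2).chc * z x.1 x.2 := by
  simp only [EF.gen, mul_sum, sum_product, mul_assoc]

theorem gen_map {S' : Type} [CommRing S'] (θ : S →+* S') (φ : (Hev B.X)⟦X⟧ → S) (y : ℤ → S) :
    θ (hE.gen φ y) = hE.gen (fun a => θ (φ a)) fun n => θ (y n) := by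
  simp only [EF.gen, map_sum, map_mul]

theorem Zc_mul {y : ℂ} (hy : y ^ 2 - y + 1 = 0) : du (hE.Zc y⁻¹) * hF.Zc y =
    ∑ x ∈ univ.image p ×ˢ univ.image q,
      du (hE.Vn x.1).chc * (hF.Vn x.2).chc * pw _ y (-(x.1 - x.2)) := by
  rw [EF.Zc, EF.Zc, gen_map, gen_mul]
  refine sum_congr rfl fun x _ => ?_
  rw [du_alg, neg_sub, sub_eq_neg_add, pw_add hy, inv_zpow']
  rfl

end gen

variable (A : Amb W) {p : ι → ℤ} {e : A.B.T → Matrix ι ι ℂ} {d : A.B.T → Matrix ι ι S6}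
  {q : κ → ℤ} {f : A.B.T → Matrix κ κ ℂ} {d' : A.B.T → Matrix κ κ S6} (hE : EF A.B W p e d)
  (hF : EF A.B W q f d')

theorem gam_eq : ∑ x ∈ univ.image p ×ˢ univ.image q, C (du (hE.Vn x.1).chc * (hF.Vn x.2).chc) *
    (ep (tw A.R) (x.1 - x.2) * tw A.R (-(x.1 - x.2))) =
      (1 - tw A.R 6) * (tw A.R 3 * gE A hF * du2 (gO A hE)) -
        tw A.R 6 * du2 (tw A.R 3 * gO A hE - tw A.R 6 * gE A hE) *
          (tw A.R 3 * gO A hF - tw A.R 6 * gE A hF) := by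
  have e₃ : tw A.R 3 * tw _ (-3) = 1 := by rw [← tw_add, add_neg_cancel, tw_zero]
  have e₆ : tw A.R 6 * tw _ (-6) = 1 := by rw [← tw_add, add_neg_cancel, tw_zero]
  have e : tw A.R 6 = tw _ 3 * tw _ 3 := tw_add 3 3
  have h : ∑ x ∈ univ.image p ×ˢ univ.image q, C (du (hE.Vn x.1).chc * (hF.Vn x.2).chc) *
      (ep (tw A.R) (x.1 - x.2) * tw A.R (-(x.1 - x.2))) =
      tw A.R 3 * (du2 (gO A hE) * gE A hF + du2 (gE A hE) * gO A hF) -
        tw A.R 6 * (du2 (gO A hE) * gO A hF + du2 (gE A hE) * gE A hF) := by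
    simp only [gE, gO, gen_map, gen_mul, mul_sum, ← sum_add_distrib, ← sum_sub_distrib, du2_C,
      apply_ite du2, du2_tw, map_zero]
    refine sum_congr rfl fun x _ => ?_
    rw [map_mul, neg_sub, sub_eq_neg_add x.2, tw_add, ep]
    split_ifs <;> first | omega | ring
  rw [h, map_sub, map_mul, map_mul, du2_tw, du2_tw]
  linear_combination (tw A.R 3 * du2 (gO A hE) * (tw A.R 3 * gO A hF - tw A.R 6 * gE A hF)) * e₃ -
    (du2 (gE A hE) * (tw A.R 3 * gO A hF - tw A.R 6 * gE A hF)) * e₆ +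
    (tw A.R (-3) * du2 (gO A hE) * (tw A.R 3 * gO A hF - tw A.R 6 * gE A hF) -
      du2 (gO A hE) * gO A hF) * e

theorem fS_add (m n : (Hev A.X.X)⟦X⟧) : A.fS (m + n) = A.fS m + A.fS n := by
  ext1 j
  simp only [Amb.fS, coeff_mk, map_add]

theorem lift_one (g : StGeo1) (h : PjV A p e d) : ∃ α, h.vb.chc = pS A.i.map (A.Θ α) +
    A.primS h.vb.chc ∧ ∀ k < 6,
      coeff k (tw A.R 3 * gO A hE - tw A.R 6 * gE A hE - (1 - tw _ 6) * α) = 0 := by
  obtain ⟨_, h1⟩ := g A hE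
  obtain ⟨⟨α, h2⟩, h3, h4⟩ := stPrim A h.vb
  obtain ⟨h5, h6⟩ := stLift A _ α _ (h2 ▸ h1) h3
  refine ⟨α, h2, fun k hk => ?_⟩
  rcases Nat.lt_succ_iff_lt_or_eq.1 hk with h7 | rfl
  · exact h5 k h7
  · have := (h4 1).1
    rwa [A.Θ_one, map_one, mul_one, ← h6] at this

/-- **Riemann-Roch over a base** -/
theorem stRR_of (g₁ : StGeo1) (g₂ : StGeo2) : StRR := by
  intro ι κ _ _ W A p e d q f d' hE hF h h' c z r a₀ N
  obtain ⟨α₁, a1, a2⟩ := lift_one A hE g₁ h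
  obtain ⟨α₂, b1, b2⟩ := lift_one A hF g₁ h'
  obtain ⟨hZ, c1⟩ := g₂ A hE hF h h'
  obtain ⟨-, a3, a4⟩ := stPrim A h.vb
  obtain ⟨-, b3, b4⟩ := stPrim A h'.vb
  obtain ⟨b, hb⟩ := (univ.image p ×ˢ univ.image q).finite_toSet.image (fun x => |x.1 - x.2|)
    |>.bddAbove
  have hb' : ∀ x ∈ univ.image p ×ˢ univ.image q, |x.1 - x.2| ≤ b := fun x hx => hb ⟨x, hx, rfl⟩
  have hc : ∀ a, c a = ∑ x ∈ univ.image p ×ˢ univ.image q,
      du (hE.Vn x.1).chc * (hF.Vn x.2).chc * (hs (a + (x.1 - x.2)) : A.R) := fun a => by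
    rw [N.cf, gen_gen]
    exact sum_congr rfl fun x _ => by rw [add_sub_assoc]
  have hr : ∀ j a, a₀ ≤ a → r j a = Fr z j a := fun j a ha =>
    Fr_eq N.r0 j a fun i b h1 _ => N.rs b i (by omega)
  have key2 : ∀ k : ℕ, |a₀| + |b| + 14 < 6 * k → rh c z (2 * k) =
      A.fS (du (A.primS h.vb.chc) * A.primS h'.vb.chc) - (81 : ℂ)⁻¹ •
        (du (hE.Zc ζ⁻¹) * hF.Zc ζ + du (hE.Zc ζ) * hF.Zc ζ⁻¹) := fun k hk => by
    have k0 := le_abs_self a₀
    have k1 := le_abs_self b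
    have k2 := abs_nonneg a₀
    have k3 := abs_nonneg b
    have hm : ∀ x ∈ univ.image p ×ˢ univ.image q,
        -(6 * k : ℤ) + 14 ≤ -(x.1 - x.2) ∧ -(x.1 - x.2) < 6 * k := fun x hx => by
      have := abs_le.1 (hb' x hx)
      omega
    have hz : ∀ a, (6 * k : ℤ) ≤ a → z a + z (a + 3) = c a := fun a ha => N.zc a (by omega)
    have h7 : ∀ a, (6 * k : ℤ) ≤ a → Fr z 7 a = 0 := fun a ha => by
      rw [← hr 7 a (by omega), N.r7]
    have h1 := Br_root hc hm (by omega) (by omega) hz h7 zeta_root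
    have h2 := Br_root hc hm (by omega) (by omega) hz h7 (rt_inv' zeta_root)
    have h3 := Br_one hc hm (by omega) (by omega) hz h7
    rw [← Zc_mul hE hF zeta_root] at h1
    rw [← Zc_mul hE hF (rt_inv' zeta_root), inv_inv] at h2
    have h4 : hZ.vb.chc = A.Θ (Tk (tw A.R) (fun b => C (z b)) (6 * k)) := by
      rw [N.ze hZ (3 * k) (by omega), Tk, show 2 * (3 * k : ℤ) = 6 * k by ring]
      exact congrArg _ (sum_congr rfl fun j _ => by rw [hr j _ (by omega), Fr_map])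
    have h5 : du h.vb.chc * h'.vb.chc = pS A.i.map (A.Θ (du2 α₁ * α₂)) +
        (du (A.primS h.vb.chc) * pS A.i.map (A.Θ α₂) +
          A.primS h'.vb.chc * pS A.i.map (A.Θ (du2 α₁)) +
            du (A.primS h.vb.chc) * A.primS h'.vb.chc) := by
      conv_lhs => rw [a1, b1]
      rw [A.Θ_mul, A.Θ_du2, map_mul, pS_du, map_add]
      ring
    have h6 : du (A.primS h.vb.chc) * C A.hX = 0 := by rw [← du_C, ← map_mul, a3, map_zero]
    rw [h4, ← A.Θ_sub, h5] at c1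
    obtain ⟨h8, h9⟩ := stLift A _ _ _ c1 (by
      linear_combination (pS A.i.map (A.Θ α₂) + A.primS h'.vb.chc) * h6 +
        pS A.i.map (A.Θ (du2 α₁)) * b3)
    rw [fS_add, fS_add, (a4 α₂).2, (b4 _).1, zero_add, zero_add] at h9
    rw [gam_eq, key a2 b2 h8 h9] at h3
    have h10 := rh_eq zeta_root c z k
    have h11 : (81 : A.R) * algebraMap ℂ A.R 81⁻¹ = 1 := by
      rw [← map_ofNat (algebraMap ℂ A.R), ← map_mul, mul_inv_cancel₀ (by norm_num), map_one]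
    rw [Algebra.smul_def]
    linear_combination (algebraMap ℂ A.R 81⁻¹) * (27 * h10 + h1 + h2 + 27 * h3) -
      (rh c z (2 * k) - A.fS (du (A.primS h.vb.chc) * A.primS h'.vb.chc)) * h11
  refine Filter.eventually_atTop.2 ⟨(|a₀| + |b| + 14).toNat, fun K hK => ?_⟩
  have k0 := le_abs_self a₀
  have k1 := le_abs_self b
  have k2 := abs_nonneg a₀
  have k3 := abs_nonneg b
  obtain ⟨k, rfl | rfl⟩ := Nat.even_or_odd' K
  · exact key2 k (by omega)
  · rw [rh_succ, key2 k (by omega)]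
    · rw [hc]
      exact sum_eq_zero fun x hx => by
        rw [hs_neg (by have := abs_le.1 (hb' x hx); omega), Nat.cast_zero, mul_zero]
    · exact N.zc _ (by omega)

end Vale.Agent.P287T.Rr
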