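import Vale.Agent.P287T.Rr.Pt
import Vale.Agent.P287T.Rb.Nd

/-!
# Riemann-Roch for matrix factorizations from the family version
-/

set_option linter.unusedSectionVars false

namespace Vale.Agent.P287T.Rr

open Module Finset Matrix PowerSeries P291Z P269 P269.Ch P269.Grr P287T.Cy P287T.Fa P287T.Rb
  P287Z.O P287Z.O.L P287Z.T

variable {ι κ : Type} [Fintype ι] [Fintype κ] [DecidableEq ι] [DecidableEq κ] {W : S6} {p : ι → ℤ}
  {d : Matrix ι ι S6} {q : κ → ℤ} {e : Matrix κ κ S6}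

theorem Cu.hg (c : Cu W) : V.Hg 6 W := fun m hm => by
  have h3 := c.hom hm
  simp only [Finsupp.weight_apply, Finsupp.sum, smul_eq_mul, Pi.one_apply, mul_one,
    nsmul_eq_mul] at h3 ⊢
  rw [← Finset.sum_mul, ← Nat.cast_sum, h3]
  rfl

theorem MP_one (a : ℤ) : MP p 1 q 1 a = MM p q a := Submodule.ext fun g =>
  ⟨fun h => h.1, fun h => ⟨h, by rw [cM_one, cM_one, Matrix.one_mul, Matrix.mul_one]⟩⟩

theorem ZP_one (a : ℤ) : ZP p 1 d q 1 e a = ZZ p d q e a :=
  inf_eq_right.2 fun _ h => (MP_one a).ge h.1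

theorem finrank_HH (hd : IsMF W p d) (he : IsMF W q e) (a : ℤ) :
    finrank ℂ (HH p d q e (a + 3)) + finrank ℂ (MP p 1 q 1 a) =
      finrank ℂ (ZP p 1 d q 1 e (a + 3)) + finrank ℂ (ZP p 1 d q 1 e a) := by
  let φ := (mulB κ ι ι).flip (eps p) ∘ₗ (dl d e 0).restrictScalars ℂ
  have h2 : (MP p 1 q 1 a).map φ = BB p d q e (a + 3) := Submodule.ext fun g =>
    ⟨fun h => ((seq_range (IsMF.isPF hd) (IsMF.isPF he)).2 h).2, fun h =>
      (seq_range (IsMF.isPF hd) (IsMF.isPF he)).1 ⟨(MP_one _).ge (by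
        obtain ⟨k, u, rfl⟩ := h
        exact add_mem (Cy.MM_mul he.deg u (by ring)) (Cy.MM_mul u hd.deg (by ring))), h⟩⟩
  have h3 : MP p 1 q 1 a ⊓ LinearMap.ker φ = ZP p 1 d q 1 e a := Submodule.ext fun g =>
    ⟨fun h => (seq_ker h.1).1 h.2, fun h => ⟨h.1, (seq_ker h.1).2 h⟩⟩
  have := finite_ZZ p d q e (a + 3)
  have : Module.Finite ℂ (MP p 1 q 1 a) := MP_one (p := p) (q := q) a ▸ finite_MM p q a
  have h4 := finrank_map_add (MP p 1 q 1 a) φ
  have h5 := finrank_hq (Z := ZZ p d q e (a + 3)) (B := BB p d q e (a + 3)) (by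
    rw [← h2]
    rintro _ ⟨g, hg, rfl⟩
    exact (seq_mem (IsMF.isPF hd) (IsMF.isPF he) hg).2)
  rw [h2, h3] at h4
  rw [ZP_one (a + 3), ← h4, ← h5, add_assoc]

theorem sum_HH {R : Type} [CommRing R] (hd : IsMF W p d) (he : IsMF W q e) {L N : ℤ} (h : L ≤ N) :
    ∑ k ∈ Ico L N, ((k.negOnePow : ℤ) : R) * finrank ℂ (MP p 1 q 1 (3 * k)) +
      (N.negOnePow : ℤ) * (finrank ℂ (ZP p 1 d q 1 e (3 * N)) : R) =
    ∑ k ∈ Ioc L N, ((k.negOnePow : ℤ) : R) * finrank ℂ (HH p d q e (3 * k)) +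
      (L.negOnePow : ℤ) * (finrank ℂ (ZP p 1 d q 1 e (3 * L)) : R) := by
  induction N, h using Int.leInduction with
  | base => simp
  | succ N h ih =>
    have h1 := congrArg (Nat.cast : ℕ → R) (finrank_HH hd he (3 * N))
    rw [← insert_Ico_right_eq_Ico_add_one h, sum_insert right_notMem_Ico,
      ← insert_Ioc_right_eq_Ioc_add_one h, sum_insert (by simp), Int.negOnePow_succ,
      show 3 * (N + 1) = 3 * N + 3 by ring]
    push_cast at h1 ⊢
    linear_combination ih + ((N.negOnePow : ℤ) : R) * h1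

theorem RH_const {B : Ch.Sp} [cn : ConnectedSpace B.T] (c : Cu W) (hd : IsMF W p d)
    (he : IsMF W q e) (hE : EF B W p (fun _ => 1) fun _ => d)
    (hF : EF B W q (fun _ => 1) fun _ => e) :
    ∀ᶠ K in Filter.atTop, constantCoeff (RH hE hF K) = chi p d q e := by
  obtain ⟨b, hb⟩ := exists_bound c.hg c.sm hd he
  obtain ⟨t⟩ := cn.2
  have k0 : 0 ≤ bd p q := sum_nonneg fun _ _ => abs_nonneg _
  refine Filter.eventually_atTop.2 ⟨b + (bd p q).toNat + 7, fun K hK => ?_⟩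
  have h1 := sum_HH (R := Hev B.X) hd he (L := -K) (N := K) (by omega)
  rw [show ZP p 1 d q 1 e (3 * -K) = ⊥ from eq_bot_iff.2 fun g h => MP_eq_zero (by omega) h.1,
    finrank_bot, Nat.cast_zero, mul_zero, add_zero, Int.cast_negOnePow_natCast] at h1
  rw [chi, finsum_eq_sum_of_support_subset (s := Ioc (-K : ℤ) K) _ fun k hk => ?_]
  · push_cast
    rw [← h1, RH, rh]
    simp only [map_add, map_sum, map_mul, map_intCast, map_pow, map_neg, map_one,
      ← coeff_zero_eq_constantCoeff_apply (cc _ _ _), ← coeff_zero_eq_constantCoeff_apply (zz _ _ _)]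
    rw [zz, (isB_ZP hE hF c.sm (by omega)).coeff_zero t]
    exact congrArg (· + _) (sum_congr rfl fun k _ => by rw [cc, (isB_MP hE hF _).coeff_zero t])
  · by_contra h2
    have := hb (3 * k) (by
      rw [coe_Ioc, Set.mem_Ioc] at h2
      rcases abs_cases (3 * k) with h | h <;> omega)
    exact hk (mul_eq_zero_of_right _ (Nat.cast_eq_zero.2 finrank_zero_of_subsingleton))

/-- **Riemann-Roch for matrix factorizations** from the geometric statements -/
theorem hrr_of (g₁ : StGeo1) (g₂ : StGeo2) (g₃ : StPt) : HRR := by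
  intro ι κ _ _ _ _ W c p d q e hd he
  obtain ⟨A, cn, hA⟩ := g₃ c
  have hE := efConst (IsMF.isPF hd) c.hg A.B cn.1
  have hF := efConst (IsMF.isPF he) c.hg A.B cn.1
  obtain ⟨h, -⟩ := g₁ A hE
  obtain ⟨h', -⟩ := g₁ A hF
  obtain ⟨K, h1, h2⟩ := ((stRR_of g₁ g₂ A hE hF h h' (nd A hE hF)).and
    (RH_const c hd he hE hF)).exists
  obtain ⟨t⟩ := cn.2
  have : Nonempty A.B.X := ⟨A.B.π t⟩
  refine alg_inj A.B.X ?_
  rw [RH, h1, map_sub, ← coeff_zero_eq_constantCoeff_apply, hA hd he, constantCoeff_smul, map_add,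
    map_mul, map_mul, cc_du, cc_du, cc_Zc _ t, cc_Zc _ t, cc_Zc _ t, cc_Zc _ t] at h2
  simp only [one_apply_eq, one_mul, ← zE_conj] at h2
  rw [map_intCast, ← h2, ← map_mul, ← map_mul, ← map_add, Algebra.smul_def, ← map_mul, ← map_sub]
  congr 2
  rw [Complex.re_eq_add_conj, map_mul, Complex.conj_conj]
  change _ * (_ * zE q + zE p * _) = _
  ring

end Vale.Agent.P287T.Rr
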