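import Vale.Agent.P287T.Rr.Hrr
import Vale.Agent.P287T.Rr.Geo1
import Vale.Agent.P287T.Rr.Geo2
import Vale.Agent.P287T.Rr.AmbP

/-!
# Riemann-Roch for graded matrix factorizations of a smooth cubic form in six variables
-/

namespace Vale.Agent.P287T.Rr

/-- **Riemann-Roch over a base** -/
theorem stRR : StRR := stRR_of stGeo1 stGeo2

/-- **Riemann-Roch for matrix factorizations** -/
theorem hrr : HRR := hrr_of stGeo1 stGeo2 stPt

end Vale.Agent.P287T.Rr
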