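import Vale.Agent.P287T.Rr.Kos2

/-!
# The numerical part of the Riemann-Roch theorem
-/

namespace Vale.Agent.P287T.Rr

open Module Finset P287T.Cy P287Z.O P287Z.O.L

section ring

variable {S S' : Type} [CommRing S] [CommRing S']

/-- the characters of the Koszul cycles, in terms of the Hilbert function -/
def Fr (u : ℤ → S) : ℕ → ℤ → S
  | 0, a => u a
  | j + 1, a => (Nat.choose 6 (j + 1) : S) * u a - Fr u j (a + 2)

theorem Fr_eq {u : ℤ → S} {ρ : ℕ → ℤ → S} (h0 : ∀ a, ρ 0 a = u a) : ∀ (j : ℕ) (a : ℤ),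
    (∀ (i : ℕ) b, a ≤ b → b + 2 + 2 * i = a + 2 * j →
      ρ i (b + 2) + ρ (i + 1) b = (Nat.choose 6 (i + 1) : S) * u b) → ρ j a = Fr u j a
  | 0, a, _ => h0 a
  | j + 1, a, h => by
    rw [Fr, ← Fr_eq h0 j (a + 2) fun i b h1 h2 => h i b (by omega) (by push_cast; omega),
      ← h j a le_rfl (by push_cast; omega), add_sub_cancel_left]

theorem Fr_map (φ : S →+* S') (u : ℤ → S) : ∀ j a, φ (Fr u j a) = Fr (fun a => φ (u a)) j a
  | 0, _ => rfl
  | j + 1, a => by rw [Fr, Fr, map_sub, map_mul, map_natCast, Fr_map φ u j]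

theorem Fr_zero {u : ℤ → S} : ∀ (j : ℕ) (a : ℤ), (∀ b ≤ a + 2 * j, u b = 0) → Fr u j a = 0
  | 0, a, h => h a (by omega)
  | j + 1, a, h => by
    rw [Fr, h a (by omega), Fr_zero j (a + 2) fun b hb => h b (by push_cast; omega), mul_zero,
      sub_zero]

theorem Fr_sum {K : Type} (s : Finset K) (A : K → S) (m : K → ℤ) (h : ℤ → S) : ∀ j a,
    Fr (fun a => ∑ x ∈ s, A x * h (a + m x)) j a = ∑ x ∈ s, A x * Fr h j (a + m x)
  | 0, _ => rfl
  | j + 1, a => by
    rw [Fr, Fr_sum s A m h j, mul_sum, ← sum_sub_distrib]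
    exact sum_congr rfl fun x _ => by rw [Fr, add_right_comm]; ring

theorem Fr_zc {c z : ℤ → S} : ∀ (j : ℕ) (a : ℤ), (∀ b, a ≤ b → z b + z (b + 3) = c b) →
    Fr z j a + Fr z j (a + 3) = Fr c j a
  | 0, a, h => h a le_rfl
  | j + 1, a, h => by
    rw [Fr, Fr, Fr, ← h a le_rfl, ← Fr_zc j (a + 2) fun b hb => h b (by omega),
      add_right_comm a 3 2]
    ring

variable {w : ℤ → S} (hw : ∀ a b, w (a + b) = w a * w b)

/-- the alternating sum of the Koszul cycles -/
def Tk (w u : ℤ → S) (a : ℤ) : S := ∑ j ∈ range 7, (-1) ^ j * Fr u j a * w (a + 2 * j)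

include hw in
theorem w_pow (a : ℤ) : ∀ j : ℕ, w (a + 2 * j) = w a * w 2 ^ j
  | 0 => by simp
  | j + 1 => by
    rw [Nat.cast_succ, mul_add, mul_one, ← add_assoc, hw, w_pow a j, pow_succ, mul_assoc]

include hw in
theorem Tk_step (u : ℤ → S) (a : ℤ) :
    Tk w u a = Tk w u (a + 2) + (1 - w 2) ^ 6 * (w a * u a) + w (a + 14) * Fr u 7 a := by
  rw [show a + 14 = a + 2 * (7 : ℕ) by norm_num]
  simp only [Tk, w_pow hw, hw, sum_range_succ, sum_range_zero, Fr, Nat.choose]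
  push_cast
  ring

include hw in
theorem Tk_zc {c z : ℤ → S} {a : ℤ} (h : ∀ b, a ≤ b → z b + z (b + 3) = c b) :
    w 3 * Tk w z a + Tk w z (a + 3) = w 3 * Tk w c a := by
  rw [Tk, Tk, Tk, mul_sum, mul_sum, ← sum_add_distrib]
  exact sum_congr rfl fun j _ => by
    rw [← Fr_zc j a h, add_right_comm, hw _ 3]; ring

/-- the two-periodic weight -/
def ep (w : ℤ → S) (j : ℤ) : S := if 2 ∣ j then -w 6 else w 3

theorem ep_two (j : ℤ) : ep w (j + 2) = ep w j := if_congr (by omega) rfl rfl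

include hw in
theorem Tk_tel {c : ℤ → S} {L : ℤ} (hL : ∀ b < L + 14, c b = 0) {N : ℤ} (h : L ≤ N) :
    ep w N * Tk w c N + ep w (N + 1) * Tk w c (N + 1) =
      -((1 - w 2) ^ 6 * ∑ j ∈ Ico L N, ep w j * w j * c j) -
        ∑ j ∈ Ico L N, ep w j * w (j + 14) * Fr c 7 j := by
  induction N, h using Int.leInduction with
  | base =>
    have h1 : ∀ a ≤ L + 1, Tk w c a = 0 := fun a ha => sum_eq_zero fun j hj => by
      rw [Fr_zero j a fun b hb => hL b (by have := mem_range.1 hj; omega), mul_zero, zero_mul]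
    simp [h1]
  | succ N h ih =>
    rw [← insert_Ico_right_eq_Ico_add_one h, sum_insert right_notMem_Ico,
      sum_insert right_notMem_Ico, add_assoc N, one_add_one_eq_two, ep_two]
    linear_combination ih - ep w N * Tk_step hw c N

/-- the bracket -/
noncomputable def Br (w c z : ℤ → S) (L a : ℤ) : S := w a * z a + w (a + 2) * z (a + 2) +
  w 3 * w (a + 1) * (z (a + 4) - c (a + 1)) - ∑ j ∈ Ico L a, ep w j * w j * c j

include hw in
/-- **the basic identity** -/
theorem gi {c z : ℤ → S} {L a : ℤ} (hL : ∀ b < L + 14, c b = 0) (h : L ≤ a) (ha : 2 ∣ a)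
    (hz : ∀ b, a ≤ b → z b + z (b + 3) = c b) (h7 : ∀ b, a ≤ b → Fr z 7 b = 0) :
    (1 - w 6) * Tk w z a = (1 - w 2) ^ 6 * Br w c z L a -
      ∑ j ∈ Ico L a, ep w j * w (j + 14) * Fr c 7 j := by
  have h1 := Tk_tel hw hL h
  have h2 := Tk_zc hw hz
  have h3 := Tk_zc hw (a := a + 3) fun b hb => hz b (by omega)
  have h4 := Tk_step hw z a
  have h5 := Tk_step hw z (a + 2)
  have h6 := Tk_step hw z (a + 2 + 2)
  have h8 := Tk_step hw c (a + 1)
  rw [← Fr_zc 7 _ fun b hb => hz b (by omega), h7 _ (by omega), h7 _ (by omega),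
    show a + 1 + 2 = a + 3 by ring] at h8
  rw [h7 _ (by omega)] at h4 h5 h6
  rw [show a + 2 + 2 + 2 = a + 3 + 3 by ring, show a + 2 + 2 = a + 4 by ring] at h6
  rw [show a + 2 + 2 = a + 4 by ring] at h5
  rw [ep, ep, if_pos ha, if_neg (by omega)] at h1
  have e6 : w 6 = w 3 * w 3 := hw 3 3
  have e4 : w (a + 4) = w 3 * w (a + 1) := by rw [← hw]; congr 1; ring
  rw [Br]
  linear_combination h4 + h5 + h6 + h1 + h3 - w 3 * h2 - w 3 * h8 +
    (Tk w c a - Tk w z a) * e6 + (1 - w 2) ^ 6 * z (a + 4) * e4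

end ring

/-- the Hilbert function of the polynomial ring -/
noncomputable abbrev hs (n : ℤ) : ℕ := finrank ℂ (HS n)

theorem hs_neg {n : ℤ} (h : n < 0) : hs n = 0 := by
  rw [hs, show HS n = ⊥ from eq_bot_iff.2 fun f hf => hga_neg_eq_zero hf h, finrank_bot]

theorem hs_zero : hs 0 = 1 := by
  rw [hs, show HS 0 = ℂ ∙ (1 : S6) from le_antisymm (fun f hf => ?_)
    ((Submodule.span_singleton_le_iff_mem _ _).2 (MvPolynomial.isWeightedHomogeneous_one _ _)),
    finrank_span_singleton one_ne_zero]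
  have h1 : f.IsHomogeneous 0 := hg_hom (k := 0) hf
  rw [MvPolynomial.totalDegree_eq_zero_iff_eq_C.1 (Nat.le_zero.1 h1.totalDegree_le),
    MvPolynomial.C_eq_smul_one]
  exact Submodule.smul_mem _ _ (Submodule.mem_span_singleton_self _)

theorem Fr_hs {S : Type} [CommRing S] (a : ℤ) :
    Fr (fun n => (hs n : S)) 7 a = if a = -14 then -1 else 0 := by
  split_ifs with h
  · simp only [h, Fr, Int.reduceAdd, Int.reduceNeg, hs_zero, neg_add_cancel,
      hs_neg (show (-14 : ℤ) < 0 by norm_num), hs_neg (show (-12 : ℤ) < 0 by norm_num),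
      hs_neg (show (-10 : ℤ) < 0 by norm_num), hs_neg (show (-8 : ℤ) < 0 by norm_num),
      hs_neg (show (-6 : ℤ) < 0 by norm_num), hs_neg (show (-4 : ℤ) < 0 by norm_num),
      hs_neg (show (-2 : ℤ) < 0 by norm_num)]
    simp
  · rw [← Fr_eq (ρ := fun j n => (finrank ℂ (FF (HS n) j) : S))
      (fun n => by have := fin_HS n; rw [finrank_FF_zero]) 7 a fun i b _ h2 => by
        have := fin_HS b
        rw [← Nat.cast_add, (ke_HS (by push_cast at h2; omega)).finrank (mu_HS b), Nat.cast_mul],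
      finrank_FF_top _ (by norm_num), Nat.cast_zero]

/-- the error term for a free module -/
theorem sum_Fr {S K : Type} [CommRing S] (s : Finset K) (A : K → S) (m : K → ℤ) (g : ℤ → S)
    {L a : ℤ} (h : ∀ x ∈ s, -m x - 14 ∈ Ico L a) :
    ∑ j ∈ Ico L a, g j * Fr (fun b => ∑ x ∈ s, A x * (hs (b + m x) : S)) 7 j =
      -∑ x ∈ s, A x * g (-m x - 14) := by
  simp only [Fr_sum s A m fun n => (hs n : S), Fr_hs, mul_sum]
  rw [sum_comm, ← sum_neg_distrib]
  refine sum_congr rfl fun x hx => (sum_eq_single_of_mem _ (h x hx) fun j _ hj => ?_).trans ?_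
  · rw [if_neg (by omega), mul_zero, mul_zero]
  · rw [if_pos (by omega)]; ring

theorem sum_three {M : Type} [AddCommMonoid M] (g : ℤ → M) : ∀ K : ℕ,
    ∑ j ∈ Ico (-(3 * K : ℤ)) (3 * K), g j =
      ∑ k ∈ Ico (-K : ℤ) K, (g (3 * k) + g (3 * k + 1) + g (3 * k + 2)) := by
  intro K
  have h : ∀ i : ℤ, ∑ k ∈ Ico (-K : ℤ) K, g (3 * k + i) =
      ∑ j ∈ (Ico (-K : ℤ) K).image (3 * · + i), g j := fun i =>
    (sum_image fun x _ y _ h => by simpa using h).symm
  have h0 := h 0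
  simp only [add_zero] at h0
  rw [sum_add_distrib, sum_add_distrib, h0, h, h, ← sum_union, ← sum_union]
  · refine sum_congr (Finset.ext fun j => ?_) fun _ _ => rfl
    simp only [mem_union, mem_image, mem_Ico]
    refine ⟨fun hj => ?_, by rintro ((⟨k, h1, rfl⟩ | ⟨k, h1, rfl⟩) | ⟨k, h1, rfl⟩) <;> omega⟩
    have : j % 3 = 0 ∨ j % 3 = 1 ∨ j % 3 = 2 := by omega
    rcases this with h1 | h1 | h1
    exacts [.inl (.inl ⟨j / 3, by omega, by omega⟩), .inl (.inr ⟨j / 3, by omega, by omega⟩),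
      .inr ⟨j / 3, by omega, by omega⟩]
  all_goals
    simp only [disjoint_left, mem_union, mem_image]
    omega

end Vale.Agent.P287T.Rr
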