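import Vale.Agent.P287T.Rr.Th
import Vale.Agent.P287T.Rr.Num

/-!
# The numerical part of the Riemann-Roch theorem: evaluation at the cube roots of `-1`
-/

set_option linter.unusedSectionVars false

namespace Vale.Agent.P287T.Rr

open Finset PowerSeries P269.Grr P287T.Dn

variable {R : Type} [CommRing R] [Algebra ℂ R]

theorem tw_add (a b : ℤ) : tw R (a + b) = tw R a * tw R b := by
  rw [tw, tw, tw, ← ex_add, ← map_add]
  congr 2
  push_cast
  ring

theorem tw_zero : tw R 0 = 1 := by rw [tw, Int.cast_zero, neg_zero, zero_div, map_zero, ex_zero]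

theorem cc_tw (a : ℤ) : constantCoeff (tw R a) = 1 := by
  rw [tw, ex, constantCoeff_ev, constantCoeff_exp, map_one]

theorem one_sub_tw (a : ℤ) :
    ∃ g : R⟦X⟧, 1 - tw R a = X * g ∧ constantCoeff g = algebraMap ℂ R (a / 2) := by
  obtain ⟨g, hg⟩ : X ∣ 1 - tw R a := X_dvd_iff.2 (by rw [map_sub, map_one, cc_tw, sub_self])
  refine ⟨g, hg, ?_⟩
  have := congrArg (coeff 1) hg
  rw [coeff_succ_X_mul, map_sub, tw, ex, coeff_ev, coeff_exp, coeff_one, if_neg one_ne_zero,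
    coeff_zero_eq_constantCoeff_apply] at this
  rw [← this]
  simp [neg_div]

theorem coeff_X_pow_mul_self (n : ℕ) (y : R⟦X⟧) : coeff n (X ^ n * y) = constantCoeff y := by
  have := coeff_X_pow_mul y n 0
  rwa [zero_add, coeff_zero_eq_constantCoeff_apply] at this

theorem du_alg (z : ℂ) : du (algebraMap ℂ R⟦X⟧ z) = algebraMap ℂ R⟦X⟧ z := by
  rw [PowerSeries.algebraMap_apply, du_C]

theorem du2_C (a : R⟦X⟧) : du2 (C a : R⟦X⟧⟦X⟧) = C (du a) := by
  rw [du2, RingHom.comp_apply, map_C]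
  exact du_C _

theorem du2_X : du2 (X : R⟦X⟧⟦X⟧) = -X := by
  rw [du2, RingHom.comp_apply, map_X]
  exact du_X

theorem du2_tw (a : ℤ) : du2 (tw R⟦X⟧ a) = tw R⟦X⟧ (-a) := PowerSeries.ext fun n => by
  rw [du2, RingHom.comp_apply, coeff_rescale, coeff_map, tw, tw, ex, ex, coeff_ev, coeff_ev,
    Algebra.smul_def, Algebra.smul_def, map_mul, map_pow, du_alg, du_alg, mul_left_comm, ← mul_pow,
    neg_one_mul, ← map_neg, Int.cast_neg, neg_div (2 : ℂ) (-(a : ℂ))]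

/-- powers of a complex number -/
noncomputable def pw (R : Type) [CommRing R] [Algebra ℂ R] (y : ℂ) (j : ℤ) : R :=
  algebraMap ℂ R (y ^ j)

section root

variable {y : ℂ} (hy : y ^ 2 - y + 1 = 0)
include hy

theorem rt_ne : y ≠ 0 := fun h => by simp [h] at hy

theorem pw_add (a b : ℤ) : pw R y (a + b) = pw R y a * pw R y b := by
  rw [pw, zpow_add₀ (rt_ne hy), map_mul, pw, pw]

theorem rt_three : y ^ (3 : ℤ) = -1 := by
  rw [zpow_ofNat]; linear_combination (y + 1) * hy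

theorem pw_three : pw R y 3 = -1 := by rw [pw, rt_three hy, map_neg, map_one]

theorem pw_six : pw R y 6 = 1 := by
  rw [show (6 : ℤ) = 3 + 3 from rfl, pw_add hy, pw_three hy, neg_mul_neg, one_mul]

theorem pw_mul (k : ℤ) : pw R y (3 * k) = (k.negOnePow : ℤ) := by
  rw [pw, zpow_mul, rt_three hy, ← Int.cast_negOnePow, map_intCast]

theorem ep_pw (j : ℤ) : ep (pw R y) j = -1 := by
  rw [ep, pw_six hy, pw_three hy, ite_self]

theorem pw_two : (1 - pw R y 2) ^ 6 = -27 := by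
  have : (1 - y ^ 2) ^ 6 = -27 := by
    linear_combination (y ^ 10 + y ^ 9 - 6 * y ^ 8 - 7 * y ^ 7 + 14 * y ^ 6 + 21 * y ^ 5 -
      13 * y ^ 4 - 34 * y ^ 3 - 6 * y ^ 2 + 28 * y + 28) * hy
  rw [pw, zpow_ofNat, ← map_one (algebraMap ℂ R), ← map_sub, ← map_pow, this, map_neg, map_ofNat]

theorem rt_inv : y⁻¹ = 1 - y := inv_eq_of_mul_eq_one_right (by linear_combination -hy)

theorem rt_inv' : y⁻¹ ^ 2 - y⁻¹ + 1 = 0 := by rw [rt_inv hy]; linear_combination hy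

theorem pw_one : pw R y 1 + pw R y⁻¹ 1 = 1 := by
  rw [pw, pw, zpow_one, zpow_one, rt_inv hy, ← map_add, add_sub_cancel, map_one]

theorem pw_two' : pw R y 2 + pw R y⁻¹ 2 = -1 := by
  rw [pw, pw, zpow_ofNat, zpow_ofNat, rt_inv hy, ← map_add,
    show y ^ 2 + (1 - y) ^ 2 = -1 by linear_combination 2 * hy, map_neg, map_one]

theorem rh_eq (c z : ℤ → R) (k : ℕ) : 3 * rh c z (2 * k) = Br (fun _ => 1) c z (-(6 * k)) (6 * k) +
    Br (pw R y) c z (-(6 * k)) (6 * k) + Br (pw R y⁻¹) c z (-(6 * k)) (6 * k) := by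
  have hy' := rt_inv' hy
  have e1 : ∀ m : ℤ, ep (fun _ => (1 : R)) m = -(m.negOnePow : ℤ) := fun m => by
    rw [ep]
    split_ifs with h
    · rw [Int.negOnePow_even _ (even_iff_two_dvd.2 h)]; simp
    · rw [Int.negOnePow_odd _ (Int.not_even_iff_odd.1 (mt even_iff_two_dvd.1 h))]; simp
  have e2 : ∀ m : ℤ, ((3 * m).negOnePow : ℤ) = m.negOnePow := fun m => congrArg _
    ((Int.negOnePow_eq_iff _ _).2 ⟨m, by ring⟩)
  have e3 : ((2 * k : ℕ) : ℤ).negOnePow = 1 := Int.negOnePow_even _ ⟨k, by push_cast; ring⟩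
  have e4 := pw_mul (R := R) hy (2 * k : ℕ)
  have e5 := pw_mul (R := R) hy' (2 * k : ℕ)
  rw [e3] at e4 e5
  have h : ∑ j ∈ Ico (-(3 * (2 * k : ℕ) : ℤ)) (3 * (2 * k : ℕ)), -(ep (fun _ => 1) j * 1 * c j +
      ep (pw R y) j * pw R y j * c j + ep (pw R y⁻¹) j * pw R y⁻¹ j * c j) =
      3 * ∑ m ∈ Ico (-(2 * k : ℕ) : ℤ) (2 * k : ℕ), (m.negOnePow : ℤ) * c (3 * m) := by
    rw [sum_three, mul_sum]
    refine sum_congr rfl fun m _ => ?_
    simp only [ep_pw hy, ep_pw hy', e1, pw_add hy, pw_add hy', pw_mul hy, pw_mul hy',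
      Int.negOnePow_add, Units.val_mul, e2, Int.negOnePow_one, show Int.negOnePow 2 = 1 from rfl, Units.val_neg,
      Units.val_one]
    push_cast
    linear_combination ((m.negOnePow : ℤ) * c (3 * m + 1)) * pw_one (R := R) hy +
      ((m.negOnePow : ℤ) * c (3 * m + 2)) * pw_two' (R := R) hy
  rw [show (6 * k : ℤ) = 3 * (2 * k : ℕ) by push_cast; ring, rh, Br, Br, Br, pw_add hy, pw_add hy,
    pw_add hy', pw_add hy', e4, e5, pw_three hy, pw_three hy', pow_mul, neg_one_sq, one_pow]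
  rw [sum_neg_distrib, sum_add_distrib, sum_add_distrib] at h
  simp only [Units.val_one, Int.cast_one]
  linear_combination -h - z (3 * (2 * k : ℕ) + 2) * pw_two' (R := R) hy +
    (z (3 * (2 * k : ℕ) + 4) - c (3 * (2 * k : ℕ) + 1)) * pw_one (R := R) hy

end root

theorem rh_succ {c z : ℤ → R} {K : ℕ} (h0 : c (3 * (-K - 1)) = 0)
    (h : z (3 * K) + z (3 * K + 3) = c (3 * K)) : rh c z (K + 1) = rh c z K := by
  rw [rh, rh, Nat.cast_succ, ← insert_Ico_right_eq_Ico_add_one (by omega),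
    sum_insert right_notMem_Ico, ← insert_Ico_add_one_left_eq_Ico (by omega),
    sum_insert (by simp), show -((K : ℤ) + 1) + 1 = -K by ring,
    show -((K : ℤ) + 1) = -K - 1 by ring, h0, mul_add, mul_one, ← h, Int.cast_negOnePow_natCast]
  ring

section free

variable {K : Type} {s : Finset K} {A : K → R} {m : K → ℤ} {c z : ℤ → R} {L a : ℤ}
  (hc : ∀ b, c b = ∑ x ∈ s, A x * (hs (b + m x) : R)) (hm : ∀ x ∈ s, L + 14 ≤ -m x ∧ -m x < a)
  (h : L ≤ a) (ha : 2 ∣ a) (hz : ∀ b, a ≤ b → z b + z (b + 3) = c b)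
  (h7 : ∀ b, a ≤ b → Fr z 7 b = 0)

include hc hm in
theorem c_low (b : ℤ) (hb : b < L + 14) : c b = 0 := by
  rw [hc]
  exact sum_eq_zero fun x hx => by
    rw [hs_neg (by have := hm x hx; omega), Nat.cast_zero, mul_zero]

include hc hm h ha hz h7 in
theorem gi_free {w : ℤ → R} (hw : ∀ a b, w (a + b) = w a * w b) :
    (1 - w 6) * Tk w z a = (1 - w 2) ^ 6 * Br w c z L a + ∑ x ∈ s, A x * (ep w (m x) * w (-m x)) := by
  rw [gi hw (c_low hc hm) h ha hz h7, funext hc, sum_Fr s A m (fun j => ep w j * w (j + 14))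
    fun x hx => mem_Ico.2 (by have := hm x hx; omega), sub_neg_eq_add]
  congr 1
  exact sum_congr rfl fun x _ => by
    rw [sub_add_cancel, ep, ep, if_congr (show 2 ∣ -m x - 14 ↔ 2 ∣ m x by omega) rfl rfl]

include hc hm h ha hz h7 in
theorem Br_root {y : ℂ} (hy : y ^ 2 - y + 1 = 0) :
    27 * Br (pw R y) c z L a = -∑ x ∈ s, A x * pw R y (-m x) := by
  have := gi_free hc hm h ha hz h7 (pw_add hy)
  simp only [pw_six hy, pw_two hy, ep_pw hy, neg_one_mul, mul_neg, sum_neg_distrib] at this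
  linear_combination this

include hc hm h ha hz h7 in
theorem Br_one : Br (fun _ => 1) c z L a = coeff 6 ((1 - tw R 6) * Tk (tw R) (fun b => C (z b)) a -
    ∑ x ∈ s, C (A x) * (ep (tw R) (m x) * tw R (-m x))) := by
  rw [gi_free (s := s) (A := fun x => C (A x)) (m := m) (c := fun b => C (c b)) (L := L)
    (fun b => by simp only [hc, map_sum, map_mul, map_natCast]) hm h ha
    (fun b hb => by rw [← map_add, hz b hb]) (fun b hb => by rw [← Fr_map, h7 b hb, map_zero])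
    tw_add, add_sub_cancel_right]
  obtain ⟨g, h1, h2⟩ := one_sub_tw (R := R) 2
  rw [h1, mul_pow, mul_assoc, coeff_X_pow_mul_self, map_mul, map_pow, h2]
  simp [Br, ep, apply_ite constantCoeff, cc_tw]

end free

/-- the comparison of the three divisor formulas -/
theorem key {G₁ G₂ α₁ α₂ Φ B : R⟦X⟧⟦X⟧} {ν : R⟦X⟧}
    (h₁ : ∀ k < 6, coeff k (G₁ - (1 - tw _ 6) * α₁) = 0)
    (h₂ : ∀ k < 6, coeff k (G₂ - (1 - tw _ 6) * α₂) = 0)
    (h₃ : ∀ k < 5, coeff k (Φ - B - (1 - tw _ 6) * (du2 α₁ * α₂)) = 0)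
    (h₄ : coeff 5 (Φ - B - (1 - tw _ 6) * (du2 α₁ * α₂)) = ν) :
    coeff 6 ((1 - tw _ 6) * Φ - ((1 - tw _ 6) * B - tw _ 6 * du2 G₁ * G₂)) = 3 * ν := by
  obtain ⟨y₁, e₁⟩ := X_pow_dvd_iff.2 h₁
  obtain ⟨y₂, e₂⟩ := X_pow_dvd_iff.2 h₂
  obtain ⟨y₃, e₃⟩ := X_pow_dvd_iff.2 h₃
  obtain ⟨g, e₄, e₅⟩ := one_sub_tw (R := R⟦X⟧) 6
  rw [e₃, coeff_X_pow_mul_self] at h₄
  have e₆ := congrArg du2 e₁
  rw [map_sub, map_mul, map_mul, map_sub, map_one, du2_tw, map_pow, du2_X] at e₆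
  have e₇ : tw R⟦X⟧ 6 * tw _ (-6) = 1 := by rw [← tw_add, add_neg_cancel, tw_zero]
  have e₈ : (1 - tw _ 6) * Φ - ((1 - tw _ 6) * B - tw _ 6 * du2 G₁ * G₂) =
      X ^ 6 * (g * y₃ + X * (-(g * du2 α₁ * y₂) + tw _ 6 * du2 y₁ * (g * α₂ + X ^ 5 * y₂))) := by
    linear_combination (1 - tw _ 6) * e₃ + tw _ 6 * G₂ * e₆ - du2 α₁ * G₂ * e₇ +
      (tw _ 6 * X ^ 6 * du2 y₁ - (1 - tw _ 6) * du2 α₁) * e₂ +
      (X ^ 5 * y₃ - du2 α₁ * X ^ 6 * y₂ + tw _ 6 * X ^ 6 * du2 y₁ * α₂) * e₄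
  rw [e₈, coeff_X_pow_mul_self, map_add, map_mul, map_mul, constantCoeff_X, zero_mul, add_zero, e₅,
    h₄]
  norm_num [map_ofNat]

end Vale.Agent.P287T.Rr
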